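import Crest.Agent.R196.Cone

/-! Row 196: uniform averages in `LevelData`. -/

set_option autoImplicit false

universe u

namespace Crest.Agent.R196

open Finset

/-- the averaged form of the configuration -/
structure LevelAvg {F : Type} [Field F] [Fintype F] {V : Type u} (C : Cone V) (w : F → V)
    (ε : ℝ) : Prop where
  nrm : ∑ x, C.nrm (w x) = Fintype.card F
  sup : ∀ x, C.nrm (w x) ≤ ε * Fintype.card F
  orth : -ε * (Fintype.card F : ℝ) ^ 2 ≤ ∑ p : F × F, C.ip (w p.1) (w p.2)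
  bas : ∑ p : F × F × F × F,
    C.nrm (C.add (C.add (C.add (w p.1) (w p.2.1)) (w p.2.2.1)) (w p.2.2.2)) ≤
      4 * (Fintype.card F : ℝ) ^ 4
  cadd : (1 - ε) * (Fintype.card F : ℝ) ^ 2 ≤
    ∑ p : F × F, C.ip (w (p.1 + p.2)) (C.add (w p.1) (w p.2))
  cmul : (1 - ε) * (Fintype.card F : ℝ) ^ 2 ≤
    ∑ p : F × F, C.ip (w (p.1 * p.2)) (C.add (w p.1) (w p.2))
  flag : (1 - ε) * (Fintype.card F : ℝ) ^ 3 ≤ ∑ p : F × F × F,
    C.ip (C.add (w p.1) (w p.2.1)) (C.add (w p.2.2) (w (p.2.1 + p.2.2 * p.1)))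

section aux

variable {F : Type} [Field F] [Fintype F] [DecidableEq F] {V : Type u} {C : Cone V} {w : F → V}
  {χ : Bool → F × F → V} {ρ : ℝ}

omit [DecidableEq F] in
theorem aa_q : (1 : ℝ) ≤ Fintype.card F := by exact_mod_cast Fintype.card_pos

theorem aa_rho (h : LevelData C w χ ρ) : 1 ≤ ρ * Fintype.card F := by
  have h1 : ∑ x, C.nrm (w x) ≤ ∑ _x : F, ρ * Fintype.card F := sum_le_sum fun x _ => h.sup x
  rw [h.nrm, sum_const, card_univ, nsmul_eq_mul] at h1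
  have := aa_q (F := F)
  nlinarith

theorem aa_T1 (h : LevelData C w χ ρ) (g : V) : ∑ d, C.nrm (C.add g (w d)) ≤
    Fintype.card F * C.nrm g + Fintype.card F := by
  simp only [C.nrm_add, sum_add_distrib, ← mul_sum, h.nrm, sum_const, card_univ, nsmul_eq_mul]
  linarith [h.cen g]

theorem aa_T2 (h : LevelData C w χ ρ) (g : V) :
    ∑ c, ∑ d, C.nrm (C.add (C.add g (w c)) (w d)) ≤
      (Fintype.card F : ℝ) ^ 2 * C.nrm g + 2 * (Fintype.card F : ℝ) ^ 2 := by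
  refine (sum_le_sum fun c _ => aa_T1 h _).trans ?_
  simp only [sum_add_distrib, ← mul_sum, sum_const, card_univ, nsmul_eq_mul]
  have := mul_le_mul_of_nonneg_left (aa_T1 h g) (Nat.cast_nonneg (α := ℝ) (Fintype.card F))
  nlinarith

theorem aa_T3 (h : LevelData C w χ ρ) (g : V) :
    ∑ b, ∑ c, ∑ d, C.nrm (C.add (C.add (C.add g (w b)) (w c)) (w d)) ≤
      (Fintype.card F : ℝ) ^ 3 * C.nrm g + 3 * (Fintype.card F : ℝ) ^ 3 := by
  refine (sum_le_sum fun c _ => aa_T2 h _).trans ?_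
  simp only [sum_add_distrib, ← mul_sum, sum_const, card_univ, nsmul_eq_mul]
  have := mul_le_mul_of_nonneg_left (aa_T1 h g) (sq_nonneg (Fintype.card F : ℝ))
  nlinarith

theorem aa_bas (h : LevelData C w χ ρ) : ∑ p : F × F × F × F,
    C.nrm (C.add (C.add (C.add (w p.1) (w p.2.1)) (w p.2.2.1)) (w p.2.2.2)) ≤
      4 * (Fintype.card F : ℝ) ^ 4 := by
  simp only [Fintype.sum_prod_type]
  refine (sum_le_sum fun c _ => aa_T3 h _).trans ?_
  simp only [sum_add_distrib, ← mul_sum, sum_const, card_univ, nsmul_eq_mul, h.nrm]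
  nlinarith

theorem aa_K (h : LevelData C w χ ρ) : ∑ p : F × F, C.ip (w p.1) (w p.2) ≤ 0 := by
  rw [Fintype.sum_prod_type]
  exact sum_nonpos fun x _ => h.cen (w x)

theorem aa_Theta (h : LevelData C w χ ρ) (β : Bool) :
    ∑ p : F × F, C.D (χ β p) (C.add (w p.1) (w p.2)) ≤
      3 * ρ * (Fintype.card F : ℝ) ^ 2 + 2 * ∑ p : F × F, C.ip (w p.1) (w p.2) := by
  have h1 : ∀ p : F × F, C.D (χ β p) (C.add (w p.1) (w p.2)) ≤
      C.D (χ β p) (w (slot 0 p.1 p.2)) + C.D (χ β p) (w (slot 1 p.1 p.2)) - C.nrm (χ β p) +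
        2 * C.ip (w p.1) (w p.2) := by
    intro p
    change _ ≤ C.D (χ β p) (w p.1) + C.D (χ β p) (w p.2) - _ + _
    have := C.ip_add (χ β p) (w p.1) (w p.2)
    rw [C.D_eq, C.D_eq, C.D_eq, C.nrm_add]
    linarith
  refine (sum_le_sum fun p _ => h1 p).trans ?_
  simp only [sum_add_distrib, sum_sub_distrib, ← mul_sum]
  linarith [h.slt β 0, h.slt β 1, h.big β]

theorem aa_Theta' (h : LevelData C w χ ρ) (β : Bool) :
    ∑ p : F × F, C.D (χ β p) (C.add (w p.1) (w p.2)) ≤ 3 * ρ * (Fintype.card F : ℝ) ^ 2 := by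
  linarith [aa_Theta h β, aa_K h]

theorem aa_K' (h : LevelData C w χ ρ) :
    -(3 * ρ * (Fintype.card F : ℝ) ^ 2) ≤ 2 * ∑ p : F × F, C.ip (w p.1) (w p.2) := by
  have : 0 ≤ ∑ p : F × F, C.D (χ true p) (C.add (w p.1) (w p.2)) :=
    sum_nonneg fun p _ => C.D_nonneg _ _
  linarith [aa_Theta h true]

theorem aa_col {δ : ℝ} (h : LevelData C w χ (δ ^ 2)) (hδ : 0 < δ) (hδ1 : δ ≤ 1) (σ : Fin 4)
    (hN : (1 - δ ^ 2) * (Fintype.card F : ℝ) ^ 2 ≤ ∑ p : F × F, C.nrm (w (slot σ p.1 p.2))) :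
    (2 - 7 * δ) * (Fintype.card F : ℝ) ^ 2 ≤
      2 * ∑ p : F × F, C.ip (w (slot σ p.1 p.2)) (C.add (w p.1) (w p.2)) := by
  have h1 : ∀ p : F × F, (1 - δ) * C.nrm (w (slot σ p.1 p.2)) + C.nrm (χ true p) -
      C.D (χ true p) (w (slot σ p.1 p.2)) - δ⁻¹ * C.D (χ true p) (C.add (w p.1) (w p.2)) ≤
      2 * C.ip (w (slot σ p.1 p.2)) (C.add (w p.1) (w p.2)) := by
    intro p
    have a1 := (abs_le.1 (C.ip_lip (w (slot σ p.1 p.2)) (χ true p) (C.add (w p.1) (w p.2)) hδ)).2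
    have a2 := C.D_eq (χ true p) (w (slot σ p.1 p.2))
    rw [C.ip_symm] at a2
    rw [div_eq_inv_mul (C.D _ _)] at a1
    linarith
  have h2 := sum_le_sum fun p (_ : p ∈ univ) => h1 p
  simp only [sum_add_distrib, sum_sub_distrib, ← mul_sum] at h2
  have h3 := mul_le_mul_of_nonneg_left (aa_Theta' h true) (inv_pos.2 hδ).le
  have h4 : δ⁻¹ * (3 * δ ^ 2 * (Fintype.card F : ℝ) ^ 2) = 3 * δ * (Fintype.card F : ℝ) ^ 2 := by
    field_simp
  have h5 := mul_le_mul_of_nonneg_left hN (sub_nonneg.2 hδ1)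
  have h6 := h.slt true σ
  have h7 := h.big true
  have hq : 0 ≤ (Fintype.card F : ℝ) ^ 2 := sq_nonneg _
  have h8 : 0 ≤ δ * (1 - δ) * (Fintype.card F : ℝ) ^ 2 := by
    have := sub_nonneg.2 hδ1
    positivity
  have h9 : 0 ≤ δ ^ 3 * (Fintype.card F : ℝ) ^ 2 := by positivity
  nlinarith

theorem aa_Nadd (h : LevelData C w χ ρ) :
    ∑ p : F × F, C.nrm (w (slot 2 p.1 p.2)) = (Fintype.card F : ℝ) ^ 2 := by
  change ∑ p : F × F, C.nrm (w (p.1 + p.2)) = _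
  rw [Fintype.sum_prod_type]
  have : ∀ x : F, ∑ y, C.nrm (w (x + y)) = Fintype.card F := fun x =>
    (Equiv.sum_comp (Equiv.addLeft x) (fun y => C.nrm (w y))).trans h.nrm
  simp only [this, sum_const, card_univ, nsmul_eq_mul]
  ring

theorem aa_Nmul (h : LevelData C w χ ρ) :
    (1 - ρ) * (Fintype.card F : ℝ) ^ 2 ≤ ∑ p : F × F, C.nrm (w (slot 3 p.1 p.2)) := by
  change _ ≤ ∑ p : F × F, C.nrm (w (p.1 * p.2))
  rw [Fintype.sum_prod_type]
  have h1 : ∀ x : F, (Fintype.card F : ℝ) - (if x = 0 then (Fintype.card F : ℝ) else 0) ≤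
      ∑ y, C.nrm (w (x * y)) := by
    intro x
    split_ifs with hx
    · rw [sub_self]
      exact sum_nonneg fun y _ => C.nrm_nonneg _
    · rw [sub_zero]
      exact ((Equiv.sum_comp (Equiv.mulLeft₀ x hx) (fun y => C.nrm (w y))).trans h.nrm).ge
  refine le_trans ?_ (sum_le_sum fun x _ => h1 x)
  simp only [sum_sub_distrib, sum_const, card_univ, nsmul_eq_mul, sum_ite_eq', mem_univ, if_true]
  have := aa_rho h
  have := aa_q (F := F)
  nlinarith

omit [Field F] [DecidableEq F] in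
theorem aa_sum1 (f : F × F → ℝ) :
    ∑ t : F × F × F, f (t.1, t.2.1) = Fintype.card F * ∑ p, f p := by
  simp only [Fintype.sum_prod_type, sum_const, card_univ, nsmul_eq_mul, mul_sum]

omit [DecidableEq F] in
theorem aa_sum2 (f : F × F → ℝ) :
    ∑ t : F × F × F, f (t.2.2, t.2.1 + t.2.2 * t.1) = Fintype.card F * ∑ p, f p := by
  have : ∀ x : F, ∑ y : F, ∑ a : F, f (a, y + a * x) = ∑ p, f p := by
    intro x
    rw [sum_comm, Fintype.sum_prod_type]
    exact sum_congr rfl fun a _ => Equiv.sum_comp (Equiv.addRight (a * x)) (fun y => f (a, y))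
  simp only [Fintype.sum_prod_type] at this ⊢
  simp only [this, sum_const, card_univ, nsmul_eq_mul]

theorem aa_nS (h : LevelData C w χ ρ) : (2 - 3 * ρ) * (Fintype.card F : ℝ) ^ 2 ≤
    ∑ p : F × F, C.nrm (C.add (w p.1) (w p.2)) := by
  have h1 : ∑ p : F × F, C.nrm (w p.1) = (Fintype.card F : ℝ) ^ 2 := by
    simp only [Fintype.sum_prod_type, sum_const, card_univ, nsmul_eq_mul, ← mul_sum, h.nrm]
    ring
  have h2 : ∑ p : F × F, C.nrm (w p.2) = (Fintype.card F : ℝ) ^ 2 := by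
    simp only [Fintype.sum_prod_type, sum_const, card_univ, nsmul_eq_mul, h.nrm]
    ring
  simp only [C.nrm_add, sum_add_distrib, ← mul_sum, h1, h2]
  linarith [aa_K' h]

theorem aa_flag {δ : ℝ} (h : LevelData C w χ (δ ^ 2)) (hδ : 0 < δ) (hδ1 : δ ≤ 1) :
    (2 - 98 * δ) * (Fintype.card F : ℝ) ^ 3 ≤ 2 * ∑ p : F × F × F,
      C.ip (C.add (w p.1) (w p.2.1)) (C.add (w p.2.2) (w (p.2.1 + p.2.2 * p.1))) := by
  set q : ℝ := (Fintype.card F : ℝ) with hq
  have hq1 : 1 ≤ q := aa_q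
  let S : F × F → V := fun p => C.add (w p.1) (w p.2)
  let gd : F × F × F → Prop := fun t => t.1 ≠ 0 ∧ t.1 ≠ 1 ∧ t.2.2 ≠ 0 ∧ t.2.2 ≠ 1
  let G : F × F × F → ℝ := fun t =>
    C.D (χ false (t.1, t.2.1)) (χ true (t.2.2, t.2.1 + t.2.2 * t.1))
  let θ : Bool → F × F → ℝ := fun β p => C.D (χ β p) (S p)
  let B : F × F × F → ℝ := fun t => (if t.1 = 0 then 1 else 0) + (if t.1 = 1 then 1 else 0) +
    (if t.2.2 = 0 then 1 else 0) + (if t.2.2 = 1 then 1 else 0)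
  have hθ : ∀ β p, 0 ≤ θ β p := fun β p => C.D_nonneg _ _
  have hS : ∀ p, C.nrm (S p) ≤ 4 * (δ ^ 2 * q) := fun p => by
    linarith [C.nrm_add_le (w p.1) (w p.2), h.sup p.1, h.sup p.2]
  have h1 : ∀ t : F × F × F, C.D (S (t.1, t.2.1)) (S (t.2.2, t.2.1 + t.2.2 * t.1)) ≤
      (1 + δ) ^ 2 * (if gd t then G t else 0) + (1 + δ) * (1 + 1 / δ) * θ false (t.1, t.2.1) +
        (1 + 1 / δ) * θ true (t.2.2, t.2.1 + t.2.2 * t.1) + 16 * (δ ^ 2 * q) * B t := by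
    intro t
    have b1 := hθ false (t.1, t.2.1)
    have b2 := hθ true (t.2.2, t.2.1 + t.2.2 * t.1)
    by_cases ht : gd t
    · have a1 := C.toHad.tri' (S (t.1, t.2.1)) (χ true (t.2.2, t.2.1 + t.2.2 * t.1))
        (S (t.2.2, t.2.1 + t.2.2 * t.1)) hδ
      have a2 := C.toHad.tri' (χ true (t.2.2, t.2.1 + t.2.2 * t.1)) (χ false (t.1, t.2.1))
        (S (t.1, t.2.1)) hδ
      rw [C.D_symm (χ true _) (S _), C.D_symm (χ true _) (χ false _)] at a2
      have a3 := mul_le_mul_of_nonneg_left a2 (show 0 ≤ 1 + δ by positivity)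
      have a4 : B t = 0 := by simp only [B, ht.1, ht.2.1, ht.2.2.1, ht.2.2.2, if_false, add_zero]
      rw [if_pos ht, a4]
      simp only [G, θ]
      linarith
    · have a1 := C.toHad.two (S (t.1, t.2.1)) C.o (S (t.2.2, t.2.1 + t.2.2 * t.1))
      rw [C.D_symm _ C.o] at a1
      have a2 := hS (t.1, t.2.1)
      have a3 := hS (t.2.2, t.2.1 + t.2.2 * t.1)
      unfold Cone.nrm at a2 a3
      have a4 : 1 ≤ B t := by
        simp only [B]
        simp only [gd, not_and_or, not_not] at ht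
        split_ifs <;> first | (norm_num; done) | tauto
      have a5 := mul_le_mul_of_nonneg_left a4 (show 0 ≤ 16 * (δ ^ 2 * q) by positivity)
      have a6 : 0 ≤ (1 + δ) * (1 + 1 / δ) * θ false (t.1, t.2.1) := by positivity
      have a7 : 0 ≤ (1 + 1 / δ) * θ true (t.2.2, t.2.1 + t.2.2 * t.1) := by positivity
      rw [if_neg ht]
      linarith
  have h2 := sum_le_sum fun t (_ : t ∈ univ) => h1 t
  simp only [sum_add_distrib, ← mul_sum] at h2
  rw [aa_sum1 (θ false), aa_sum2 (θ true), ← hq] at h2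
  have h3 : ∑ t : F × F × F, (if gd t then G t else 0) ≤ (2 + δ ^ 2) * q ^ 3 := by
    rw [← sum_filter, sum_subtype (p := gd) (F := inferInstance) _ (by simp)]
    exact h.flg
  have h4 : ∑ t, B t = 4 * q ^ 2 := by
    have e1 : ∀ c : F, ∑ t : F × F × F, (if t.1 = c then (1 : ℝ) else 0) = q ^ 2 := by
      intro c
      rw [Fintype.sum_prod_type_right]
      simp [hq, sq]
    have e2 : ∀ c : F, ∑ t : F × F × F, (if t.2.2 = c then (1 : ℝ) else 0) = q ^ 2 := by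
      intro c
      simp only [Fintype.sum_prod_type, sum_ite_eq', mem_univ, if_true, sum_const, card_univ,
        nsmul_eq_mul, ← hq]
      ring
    simp only [B, sum_add_distrib, e1, e2]
    ring
  have h5 : ∀ β, (1 + 1 / δ) * (q * ∑ p, θ β p) ≤ 6 * δ * q ^ 3 := by
    intro β
    calc (1 + 1 / δ) * (q * ∑ p, θ β p) ≤ (1 + 1 / δ) * (q * (3 * δ ^ 2 * q ^ 2)) := by
          gcongr
          exact aa_Theta' h β
      _ = (3 * δ + 3 * δ * δ) * q ^ 3 := by field_simp; ring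
      _ ≤ (3 * δ + 3 * δ * 1) * q ^ 3 := by gcongr
      _ = _ := by ring
  have h6 : (1 + δ) * (1 + 1 / δ) * (q * ∑ p, θ false p) ≤ 12 * δ * q ^ 3 := by
    rw [mul_assoc]
    calc _ ≤ (1 + 1) * (6 * δ * q ^ 3) := mul_le_mul (by linarith) (h5 false)
          (by have : 0 ≤ ∑ p, θ false p := sum_nonneg fun p _ => hθ _ p
              positivity) (by norm_num)
      _ = _ := by ring
  have h7 : (1 + δ) ^ 2 * ∑ t : F × F × F, (if gd t then G t else 0) ≤ (2 + 10 * δ) * q ^ 3 := by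
    refine (mul_le_mul_of_nonneg_left h3 (sq_nonneg _)).trans ?_
    rw [← mul_assoc]
    refine mul_le_mul_of_nonneg_right ?_ (by positivity)
    have c1 : δ ^ 2 ≤ δ := by nlinarith
    calc (1 + δ) ^ 2 * (2 + δ ^ 2) ≤ (1 + 3 * δ) * (2 + δ) :=
          mul_le_mul (by nlinarith) (by linarith) (by positivity) (by positivity)
      _ ≤ _ := by nlinarith
  have h8 : 16 * (δ ^ 2 * q) * ∑ t, B t ≤ 64 * δ * q ^ 3 := by
    rw [h4]
    calc 16 * (δ ^ 2 * q) * (4 * q ^ 2) = 64 * (δ * δ) * q ^ 3 := by ring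
      _ ≤ 64 * (δ * 1) * q ^ 3 := by gcongr
      _ = _ := by ring
  have h9 : ∀ t : F × F × F, 2 * C.ip (S (t.1, t.2.1)) (S (t.2.2, t.2.1 + t.2.2 * t.1)) =
      C.nrm (S (t.1, t.2.1)) + C.nrm (S (t.2.2, t.2.1 + t.2.2 * t.1)) -
        C.D (S (t.1, t.2.1)) (S (t.2.2, t.2.1 + t.2.2 * t.1)) := fun t => by
    rw [C.D_eq]
    ring
  have h10 := sum_congr (rfl (a := univ)) fun t _ => h9 t
  simp only [sum_add_distrib, sum_sub_distrib, ← mul_sum] at h10
  rw [aa_sum1 (fun p => C.nrm (S p)), aa_sum2 (fun p => C.nrm (S p)), ← hq] at h10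
  have h11 : (2 - 3 * δ) * q ^ 3 ≤ q * ∑ p, C.nrm (S p) := by
    refine le_trans ?_ (mul_le_mul_of_nonneg_left (aa_nS h) (by positivity))
    calc (2 - 3 * δ) * q ^ 3 = (2 - 3 * (δ * 1)) * q ^ 3 := by ring
      _ ≤ (2 - 3 * (δ * δ)) * q ^ 3 := by gcongr
      _ = _ := by rw [← hq]; ring
  have h12 := h5 true
  change _ ≤ 2 * ∑ t : F × F × F, C.ip (S (t.1, t.2.1)) (S (t.2.2, t.2.1 + t.2.2 * t.1))
  rw [h10]
  linarith

end aux

/-- Let `q = card F`, `E` the uniform mean, `S x y = w x + w y`; `nrm` and `sup` give `1 ≤ ρ q`.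
`bas`: `nrm_add` three times and `cen`.  By `ip_add`,
`D χ S ≤ D χ (w x) + D χ (w y) - nrm χ + 2 ip (w x) (w y)`, so with `κ = E ip (w x) (w y) ≤ 0`:
`0 ≤ θ β = E D (χ β) S ≤ 3 ρ + 2 κ ≤ 3 ρ`.  `cadd`, `cmul`: `ip (w z) S ≥ ip (w z) χ -
(δ nrm (w z) + D χ S / δ) / 2` (`ip_lip`), `2 ip (w z) χ = nrm (w z) + nrm χ - D`, and
`E nrm (w (x * y)) = ((q - 1) q + q nrm (w 0)) / q² ∈ [1 - ρ, 1 + ρ]`.  `flag`:
`2 ip S S' = nrm S + nrm S' - D S S'`, `E nrm S = E nrm S' = 2 + 2 κ` (the map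
`(x, y, a) ↦ (a, y + a x, x)` is a bijection); on good triples
`D S S' ≤ (1 + δ) D χ χ' + 2 (1 + 1 / δ) (D S χ + D χ' S')`-type bound (`tri'`), the at most `4 q²`
bad triples have `D S S' ≤ 16 ρ q`. -/
theorem level_avg {ε : ℝ} (hε : 0 < ε) :
    ∃ ρ : ℝ, 0 < ρ ∧ ∀ (F : Type) [Field F] [Fintype F] [DecidableEq F] (V : Type u) (C : Cone V)
      (w : F → V) (χ : Bool → F × F → V), LevelData C w χ ρ → LevelAvg C w ε := by
  obtain ⟨δ, hδ, hδ1, hδε⟩ : ∃ δ : ℝ, 0 < δ ∧ δ ≤ 1 ∧ 49 * δ ≤ ε :=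
    ⟨min 1 (ε / 49), by positivity, min_le_left _ _, by linarith [min_le_right 1 (ε / 49)]⟩
  refine ⟨δ ^ 2, by positivity, fun F _ _ _ V C w χ h => ?_⟩
  have hq : (1 : ℝ) ≤ Fintype.card F := aa_q
  have hρ : δ ^ 2 ≤ δ := by nlinarith
  have hq2 : 0 ≤ (Fintype.card F : ℝ) ^ 2 := by positivity
  have hq3 : 0 ≤ (Fintype.card F : ℝ) ^ 3 := by positivity
  refine ⟨h.nrm, fun x => (h.sup x).trans (by gcongr; linarith), ?_, aa_bas h, ?_, ?_, ?_⟩
  · have := aa_K' h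
    nlinarith
  · have := aa_col h hδ hδ1 2 (by rw [aa_Nadd h]; nlinarith [sq_nonneg δ])
    change _ ≤ 2 * ∑ p : F × F, C.ip (w (p.1 + p.2)) (C.add (w p.1) (w p.2)) at this
    nlinarith
  · have := aa_col h hδ hδ1 3 (aa_Nmul h)
    change _ ≤ 2 * ∑ p : F × F, C.ip (w (p.1 * p.2)) (C.add (w p.1) (w p.2)) at this
    nlinarith
  · have := aa_flag h hδ hδ1
    nlinarith

end Crest.Agent.R196
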