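import Crest.Agent.R196.ApproxA

/-! Row 196: the approximate configuration in the `L²` cone. -/

set_option autoImplicit false

universe u

namespace Crest.Agent.R196

open Finset

/-- the `L²` cone over a finite set -/
noncomputable def abCone {V : Type u} (C : Cone V) (Ω : Type) [Fintype Ω] : Cone (Ω → V) where
  D f g := (∑ ω, C.D (f ω) (g ω)) / Fintype.card Ω
  mid f g ω := C.mid (f ω) (g ω)
  D_self f := by simp [C.D_self]
  D_symm f g := by simp only [C.D_symm (f _)]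
  D_nonneg f g := div_nonneg (sum_nonneg fun ω _ => C.D_nonneg _ _) (Nat.cast_nonneg _)
  tri f g h t h0 h1 := by
    rw [← mul_div_assoc, ← mul_div_assoc, ← mul_div_assoc, ← add_div, mul_sum, mul_sum, mul_sum,
      ← sum_add_distrib]
    exact div_le_div_of_nonneg_right (sum_le_sum fun ω _ => C.tri _ _ _ t h0 h1) (Nat.cast_nonneg _)
  CN g e f := by
    have h : ∑ ω, C.D (g ω) (C.mid (e ω) (f ω)) ≤ (∑ ω, C.D (g ω) (e ω)) / 2 +
        (∑ ω, C.D (g ω) (f ω)) / 2 - (∑ ω, C.D (e ω) (f ω)) / 4 := by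
      rw [sum_div, sum_div, sum_div, ← sum_add_distrib, ← sum_sub_distrib]
      exact sum_le_sum fun ω _ => C.CN _ _ _
    refine (div_le_div_of_nonneg_right h (Nat.cast_nonneg _)).trans_eq ?_
    ring
  o _ := C.o
  dbl f ω := C.dbl (f ω)
  half f g := by
    simp only [C.half]
    rw [← sum_div]
    ring
  half_dbl f := by simp [C.half_dbl]

theorem ab_nrm {V : Type u} (C : Cone V) (Ω : Type) [Fintype Ω] (f : Ω → V) :
    (abCone C Ω).nrm f = (∑ ω, C.nrm (f ω)) / Fintype.card Ω := rfl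

theorem ab_D {V : Type u} (C : Cone V) (Ω : Type) [Fintype Ω] (f g : Ω → V) :
    (abCone C Ω).D f g = (∑ ω, C.D (f ω) (g ω)) / Fintype.card Ω := rfl

theorem ab_add {V : Type u} (C : Cone V) (Ω : Type) [Fintype Ω] (f g : Ω → V) (ω : Ω) :
    (abCone C Ω).add f g ω = C.add (f ω) (g ω) := rfl

theorem ab_ip {V : Type u} (C : Cone V) (Ω : Type) [Fintype Ω] (f g : Ω → V) :
    (abCone C Ω).ip f g = (∑ ω, C.ip (f ω) (g ω)) / Fintype.card Ω := by
  unfold Cone.ip
  rw [ab_nrm, ab_nrm, ab_D, ← sum_div, sum_sub_distrib, sum_add_distrib]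
  ring

theorem ab_transfer {Ω : Type} [Fintype Ω] [DecidableEq Ω] (S : Finset Ω) (Φ : Ω → Ω)
    (hΦ : Set.InjOn Φ S) (φ : Ω → ℝ) {B : ℝ} (hφ : ∀ y, |φ y| ≤ B) :
    |∑ ω, φ (Φ ω) - ∑ y, φ y| ≤ 2 * (#Sᶜ * B) := by
  have h1 : ∑ ω, φ (Φ ω) = ∑ y ∈ S.image Φ, φ y + ∑ ω ∈ Sᶜ, φ (Φ ω) := by
    rw [sum_image hΦ, sum_add_sum_compl]
  have h2 : ∑ y, φ y = ∑ y ∈ S.image Φ, φ y + ∑ y ∈ (S.image Φ)ᶜ, φ y :=
    (sum_add_sum_compl _ _).symm
  have h3 : #(S.image Φ)ᶜ = #Sᶜ := by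
    rw [card_compl, card_compl, card_image_of_injOn hΦ]
  have h4 : |∑ ω ∈ Sᶜ, φ (Φ ω)| ≤ #Sᶜ * B :=
    (abs_sum_le_sum_abs _ _).trans
      ((sum_le_card_nsmul _ _ B fun ω _ => hφ _).trans_eq (nsmul_eq_mul _ _))
  have h5 : |∑ y ∈ (S.image Φ)ᶜ, φ y| ≤ #Sᶜ * B := by
    rw [← h3]
    exact (abs_sum_le_sum_abs _ _).trans
      ((sum_le_card_nsmul _ _ B fun ω _ => hφ _).trans_eq (nsmul_eq_mul _ _))
  rw [h1, h2, abs_le] at *
  constructor <;> linarith [h4.1, h4.2, h5.1, h5.2]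

open Classical in
theorem ab_card {F : Type} [Field F] [Fintype F] :
    #(univ.filter (Nz (F := F)))ᶜ ≤ 3 * Fintype.card F ^ 3 := by
  have h : (univ.filter (Nz (F := F)))ᶜ ⊆
      (univ.image fun y : F × F × F => ((0 : F), y)) ∪
      (univ.image fun y : F × F × F => (y.1, (0 : F), y.2)) ∪
      (univ.image fun y : F × F × F => (y.1, y.2.1, y.2.2, (0 : F))) := by
    rintro ⟨a, x, u, m⟩ hω
    simp only [mem_compl, mem_filter, mem_univ, true_and, Nz, not_and_or, not_not] at hω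
    simp only [mem_union, mem_image, mem_univ, true_and]
    rcases hω with rfl | rfl | rfl
    · exact .inl (.inl ⟨(x, u, m), rfl⟩)
    · exact .inl (.inr ⟨(a, u, m), rfl⟩)
    · exact .inr ⟨(a, x, u), rfl⟩
  have hc : ∀ g : F × F × F → F × F × F × F, #(univ.image g) ≤ Fintype.card F ^ 3 := fun g =>
    card_image_le.trans_eq (by simp [pow_succ, mul_assoc])
  refine (card_le_card h).trans ((card_union_le _ _).trans ?_)
  refine (add_le_add (card_union_le _ _) le_rfl).trans ?_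
  have := add_le_add (add_le_add (hc fun y => ((0 : F), y)) (hc fun y => (y.1, (0 : F), y.2)))
    (hc fun y => (y.1, y.2.1, y.2.2, (0 : F)))
  omega

theorem ab_mean {F : Type} [Field F] [Fintype F] [CharP F 2] {p q r t : Pt} (hb : IsBas p q r t)
    (φ : F × F × F × F → ℝ) {ε : ℝ} (hε : 0 ≤ ε) (hφ : ∀ y, |φ y| ≤ 22 * (ε * Fintype.card F)) :
    |(∑ ω : F × F × F × F, φ (p.ev ω, q.ev ω, r.ev ω, t.ev ω)) /
      Fintype.card (F × F × F × F) - (∑ y, φ y) / (Fintype.card F : ℝ) ^ 4| ≤ 132 * ε := by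
  classical
  have hq : (0 : ℝ) < Fintype.card F := by exact_mod_cast Fintype.card_pos
  have h1 := ab_transfer (univ.filter (Nz (F := F))) (fun ω => (p.ev ω, q.ev ω, r.ev ω, t.ev ω))
    (fun ω hω ω' hω' h => by
      simp only [coe_filter, mem_univ, true_and, Set.mem_ofPred_eq] at hω hω'
      simp only [Prod.mk.injEq] at h
      exact hb F ω ω' hω hω' h.1 h.2.1 h.2.2.1 h.2.2.2) φ hφ
  have h2 : (#(univ.filter (Nz (F := F)))ᶜ : ℝ) ≤ 3 * (Fintype.card F : ℝ) ^ 3 := by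
    exact_mod_cast ab_card (F := F)
  have h3 : (Fintype.card (F × F × F × F) : ℝ) = (Fintype.card F : ℝ) ^ 4 := by
    simp [pow_succ, mul_assoc]
  rw [h3, ← sub_div, abs_div, abs_of_pos (pow_pos hq 4), div_le_iff₀ (pow_pos hq 4)]
  refine h1.trans ?_
  have h4 := mul_le_mul_of_nonneg_right h2
    (show 0 ≤ 22 * (ε * Fintype.card F) by positivity)
  calc _ ≤ 2 * (3 * (Fintype.card F : ℝ) ^ 3 * (22 * (ε * Fintype.card F))) := by linarith
    _ = _ := by ring

theorem ab_sum1 {F : Type} [Fintype F] (g : F → ℝ) :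
    ∑ y : F × F × F × F, g y.1 = (Fintype.card F : ℝ) ^ 3 * ∑ x, g x := by
  simp only [Fintype.sum_prod_type, sum_const, card_univ, nsmul_eq_mul, mul_sum, Fintype.card_prod,
    Nat.cast_mul]
  exact sum_congr rfl fun _ _ => by ring

theorem ab_sum2 {F : Type} [Fintype F] (g : F → F → ℝ) :
    ∑ y : F × F × F × F, g y.1 y.2.1 = (Fintype.card F : ℝ) ^ 2 * ∑ x : F × F, g x.1 x.2 := by
  simp only [Fintype.sum_prod_type, sum_const, card_univ, nsmul_eq_mul, mul_sum, Fintype.card_prod,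
    Nat.cast_mul]
  exact sum_congr rfl fun _ _ => sum_congr rfl fun _ _ => by ring

theorem ab_sum3 {F : Type} [Fintype F] (g : F → F → F → ℝ) :
    ∑ y : F × F × F × F, g y.1 y.2.1 y.2.2.1 =
      (Fintype.card F : ℝ) * ∑ x : F × F × F, g x.1 x.2.1 x.2.2 := by
  simp only [Fintype.sum_prod_type, sum_const, card_univ, nsmul_eq_mul, mul_sum]

theorem ab_ip_le {V : Type u} (C : Cone V) {x y : V} {B : ℝ} (hx : C.nrm x ≤ B)
    (hy : C.nrm y ≤ B) : |C.ip x y| ≤ B := by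
  have := C.abs_ip_le x y one_pos
  linarith

/-- `T = (F × F × F × F → V)` with `D f g = (∑ ω, C.D (f ω) (g ω)) / q ^ 4` and pointwise
operations is a cone, with pointwise `add` and averaged `nrm`, `ip`; `W p ω = w (p.ev ω)`.
Transfer lemma: if `Φ : F⁴ → F⁴` is injective on `{Nz}` (complement of size `≤ 3 q³`) and
`|φ| ≤ B`, then `|∑ ω, φ (Φ ω) - ∑ y, φ y| ≤ 6 q³ B`.  Use `Φ ω = (p.ev ω, q.ev ω, r.ev ω, t.ev ω)`
and `B ≤ 16 ε q` (`nrm_add_le`, `abs_ip_le`; better `nrm (x + y) ≤ 2 nrm x + 2 nrm y` iterated,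
any constant will do: here `B ≤ 22 ε q`). -/
theorem cfg_of_avg {F : Type} [Field F] [Fintype F] [CharP F 2] {V : Type u} (C : Cone V)
    (w : F → V) {ε : ℝ} (h : LevelAvg C w ε) :
    ∃ (T : Type u) (C' : Cone T) (W : Pt → T), Cfg C' W (200 * ε) := by
  have hq : (0 : ℝ) < Fintype.card F := by exact_mod_cast Fintype.card_pos
  have hB : 0 ≤ ε * Fintype.card F := (C.nrm_nonneg _).trans (h.sup 0)
  have hε : 0 ≤ ε := nonneg_of_mul_nonneg_left hB hq
  have h1 : ∀ x, C.nrm (w x) ≤ 22 * (ε * Fintype.card F) := fun x => by linarith [h.sup x]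
  have h2 : ∀ x y, C.nrm (C.add (w x) (w y)) ≤ 4 * (ε * Fintype.card F) := fun x y => by
    linarith [h.sup x, h.sup y, C.nrm_add_le (w x) (w y)]
  have h2' : ∀ x y, C.nrm (C.add (w x) (w y)) ≤ 22 * (ε * Fintype.card F) := fun x y => by
    linarith [h2 x y]
  have h4 : ∀ x y z t, C.nrm (C.add (C.add (C.add (w x) (w y)) (w z)) (w t)) ≤
      22 * (ε * Fintype.card F) := fun x y z t => by
    linarith [h2 x y, h.sup z, h.sup t, C.nrm_add_le (C.add (w x) (w y)) (w z),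
      C.nrm_add_le (C.add (C.add (w x) (w y)) (w z)) (w t)]
  have hq4 := pow_pos hq 4
  have low2 : ∀ {S a : ℝ}, a * (Fintype.card F : ℝ) ^ 2 ≤ S →
      a ≤ (Fintype.card F : ℝ) ^ 2 * S / (Fintype.card F : ℝ) ^ 4 := fun {S a} hS => by
    rw [le_div_iff₀ hq4]
    calc _ = (Fintype.card F : ℝ) ^ 2 * (a * (Fintype.card F : ℝ) ^ 2) := by ring
      _ ≤ _ := mul_le_mul_of_nonneg_left hS (by positivity)
  refine ⟨F × F × F × F → V, abCone C _, fun p ω => w (p.ev ω), ?_, ?_, ?_, ?_, ?_⟩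
  · intro p q r t hb
    have hm := ab_mean hb (fun y => C.nrm (w y.1)) hε
      (fun y => by rw [abs_of_nonneg (C.nrm_nonneg _)]; exact h1 _)
    rw [ab_sum1 (fun x => C.nrm (w x)), h.nrm, ← pow_succ, div_self hq4.ne'] at hm
    rw [ab_nrm]
    linarith
  · intro p q r t hb
    have hm := ab_mean hb
      (fun y => C.nrm (C.add (C.add (C.add (w y.1) (w y.2.1)) (w y.2.2.1)) (w y.2.2.2))) hε
      (fun y => by rw [abs_of_nonneg (C.nrm_nonneg _)]; exact h4 _ _ _ _)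
    have h5 := (div_le_iff₀ hq4).2 h.bas
    rw [ab_nrm]
    simp only [ab_add]
    linarith [(abs_le.1 hm).2]
  · intro p q r t hb
    have hm := ab_mean hb (fun y => C.ip (w y.1) (w y.2.1)) hε
      (fun y => ab_ip_le C (h1 _) (h1 _))
    rw [ab_sum2 (fun x y => C.ip (w x) (w y))] at hm
    have h5 := low2 h.orth
    rw [ab_ip]
    linarith [(abs_le.1 hm).1]
  · intro z p q r t hb hz
    rw [ab_ip]
    simp only [ab_add]
    rcases hz with hz | hz
    · have hm := ab_mean hb (fun y => C.ip (w (y.1 + y.2.1)) (C.add (w y.1) (w y.2.1))) hε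
        (fun y => ab_ip_le C (h1 _) (h2' _ _))
      rw [ab_sum2 (fun x y => C.ip (w (x + y)) (C.add (w x) (w y)))] at hm
      have h5 := low2 h.cadd
      simp only [hz F]
      linarith [(abs_le.1 hm).1]
    · have hm := ab_mean hb (fun y => C.ip (w (y.1 * y.2.1)) (C.add (w y.1) (w y.2.1))) hε
        (fun y => ab_ip_le C (h1 _) (h2' _ _))
      rw [ab_sum2 (fun x y => C.ip (w (x * y)) (C.add (w x) (w y)))] at hm
      have h5 := low2 h.cmul
      simp only [hz F]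
      linarith [(abs_le.1 hm).1]
  · intro z p q r t hb hz
    rw [ab_ip]
    simp only [ab_add]
    have hm := ab_mean hb (fun y => C.ip (C.add (w y.1) (w y.2.1))
      (C.add (w y.2.2.1) (w (y.2.1 + y.2.2.1 * y.1)))) hε
      (fun y => ab_ip_le C (h2' _ _) (h2' _ _))
    rw [ab_sum3 (fun x y a => C.ip (C.add (w x) (w y)) (C.add (w a) (w (y + a * x))))] at hm
    have h5 : 1 - ε ≤ (Fintype.card F : ℝ) * (∑ p : F × F × F,
        C.ip (C.add (w p.1) (w p.2.1)) (C.add (w p.2.2) (w (p.2.1 + p.2.2 * p.1)))) /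
        (Fintype.card F : ℝ) ^ 4 := by
      rw [le_div_iff₀ hq4]
      calc _ = (Fintype.card F : ℝ) * ((1 - ε) * (Fintype.card F : ℝ) ^ 3) := by ring
        _ ≤ _ := mul_le_mul_of_nonneg_left h.flag hq.le
    simp only [hz F]
    linarith [(abs_le.1 hm).1]

end Crest.Agent.R196
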