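import Crest.Agent.R196.Cone
import Crest.Prelude.Def_GeometricAction

/-! Row 196: CAT(0) spaces, barycentres, small displacement. -/

set_option autoImplicit false

universe u

namespace Crest.Agent.R196

open Finset

open Crest.Geometry

theorem bary_mid {X : Type u} [MetricSpace X] (h : IsCAT0Space X) (e f : X) :
    ∃ m, ∀ g, dist g m ^ 2 ≤ dist g e ^ 2 / 2 + dist g f ^ 2 / 2 - dist e f ^ 2 / 4 := by
  obtain ⟨γ, hγ⟩ := h.1 e f
  refine ⟨γ (dist e f / 2), fun g => ?_⟩
  obtain ⟨γ', hγ'⟩ := h.1 e g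
  have ha : 0 ≤ dist e f := dist_nonneg
  have key := h.2 e f g γ γ' hγ hγ' (dist e f / 2) ⟨by linarith, by linarith⟩ (dist e g)
    ⟨dist_nonneg, le_rfl⟩
  rw [hγ'.2.1, dist_comm] at key
  rw [dist_comm g e, dist_comm g f]
  refine key.trans (le_of_eq ?_)
  by_cases h1 : e = f
  · subst h1
    simp
  by_cases h2 : e = g
  · subst h2
    rw [dist_comm f e]
    simp
    ring
  have h3 := dist_ne_zero.2 h1
  have h4 := dist_ne_zero.2 h2
  field_simp
  ring

theorem bary_min {X : Type u} [MetricSpace X] [CompleteSpace X] [Nonempty X] {F : X → ℝ}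
    (hF : Continuous F) (h0 : ∀ x, 0 ≤ F x)
    (hc : ∀ x y, ∃ m, F m ≤ F x / 2 + F y / 2 - dist x y ^ 2 / 4) : ∃ p, ∀ z, F p ≤ F z := by
  have hb : BddBelow (Set.range F) := ⟨0, by rintro _ ⟨x, rfl⟩; exact h0 x⟩
  have hle : ∀ z, ⨅ x, F x ≤ F z := fun z => ciInf_le hb z
  have hex : ∀ k : ℕ, ∃ x, F x < (⨅ x, F x) + 1 / ((k : ℝ) + 1) := fun k =>
    exists_lt_of_ciInf_lt (lt_add_of_pos_right _ (by positivity))
  choose s hs using hex
  have hlim : Filter.Tendsto (fun k : ℕ => 1 / ((k : ℝ) + 1)) Filter.atTop (nhds 0) :=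
    tendsto_one_div_add_atTop_nhds_zero_nat
  have hcau : CauchySeq s := by
    rw [Metric.cauchySeq_iff]
    intro ε hε
    obtain ⟨N, hN⟩ := Filter.eventually_atTop.1
      (hlim.eventually (gt_mem_nhds (show 0 < ε ^ 2 / 4 by positivity)))
    refine ⟨N, fun k hk l hl => ?_⟩
    obtain ⟨m, hm⟩ := hc (s k) (s l)
    have h1 := hle m
    have h2 := hs k
    have h3 := hs l
    have h4 := hN k hk
    have h5 := hN l hl
    exact lt_of_pow_lt_pow_left₀ 2 hε.le (by linarith)
  obtain ⟨p, hp⟩ := cauchySeq_tendsto_of_complete hcau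
  refine ⟨p, fun z => le_trans ?_ (hle z)⟩
  have h1 := hlim.const_add (⨅ x, F x)
  rw [add_zero] at h1
  exact le_of_tendsto_of_tendsto' ((hF.tendsto p).comp hp) h1 fun k => (hs k).le

/-- `mid e f = γ (dist e f / 2)` for a chosen geodesic.  `CN`: comparison at the vertex `e` with
`s = dist e f / 2`, `t = dist e g` (treat `e = f` and `e = g` separately).  `tri` follows from the
triangle inequality.  Minimiser: for `ι` nonempty, a minimising sequence for
`z ↦ ∑ i, dist z (A i) ^ 2` is Cauchy by `CN`. -/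
theorem exists_had (X : Type u) [MetricSpace X] [CompleteSpace X] [Nonempty X]
    (h : IsCAT0Space X) :
    ∃ H : Had X, (∀ x y, H.D x y = dist x y ^ 2) ∧
      ∀ (ι : Type) [Fintype ι] (A : ι → X), ∃ p, H.IsMin p A := by
  choose mid hmid using bary_mid h
  refine ⟨⟨fun x y => dist x y ^ 2, mid, fun x => by simp, fun x y => by rw [dist_comm],
    fun x y => sq_nonneg _, fun x y z t h0 h1 => ?_, fun g e f => hmid e f g⟩, fun _ _ => rfl,
    fun ι _ A => ?_⟩
  · have h2 : dist x z ^ 2 ≤ (dist x y + dist y z) ^ 2 :=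
      pow_le_pow_left₀ dist_nonneg (dist_triangle x y z) 2
    have h3 := mul_le_mul_of_nonneg_left h2 (mul_nonneg h0 (sub_nonneg.2 h1))
    nlinarith [sq_nonneg ((1 - t) * dist x y - t * dist y z)]
  · rcases isEmpty_or_nonempty ι with hι | hι
    · exact ⟨Classical.arbitrary X, fun z => by simp⟩
    refine bary_min (F := fun z => ∑ i, dist z (A i) ^ 2) (by fun_prop)
      (fun z => sum_nonneg fun i _ => sq_nonneg _) fun x y => ⟨mid x y, ?_⟩
    have h1 : ∑ i, dist (mid x y) (A i) ^ 2 ≤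
        ∑ i, (dist x (A i) ^ 2 / 2 + dist y (A i) ^ 2 / 2 - dist x y ^ 2 / 4) :=
      sum_le_sum fun i _ => by
        rw [dist_comm, dist_comm x (A i), dist_comm y (A i)]
        exact hmid x y (A i)
    rw [sum_sub_distrib, sum_add_distrib, ← sum_div, ← sum_div, sum_const, card_univ,
      nsmul_eq_mul] at h1
    have h2 : (1 : ℝ) ≤ Fintype.card ι := by exact_mod_cast Fintype.card_pos
    nlinarith [sq_nonneg (dist x y)]

/-- Let `K` be the compact set of cocompactness, `K' = cthickening 1 K` (compact),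
`Φ = {γ | γ K' ∩ K' ≠ ∅}` finite with `n` elements.  Take `z = h • y`, `y ∈ K`, moved by at most
`1 / (n + 1)`; `g' = h⁻¹ g h` has `dist (g' ^ j • y) y ≤ j / (n + 1)`, so `g' ^ j ∈ Φ` for `j ≤ n`;
pigeonhole. -/
theorem finOrder_of_disp {G : Type} [Group G] {X : Type u} [MetricSpace X] [ProperSpace X]
    [MulAction G X] (h : IsGeometricAction G X) (g : G)
    (hg : ∀ ε : ℝ, 0 < ε → ∃ z : X, dist (g • z) z ≤ ε) : IsOfFinOrder g := by
  classical
  obtain ⟨hiso, hprop, K, hK, hcov⟩ := h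
  have hΦ := hprop _ (hK.cthickening (r := 1))
  by_contra hord
  have hinj := injective_pow_iff_not_isOfFinOrder.2 hord
  set n := hΦ.toFinset.card with hn
  obtain ⟨z, hz⟩ := hg (1 / ((n : ℝ) + 1)) (by positivity)
  obtain ⟨k, y, hy, rfl⟩ := hcov z
  have hd : ∀ j : ℕ, dist (g ^ j • k • y) (k • y) ≤ j * (1 / ((n : ℝ) + 1)) := by
    intro j
    induction j with
    | zero => simp
    | succ j ih =>
      have h1 := dist_triangle (g ^ (j + 1) • k • y) (g ^ j • k • y) (k • y)
      have h2 : dist (g ^ (j + 1) • k • y) (g ^ j • k • y) = dist (g • k • y) (k • y) := by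
        rw [pow_succ, mul_smul, dist_smul]
      push_cast
      linarith
  have h1 : (range (n + 1)).card ≤ hΦ.toFinset.card := by
    refine card_le_card_of_injOn (fun j => k⁻¹ * g ^ j * k) (fun j hj => ?_) fun i _ j _ e => ?_
    · rw [mem_coe, Set.Finite.mem_toFinset]
      refine ⟨(k⁻¹ * g ^ j * k) • y, ⟨y, Metric.self_subset_cthickening _ hy, rfl⟩, ?_⟩
      refine Metric.mem_cthickening_of_dist_le _ y _ _ hy ?_
      rw [← dist_smul k, ← mul_smul, ← mul_assoc, ← mul_assoc, mul_inv_cancel, one_mul, mul_smul]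
      refine (hd j).trans ?_
      have hj' : (j : ℝ) ≤ n + 1 := by exact_mod_cast (mem_range.1 (mem_coe.1 hj)).le
      rw [mul_one_div, div_le_one (by positivity)]
      exact hj'
    · exact hinj (mul_left_cancel (mul_right_cancel e))
  rw [card_range] at h1
  omega

end Crest.Agent.R196
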