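import Crest.Agent.R196.Defs

/-! Row 196: the bases and collinearities of the configuration. -/

set_option autoImplicit false

namespace Crest.Agent.R196

theorem IsBas.perm {p q r t p' q' r' t' : Pt} (h : IsBas p q r t)
    (hp : ∀ y ∈ [p, q, r, t], y ∈ [p', q', r', t']) : IsBas p' q' r' t' := by
  intro F _ _ ω ω' h0 h0' h1 h2 h3 h4
  have key : ∀ y ∈ [p', q', r', t'], y.ev ω = y.ev ω' := by
    simp only [List.mem_cons, List.not_mem_nil, or_false]
    rintro y (rfl | rfl | rfl | rfl) <;> assumption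
  exact h F ω ω' h0 h0' (key _ (hp _ (by simp))) (key _ (hp _ (by simp))) (key _ (hp _ (by simp)))
    (key _ (hp _ (by simp)))

/-- prove that four points form a basis -/
macro "bas_tac" : tactic => `(tactic| (
  rintro F _ _ ⟨a, x, u, m⟩ ⟨a', x', u', m'⟩ ⟨ha, hx, hm⟩ ⟨ha', hx', hm'⟩ h1 h2 h3 h4
  simp only [Pt.ev, Prod.mk.injEq] at *
  grind))

open Pt

theorem B_axum : IsBas a x u m := by bas_tac
theorem B_aucx : IsBas a u c x := by bas_tac
theorem B_aucs : IsBas a u c s := by bas_tac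
theorem B_aucg : IsBas a u c g := by bas_tac
theorem B_auce : IsBas a u c e := by bas_tac
theorem B_auck : IsBas a u c k := by bas_tac
theorem B_avcx : IsBas a v c x := by bas_tac
theorem B_xbca : IsBas x b c a := by bas_tac
theorem B_xbcm : IsBas x b c m := by bas_tac
theorem B_musa : IsBas m u s a := by bas_tac
theorem B_agbu : IsBas a g b u := by bas_tac
theorem B_agbc : IsBas a g b c := by bas_tac
theorem B_xuak : IsBas x u a k := by bas_tac
theorem B_avgx : IsBas a v g x := by bas_tac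
theorem B_xfua : IsBas x f u a := by bas_tac
theorem B_xuga : IsBas x u g a := by bas_tac
theorem B_abvx : IsBas a b v x := by bas_tac
theorem B_xfca : IsBas x f c a := by bas_tac
theorem B_xuea : IsBas x u e a := by bas_tac
theorem B_kbax : IsBas k b a x := by bas_tac
theorem B_kvax : IsBas k v a x := by bas_tac
theorem B_kfax : IsBas k f a x := by bas_tac
theorem B_gfax : IsBas g f a x := by bas_tac
theorem B_avex : IsBas a v e x := by bas_tac

theorem B_xukm : IsBas x u k m := by
  rintro F _ _ ⟨a, x, u, m⟩ ⟨a', x', u', m'⟩ ⟨ha, hx, hm⟩ ⟨ha', hx', hm'⟩ h1 h2 h3 h4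
  simp only [Pt.ev, Prod.mk.injEq] at *
  subst h1 h2 h4
  have h5 : a ^ 2 = a' ^ 2 := by
    apply mul_right_cancel₀ (mul_ne_zero hm hx)
    linear_combination h3
  have h6 : (a - a') ^ 2 = 0 := by
    rw [sub_pow_char, h5, sub_self]
  exact ⟨sub_eq_zero.1 (pow_eq_zero_iff two_ne_zero |>.1 h6), rfl, rfl, rfl⟩

/-- prove a collinearity -/
macro "col_tac" : tactic => `(tactic| first
  | (left; rintro F _ _ ⟨a, x, u, m⟩; simp only [Pt.ev] <;> grind)
  | (right; rintro F _ _ ⟨a, x, u, m⟩; simp only [Pt.ev] <;> grind))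

theorem C_sax : IsCol s a x := by col_tac
theorem C_cam : IsCol c a m := by col_tac
theorem C_gms : IsCol g m s := by col_tac
theorem C_gcx : IsCol g c x := by col_tac
theorem C_bus : IsCol b u s := by col_tac
theorem C_vuc : IsCol v u c := by col_tac
theorem C_fbc : IsCol f b c := by col_tac
theorem C_kga : IsCol k g a := by col_tac
theorem C_kcs : IsCol k c s := by col_tac
theorem C_ecs : IsCol e c s := by col_tac
theorem C_ebv : IsCol e b v := by col_tac
theorem C_euf : IsCol e u f := by col_tac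

theorem L_b : IsLin b x u a := by
  rintro F _ _ ⟨a, x, u, m⟩; simp only [Pt.ev]

theorem L_v : IsLin v x f a := by
  rintro F _ _ ⟨a, x, u, m⟩; simp only [Pt.ev]; grind

theorem Pt.exists_bas' (p : Pt) : ∃ q r t, IsBas p q r t := by
  cases p
  · exact ⟨_, _, _, B_axum⟩
  · exact ⟨_, _, _, B_xbca⟩
  · exact ⟨a, x, m, B_axum.perm (by simp)⟩
  · exact ⟨_, _, _, B_musa⟩
  · exact ⟨m, u, a, B_musa.perm (by simp)⟩
  · exact ⟨x, c, a, B_xbca.perm (by simp)⟩
  · exact ⟨x, b, a, B_xbca.perm (by simp)⟩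
  · exact ⟨x, u, a, B_xuga.perm (by simp)⟩
  · exact ⟨_, _, _, B_kbax⟩
  · exact ⟨a, c, x, B_avcx.perm (by simp)⟩
  · exact ⟨x, u, a, B_xfua.perm (by simp)⟩
  · exact ⟨x, u, a, B_xuea.perm (by simp)⟩

end Crest.Agent.R196
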