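import Crest.Agent.R196.Final

/-! Row 196: compactness. -/

set_option autoImplicit false

universe u

namespace Crest.Agent.R196

open Finset

open Filter Topology

/-- a cone is a pre-cone -/
def Cone.cpPH {V : Type u} (C : Cone V) : PH V where
  D := C.D
  o := C.o
  hf := C.mid C.o
  dbl := C.dbl
  D_self := C.D_self
  D_symm := C.D_symm
  D_nonneg := C.D_nonneg
  tri := C.tri
  Q e f g m t h0 h1 := by
    have a1 := mul_le_mul_of_nonneg_left (C.CN g e f) h0
    have a2 := mul_le_mul_of_nonneg_left (C.CN m e f) (sub_nonneg.2 h1)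
    have a3 := C.tri g (C.mid e f) m (1 - t) (sub_nonneg.2 h1) (by linarith)
    rw [C.D_symm (C.mid e f) m] at a3
    rw [C.D_symm e g, C.D_symm f g, C.D_symm e m, C.D_symm f m]
    nlinarith
  amid e f ε hε := ⟨C.mid e f, by rw [C.toHad.D_mid_left]; linarith,
    by rw [C.toHad.D_mid_right]; linarith⟩
  hf_o x := (C.toHad.D_mid_left _ _).le
  hf_x x := (C.toHad.D_mid_right _ _).le
  half := C.half
  half_dbl := C.half_dbl

theorem cp_lim (V : ℕ → Type u) (C : ∀ n, Cone (V n)) :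
    ∃ (U : Ultrafilter ℕ) (T : Type u) (C' : Cone T) (Rep : T → (∀ n, V n) → Prop),
      (U : Filter ℕ) ≤ atTop ∧ (∀ f : ∀ n, V n, (∃ B, ∀ n, (C n).nrm (f n) ≤ B) → ∃ x, Rep x f) ∧
      (∀ x f, Rep x f → Tendsto (fun n => (C n).nrm (f n)) U (𝓝 (C'.nrm x))) ∧
      (∀ x y f g, Rep x f → Rep y g → Tendsto (fun n => (C n).ip (f n) (g n)) U (𝓝 (C'.ip x y))) ∧
      ∀ x y f g, Rep x f → Rep y g → Rep (C'.add x y) fun n => (C n).add (f n) (g n) := by
  obtain ⟨U, T, C', ev, hU, hex, hbd, hD, ho, hdbl⟩ := exists_ultra V fun n => (C n).cpPH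
  simp only [Cone.cpPH] at hex hbd hD ho hdbl
  have h1 : ∀ x y x' y', C'.D x x' = 0 → C'.D y y' = 0 →
      Tendsto (fun n => (C n).D (ev x' n) (ev y' n)) U (𝓝 (C'.D x y)) := fun x y x' y' hx hy => by
    rw [C'.toHad.congr_left hx, C'.toHad.congr_right x' hy]
    exact hD x' y'
  have h2 : ∀ x x', C'.D x x' = 0 → Tendsto (fun n => (C n).nrm (ev x' n)) U (𝓝 (C'.nrm x)) :=
    fun x x' hx => by
      have := h1 _ _ _ _ (C'.D_self C'.o) hx
      simpa only [ho, Cone.nrm] using this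
  refine ⟨U, T, C', fun x f => ∃ x', ev x' = f ∧ C'.D x x' = 0, hU, fun f hf => ?_, ?_, ?_, ?_⟩
  · obtain ⟨x, hx⟩ := hex f hf
    exact ⟨x, x, hx, C'.D_self x⟩
  · rintro x _ ⟨x', rfl, hx⟩
    exact h2 x x' hx
  · rintro x y _ _ ⟨x', rfl, hx⟩ ⟨y', rfl, hy⟩
    exact (((h2 x x' hx).add (h2 y y' hy)).sub (h1 x y x' y' hx hy)).div_const 2
  · rintro x y _ _ ⟨x', rfl, hx⟩ ⟨y', rfl, hy⟩
    obtain ⟨B1, hB1⟩ := hbd x'
    obtain ⟨B2, hB2⟩ := hbd y'
    obtain ⟨m, hm⟩ := hex (fun n => (C n).mid (ev x' n) (ev y' n)) ⟨B1 / 2 + B2 / 2, fun n => by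
      linarith [(C n).CN (C n).o (ev x' n) (ev y' n), hB1 n, hB2 n,
        (C n).D_nonneg (ev x' n) (ev y' n)]⟩
    have e1 : C'.D x' m = C'.D x' y' / 4 := by
      refine tendsto_nhds_unique (hD x' m) ?_
      simpa only [hm, Had.D_mid_left] using (hD x' y').div_const 4
    have e2 : C'.D y' m = C'.D x' y' / 4 := by
      refine tendsto_nhds_unique (hD y' m) ?_
      simpa only [hm, Had.D_mid_right] using (hD x' y').div_const 4
    refine ⟨C'.dbl m, funext fun n => by rw [hdbl, hm]; rfl, ?_⟩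
    rw [C'.toHad.congr_left (C'.add_congr hx hy), Cone.add, C'.D_dbl, C'.D_symm,
      C'.toHad.mid_unique e1.le e2.le, mul_zero]

/-- Otherwise choose cones `C n` with `Cfg (C n) (W n) (1 / (n + 1))`.  A cone is a `PH`
(`hf = mid o`; `Q`: `CN` for `g` and `m` at `mid e f`, then `tri`).  In the ultralimit take `W' p`
with `ev (W' p) n = W n p` (bounded by `Pt.exists_bas` and `Cfg.nrm`).  Say `x` represents `f` if
some `x'` has `ev x' = f` and `D x x' = 0`.  Then `nrm`, `ip` of representatives are the limits,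
and `add x y` represents `fun n => (C n).add (f n) (g n)` (`mid_unique` for the pointwise midpoint,
`D_dbl`).  So `Cfg C' W' 0`, contradicting `not_cfg`. -/
theorem exists_eps :
    ∃ ε : ℝ, 0 < ε ∧ ∀ (V : Type u) (C : Cone V) (W : Pt → V), ¬ Cfg C W ε := by
  by_contra hc
  push Not at hc
  choose V C W hW using fun n : ℕ => hc (1 / ((n : ℝ) + 1)) (by positivity)
  obtain ⟨U, T, C', Rep, hU, hex, hn, hip, hadd⟩ := cp_lim V C
  have hε : Tendsto (fun n : ℕ => 1 / ((n : ℝ) + 1)) U (𝓝 0) :=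
    tendsto_one_div_add_atTop_nhds_zero_nat.mono_left hU
  have hb : ∀ p, ∃ x, Rep x fun n => W n p := fun p => by
    obtain ⟨q, r, t, h⟩ := p.exists_bas
    refine hex _ ⟨2, fun n => ?_⟩
    have h1 := (abs_le.1 ((hW n).nrm p q r t h)).2
    have h2 : 1 / ((n : ℝ) + 1) ≤ 1 := by
      rw [div_le_one (by positivity)]; linarith [Nat.cast_nonneg (α := ℝ) n]
    linarith
  choose W' hW' using hb
  refine not_cfg C' W' ⟨fun p q r t h => ?_, fun p q r t h => ?_, fun p q r t h => ?_,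
    fun z p q r t h h' => ?_, fun z p q r t h h' => ?_⟩
  · exact le_of_tendsto_of_tendsto' ((hn _ _ (hW' p)).sub_const 1).abs hε
      fun n => (hW n).nrm p q r t h
  · exact le_of_tendsto_of_tendsto'
      (hn _ _ (hadd _ _ _ _ (hadd _ _ _ _ (hadd _ _ _ _ (hW' p) (hW' q)) (hW' r)) (hW' t)))
      (hε.const_add 4) fun n => (hW n).bas p q r t h
  · exact le_of_tendsto_of_tendsto' hε.neg (hip _ _ _ _ (hW' p) (hW' q))
      fun n => (hW n).orth p q r t h
  · exact le_of_tendsto_of_tendsto' (hε.const_sub 1)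
      (hip _ _ _ _ (hW' z) (hadd _ _ _ _ (hW' p) (hW' q))) fun n => (hW n).col z p q r t h h'
  · exact le_of_tendsto_of_tendsto' (hε.const_sub 1)
      (hip _ _ _ _ (hadd _ _ _ _ (hW' p) (hW' q)) (hadd _ _ _ _ (hW' r) (hW' z)))
      fun n => (hW n).flag z p q r t h h'

end Crest.Agent.R196
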