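import Crest.Agent.R196.Gap
import Crest.Agent.R196.ApproxB
import Crest.Agent.R196.Compact

/-! Row 196: the chain of levels forces small displacement. -/

set_option autoImplicit false

universe u

namespace Crest.Agent.R196

open Finset

theorem chain_seam {F F' : Type} [Fintype F] [Fintype F'] {w : F × Fin 3 → F'} (hw : SeamEqui w)
    (j : Fin 3) {f : F' → ℝ} (hf : ∀ x, 0 ≤ f x) :
    (∑ l, f (w (l, j))) * Fintype.card F' ≤ 2 * Fintype.card F * ∑ x, f x := by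
  classical
  rw [← sum_fiberwise univ (fun l => w (l, j)), sum_mul, mul_sum]
  refine sum_le_sum fun x _ => ?_
  rw [sum_congr rfl (g := fun _ => f x) fun l hl => by rw [(mem_filter.1 hl).2], sum_const,
    nsmul_eq_mul, mul_right_comm]
  exact mul_le_mul_of_nonneg_right (by convert hw j x) (hf x)

theorem chain_en_nonneg {X : Type u} (H : Had X) {ι : Type} [Fintype ι] (p : X) (A : ι → X) :
    0 ≤ H.en p A :=
  div_nonneg (sum_nonneg fun _ _ => H.D_nonneg _ _) (Nat.cast_nonneg _)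

theorem chain_seam_en {F F' G : Type} {X : Type u} [Fintype F] [Fintype F'] [Nonempty F]
    [Nonempty F'] [Group G] [MulAction G X] (H : Had X)
    (hiso : ∀ (g : G) x y, H.D (g • x) (g • y) = H.D x y) {w : F × Fin 3 → F'} (hw : SeamEqui w)
    {s : F → G} {s' : F' → G}
    (hs : ∀ l, s l = s' (w (l, 0)) * (s' (w (l, 1)))⁻¹ * s' (w (l, 2))) {m q : X}
    (hm : H.IsMin m fun l => s l • q) (m' : X) :
    H.en m (fun l => s l • q) ≤ 24 * H.en m' fun x => s' x • q := by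
  have h0 : ∀ x, 0 ≤ H.D m' (s' x • q) := fun x => H.D_nonneg _ _
  have h1 : ∀ l, H.D m' (s l • q) ≤ 4 * (H.D m' (s' (w (l, 0)) • q) + H.D m' (s' (w (l, 1)) • q) +
      H.D m' (s' (w (l, 2)) • q)) := by
    intro l
    have h2 := H.two m' (s' (w (l, 0)) • q) (s l • q)
    have h3 := H.two (s' (w (l, 0)) • q) ((s' (w (l, 0)) * (s' (w (l, 1)))⁻¹) • m') (s l • q)
    have h4 : H.D (s' (w (l, 0)) • q) ((s' (w (l, 0)) * (s' (w (l, 1)))⁻¹) • m') =
        H.D m' (s' (w (l, 1)) • q) := by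
      rw [mul_smul, hiso, ← hiso (s' (w (l, 1))), smul_inv_smul, H.D_symm]
    have h5 : H.D ((s' (w (l, 0)) * (s' (w (l, 1)))⁻¹) • m') (s l • q) =
        H.D m' (s' (w (l, 2)) • q) := by
      rw [hs l, mul_smul (_ * _), hiso]
    linarith [h0 (w (l, 0))]
  have h2 := (hm m').trans (sum_le_sum fun l _ => h1 l)
  rw [← mul_sum, sum_add_distrib, sum_add_distrib] at h2
  have h3 := chain_seam hw 0 h0
  have h4 := chain_seam hw 1 h0
  have h5 := chain_seam hw 2 h0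
  have c1 : (0 : ℝ) < Fintype.card F := by exact_mod_cast Fintype.card_pos
  have c2 : (0 : ℝ) < Fintype.card F' := by exact_mod_cast Fintype.card_pos
  have h6 := mul_le_mul_of_nonneg_right h2 c2.le
  unfold Had.en
  rw [← mul_div_assoc, div_le_div_iff₀ c1 c2]
  linarith

/-- Take `ε₀` from `exists_eps`, `ρ` from `level_avg (ε₀ / 200)`, `η, τ` from `gap_level`,
`k ≥ 2 / τ²`, `L = 2 L'` with `(1 + η) ^ L' ≥ 36`.  Given `p`, define downwards
`P (L + 1) = p`, `P i` a minimiser for `x ↦ s i x • P (i + 1)`, `a i` the energies.  By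
`gap_level`, `level_avg`, `cfg_of_avg`, `exists_eps`: `(1 + η) a i ≤ a (i + 2)` for `i + 2 ≤ L`, so
`36 a 0 ≤ a L`.  Let `Φ p` be the minimal energy of `l ↦ s L l • p`, so `a L = Φ p`.  By the seam
relation, `D (P 0) (s L l • P 1) ≤ 3 ∑ j, D (P 0) (s 0 (w (l, j)) • P 1)`, so `SeamEqui` gives
`Φ (P 1) ≤ 18 a 0 ≤ Φ p / 2`.  Iterating, `Φ p` and thus `a 0` can be made arbitrarily small, and
`D (s 0 x • P 1) (s 0 x' • P 1) ≤ 4 card (F 0) * a 0`. -/
theorem small_disp :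
    ∃ (τ ρ : ℝ) (k L : ℕ), 0 < τ ∧ τ ≤ 1 ∧ 0 < ρ ∧ 0 < L ∧
      ∀ (Dd : ℕ) (F : ℕ → Type) [∀ i, Field (F i)] [∀ i, Fintype (F i)] [∀ i, DecidableEq (F i)]
        [∀ i, CharP (F i) 2] (ℓ : ∀ i : Fin L, Lab (F i) (F (i + 1))) (w : F L × Fin 3 → F 0),
        (∀ i : Fin L, Big (F i) (F (i + 1)) ρ k Dd) → (∀ i, Equi τ k Dd (ℓ i)) → SeamEqui w →
      ∀ (G : Type) [Group G] (s : ∀ i, F i → G),
        (∀ i : Fin L, ∃ γ, LevRel (s i) (s (i + 1)) (ℓ i) γ) →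
        (∀ l, s L l = s 0 (w (l, 0)) * (s 0 (w (l, 1)))⁻¹ * s 0 (w (l, 2))) →
      ∀ (X : Type u) [Nonempty X] [MulAction G X] (H : Had X),
        (∀ (g : G) x y, H.D (g • x) (g • y) = H.D x y) →
        (∀ (ι : Type) [Fintype ι] (A : ι → X), ∃ p, H.IsMin p A) →
      ∀ ε : ℝ, 0 < ε → ∃ z : X, ∀ x x', H.D (s 0 x • z) (s 0 x' • z) ≤ ε := by
  obtain ⟨ε₀, hε₀, hcfg⟩ := exists_eps.{u}
  obtain ⟨ρ, hρ, havg⟩ := level_avg.{u} (ε := ε₀ / 200) (by positivity)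
  obtain ⟨η, τ, hη, hτ, hτ1, hgap⟩ := gap_level.{u} hρ
  obtain ⟨L', hL'⟩ := pow_unbounded_of_one_lt (48 : ℝ) (show 1 < 1 + η by linarith)
  have hL0 : 0 < L' := by
    rcases Nat.eq_zero_or_pos L' with rfl | h
    · norm_num at hL'
    · exact h
  have hk : 2 ≤ (⌈2 / τ ^ 2⌉₊ : ℝ) * τ ^ 2 := by
    rw [← div_le_iff₀ (by positivity)]
    exact Nat.le_ceil _
  refine ⟨τ, ρ, ⌈2 / τ ^ 2⌉₊, 2 * L', hτ, hτ1, hρ, by omega, ?_⟩
  intro Dd F _ _ _ _ ℓ w hbig hequi hw G _ s hrel hs X _ _ H hiso hmin ε hε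
  choose mn hmn using fun (i : ℕ) (q : X) => hmin (F i) fun x => s i x • q
  set en : ℕ → X → ℝ := fun i q => H.en (mn i q) fun x => s i x • q with hen
  have en0 : ∀ i q, 0 ≤ en i q := fun i q => chain_en_nonneg H _ _
  have gap : ∀ i, i + 1 < 2 * L' → ∀ q,
      (1 + η) * en i (mn (i + 1) (mn (i + 2) q)) ≤ en (i + 2) q := by
    intro i hi q
    by_contra hc
    have hc' := not_le.1 hc
    have hpos : 0 < en i (mn (i + 1) (mn (i + 2) q)) :=
      (mul_pos_iff_of_pos_left (by linarith)).1 ((en0 _ _).trans_lt hc')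
    obtain ⟨γ₀, h₀⟩ := hrel ⟨i, by omega⟩
    obtain ⟨γ₁, h₁⟩ := hrel ⟨i + 1, hi⟩
    obtain ⟨T, C, w', χ, hd⟩ := hgap G X H hiso (F i) (F (i + 1)) (F (i + 2)) _ Dd
      (ℓ ⟨i, by omega⟩) (ℓ ⟨i + 1, hi⟩) (s i) (s (i + 1)) (s (i + 2)) γ₀ γ₁ _ _ _ q hk
      (hbig ⟨i, by omega⟩) (hbig ⟨i + 1, hi⟩).1 (hequi _) (hequi _) h₀ h₁ (hmn _ _) (hmn _ _)
      (hmn _ _) hpos hc'.le
    obtain ⟨T', C', W, hW⟩ := cfg_of_avg C w' (havg _ _ C w' χ hd)
    rw [mul_div_cancel₀ _ (by norm_num)] at hW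
    exact hcfg T' C' W hW
  have chain : ∀ j, j ≤ L' → ∀ q, ∃ q', (1 + η) ^ j * en 0 q' ≤ en (2 * j) q := by
    intro j
    induction j with
    | zero => exact fun _ q => ⟨q, by simp⟩
    | succ j ih =>
      intro hj q
      obtain ⟨q', hq'⟩ := ih (by omega) (mn (2 * j + 1) (mn (2 * j + 2) q))
      refine ⟨q', le_trans ?_ (gap (2 * j) (by omega) q)⟩
      rw [pow_succ', mul_assoc]
      exact mul_le_mul_of_nonneg_left hq' (by linarith)
  have half : ∀ q, ∃ q', en 0 q' ≤ en 0 q / 2 := by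
    intro q
    obtain ⟨q', hq'⟩ := chain L' le_rfl q
    have h1 : en (2 * L') q ≤ 24 * en 0 q := chain_seam_en H hiso hw hs (hmn _ q) _
    have h2 := mul_le_mul_of_nonneg_right hL'.le (en0 0 q')
    exact ⟨q', by linarith⟩
  obtain ⟨q₀⟩ := ‹Nonempty X›
  have iter : ∀ n : ℕ, ∃ q, 2 ^ n * en 0 q ≤ en 0 q₀ := by
    intro n
    induction n with
    | zero => exact ⟨q₀, by simp⟩
    | succ n ih =>
      obtain ⟨q, hq⟩ := ih
      obtain ⟨q', hq'⟩ := half q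
      have := mul_le_mul_of_nonneg_left hq' (show (0 : ℝ) ≤ 2 ^ n by positivity)
      exact ⟨q', by rw [pow_succ]; linarith⟩
  have c0 : (0 : ℝ) < Fintype.card (F 0) := by exact_mod_cast Fintype.card_pos
  obtain ⟨n, hn⟩ := pow_unbounded_of_one_lt (4 * Fintype.card (F 0) * en 0 q₀ / ε)
    (show (1 : ℝ) < 2 by norm_num)
  obtain ⟨q, hq⟩ := iter n
  refine ⟨q, fun x x' => ?_⟩
  have h1 : ∀ x, H.D (mn 0 q) (s 0 x • q) ≤ Fintype.card (F 0) * en 0 q := by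
    intro x
    have h2 := single_le_sum (f := fun x => H.D (mn 0 q) (s 0 x • q))
      (fun _ _ => H.D_nonneg _ _) (mem_univ x)
    simp only [hen, Had.en]
    rwa [mul_div_cancel₀ _ c0.ne']
  have h2 := H.two (s 0 x • q) (mn 0 q) (s 0 x' • q)
  rw [H.D_symm (s 0 x • q) (mn 0 q)] at h2
  rw [div_lt_iff₀ hε] at hn
  have h3 := mul_le_mul_of_nonneg_left hq (show 0 ≤ 4 * (Fintype.card (F 0) : ℝ) by positivity)
  have h4 : 4 * Fintype.card (F 0) * en 0 q ≤ ε :=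
    le_of_mul_le_mul_left (a := 2 ^ n) (by linarith) (by positivity)
  linarith [h1 x, h1 x']

end Crest.Agent.R196
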