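import Crest.Agent.R196.Defs

/-! Row 196: Chernoff bounds for independent blocks. -/

set_option autoImplicit false

namespace Crest.Agent.R196

open Finset

open Crest.Agent.R034

variable {ι : Type} [Fintype ι] [DecidableEq ι] {A : ι → Type} [∀ i, Fintype (A i)]
  [∀ i, Nonempty (A i)]

/-- induction on `S` with `ex_resample` -/
theorem ex_prod_blocks {κ : Type} (S : Finset κ) (T : κ → Finset ι)
    (hT : ∀ b ∈ S, ∀ b' ∈ S, b ≠ b' → Disjoint (T b) (T b')) (g : κ → (∀ i, A i) → ℝ)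
    (hg : ∀ b ω ω', (∀ i ∈ T b, ω i = ω' i) → g b ω = g b ω') :
    ex (fun ω => ∏ b ∈ S, g b ω) = ∏ b ∈ S, ex (g b) := by
  classical
  induction S using Finset.induction_on with
  | empty => simp [ex_const]
  | insert b S hb ih =>
    simp only [prod_insert hb]
    rw [← ih fun a ha a' ha' => hT a (mem_insert_of_mem ha) a' (mem_insert_of_mem ha'),
      ex_resample (T b), ← ex_mul_left]
    congr 1
    funext ω
    rw [← ex_mul_right]
    congr 1
    funext ω'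
    congr 1
    · exact hg b _ _ fun i hi => piecewise_eq_of_mem _ _ _ hi
    · refine prod_congr rfl fun a ha => hg a _ _ fun i hi => piecewise_eq_of_notMem _ _ _ ?_
      exact disjoint_right.1 (hT b (mem_insert_self _ _) a (mem_insert_of_mem ha)
        fun h => hb (h ▸ ha)) hi

theorem chernoff_mgf {κ : Type} [Fintype κ] (T : κ → Finset ι)
    (hT : ∀ b b', b ≠ b' → Disjoint (T b) (T b')) (g : κ → (∀ i, A i) → ℝ)
    (hg : ∀ b ω ω', (∀ i ∈ T b, ω i = ω' i) → g b ω = g b ω') {B θ : ℝ} (hB : 0 < B)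
    (h0 : ∀ b ω, 0 ≤ g b ω) (h1 : ∀ b ω, g b ω ≤ B) (hθ : |θ| ≤ 1) (a : ℝ) :
    pr (fun ω => a ≤ θ * ∑ b, g b ω) ≤ Real.exp (((θ + θ ^ 2) * ∑ b, ex (g b) - a) / B) := by
  have e1 : Real.exp θ - 1 ≤ θ + θ ^ 2 := by
    linarith [(abs_le.1 (Real.abs_exp_sub_one_sub_id_le hθ)).2]
  have e2 : ∀ b, ex (fun ω => Real.exp (θ * g b ω / B)) ≤
      Real.exp ((θ + θ ^ 2) * ex (g b) / B) := fun b => by
    have : ex (fun ω => Real.exp (θ * g b ω / B)) ≤
        ex (fun ω => (θ + θ ^ 2) / B * g b ω + 1) := ex_mono fun ω => by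
      have t0 : 0 ≤ g b ω / B := div_nonneg (h0 b ω) hB.le
      have t1 : g b ω / B ≤ 1 := (div_le_one hB).2 (h1 b ω)
      have := convexOn_exp.2 (Set.mem_univ 0) (Set.mem_univ θ) (sub_nonneg.2 t1) t0 (by ring)
      simp only [smul_eq_mul, mul_zero, zero_add, Real.exp_zero, mul_one] at this
      rw [mul_div_assoc, mul_comm θ, div_mul_eq_mul_div (θ + θ ^ 2), mul_div_assoc]
      nlinarith [mul_le_mul_of_nonneg_left e1 t0]
    rw [ex_add, ex_mul_left, ex_const, div_mul_eq_mul_div] at this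
    exact this.trans (Real.add_one_le_exp _)
  refine (pr_mono (F := fun ω => Real.exp (a / B) ≤ ∏ b, Real.exp (θ * g b ω / B))
    fun ω h => ?_).trans ((markov (fun ω => prod_nonneg fun _ _ => (Real.exp_pos _).le)
      (Real.exp_pos _)).trans ?_)
  · rw [← Real.exp_sum, Real.exp_le_exp, ← sum_div, ← mul_sum]
    exact div_le_div_of_nonneg_right h hB.le
  · rw [ex_prod_blocks univ T (fun b _ b' _ => hT b b') (fun b ω => Real.exp (θ * g b ω / B))
      fun b ω ω' h => by rw [hg b ω ω' h], sub_div, Real.exp_sub, mul_sum, sum_div, Real.exp_sum]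
    exact div_le_div_of_nonneg_right (prod_le_prod
      (fun b _ => ex_nonneg fun _ => (Real.exp_pos _).le) fun b _ => e2 b) (Real.exp_pos _).le

/-- `markov` for `exp (θ ∑ g / B)`, `θ = τ / 2`: convexity gives
`exp (θ g / B) ≤ 1 + (exp θ - 1) g / B`, and `exp θ - 1 ≤ θ + θ²`. -/
theorem chernoff_upper {κ : Type} [Fintype κ] (T : κ → Finset ι)
    (hT : ∀ b b', b ≠ b' → Disjoint (T b) (T b')) (g : κ → (∀ i, A i) → ℝ)
    (hg : ∀ b ω ω', (∀ i ∈ T b, ω i = ω' i) → g b ω = g b ω') {B μ τ : ℝ} (hB : 0 < B)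
    (h0 : ∀ b ω, 0 ≤ g b ω) (h1 : ∀ b ω, g b ω ≤ B) (hμ : ∑ b, ex (g b) ≤ μ) (hτ : 0 < τ)
    (hτ1 : τ ≤ 1) :
    pr (fun ω => (1 + τ) * μ < ∑ b, g b ω) ≤ Real.exp (-(τ ^ 2 * μ / (4 * B))) := by
  refine (pr_mono fun ω h => mul_le_mul_of_nonneg_left h.le (half_pos hτ).le).trans
    ((chernoff_mgf T hT g hg hB h0 h1 (θ := τ / 2) (abs_le.2 ⟨by linarith, by linarith⟩) _).trans ?_)
  rw [Real.exp_le_exp, ← div_div, ← neg_div]
  refine div_le_div_of_nonneg_right ?_ hB.le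
  nlinarith [mul_le_mul_of_nonneg_left hμ (show 0 ≤ τ / 2 + (τ / 2) ^ 2 by positivity)]

/-- the same with `exp (-θ ∑ g / B)`, `θ = τ / 2`, `exp (-θ) - 1 ≤ -θ + θ²` -/
theorem chernoff_lower {κ : Type} [Fintype κ] (T : κ → Finset ι)
    (hT : ∀ b b', b ≠ b' → Disjoint (T b) (T b')) (g : κ → (∀ i, A i) → ℝ)
    (hg : ∀ b ω ω', (∀ i ∈ T b, ω i = ω' i) → g b ω = g b ω') {B μ τ : ℝ} (hB : 0 < B)
    (h0 : ∀ b ω, 0 ≤ g b ω) (h1 : ∀ b ω, g b ω ≤ B) (hμ : μ ≤ ∑ b, ex (g b)) (hτ : 0 < τ)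
    (hτ1 : τ ≤ 1) :
    pr (fun ω => ∑ b, g b ω < (1 - τ) * μ) ≤ Real.exp (-(τ ^ 2 * μ / (4 * B))) := by
  refine (pr_mono fun ω h => mul_le_mul_of_nonpos_left h.le (show -(τ / 2) ≤ 0 by linarith)).trans
    ((chernoff_mgf T hT g hg hB h0 h1 (θ := -(τ / 2)) (abs_le.2 ⟨by linarith, by linarith⟩) _).trans
      ?_)
  rw [Real.exp_le_exp, ← div_div, ← neg_div B]
  refine div_le_div_of_nonneg_right ?_ hB.le
  nlinarith [mul_le_mul_of_nonpos_left hμ (show -(τ / 2) + (-(τ / 2)) ^ 2 ≤ 0 by nlinarith)]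

/-- restriction to a sub-family of coordinates preserves the uniform law -/
theorem pr_restrict {J : Type} [Fintype J] [DecidableEq J] (φ : J → ι) (hφ : Function.Injective φ)
    (P : (∀ j, A (φ j)) → Prop) : pr (fun ω : ∀ i, A i => P fun j => ω (φ j)) = pr P := by
  classical
  have h1 := ex_equiv (Equiv.piEquivPiSubtypeProd (fun i => i ∈ Set.range φ) A)
    fun u => ind (P ((Equiv.piCongrLeft (fun i : Set.range φ => A i)
      (Equiv.ofInjective φ hφ)).symm u.1))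
  rw [ex_prod] at h1
  simp only [ex_const] at h1
  exact h1.trans (ex_equiv (Equiv.piCongrLeft (fun i : Set.range φ => A i)
    (Equiv.ofInjective φ hφ)).symm fun u => ind (P u))

/-- the asymptotics of the union bounds -/
theorem pow_mul_exp_small (d : ℕ) {c δ : ℝ} (hc : 0 < c) (hδ : 0 < δ) :
    ∃ N₀ : ℕ, ∀ N : ℕ, N₀ ≤ N → (N : ℝ) ^ d * Real.exp (-(c * N)) ≤ δ := by
  have h := (tendsto_rpow_mul_exp_neg_mul_atTop_nhds_zero d c hc).comp tendsto_natCast_atTop_atTop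
  obtain ⟨N₀, hN⟩ := Filter.eventually_atTop.1 (h.eventually_le_const hδ)
  exact ⟨N₀, fun N h => by simpa using hN N h⟩

end Crest.Agent.R196
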