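import Crest.Agent.R196.Defs

/-! Row 196: the basic calculus of `Had` and `Cone`. -/

set_option autoImplicit false

universe u

namespace Crest.Agent.R196

open Finset

theorem cn_lim {A K : ℝ} (h : ∀ n : ℕ, 2 ^ n * A ≤ K) : A ≤ 0 := by
  by_contra hA
  push Not at hA
  obtain ⟨n, hn⟩ := pow_unbounded_of_one_lt (K / A) (show (1 : ℝ) < 2 by norm_num)
  rw [div_lt_iff₀ hA] at hn
  linarith [h n]

theorem cn_amgm {a b ε : ℝ} (ha : 0 ≤ a) (hb : 0 ≤ b) (hε : 0 < ε) :
    √a * √b ≤ (ε * a + b / ε) / 2 := by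
  have a2 := Real.sq_sqrt ha
  have b2 := Real.sq_sqrt hb
  have h : 0 ≤ (ε * √a - √b) ^ 2 / ε := by positivity
  have e : (ε * √a - √b) ^ 2 / ε = ε * √a ^ 2 + √b ^ 2 / ε - 2 * (√a * √b) := by
    field_simp
    ring
  rw [e, a2, b2] at h
  linarith

namespace Had

variable {V : Type u} (H : Had V)

theorem cn_tri' (x y z : V) {ε : ℝ} (hε : 0 < ε) :
    H.D x z ≤ (1 + ε) * H.D x y + (1 + 1 / ε) * H.D y z := by
  have h := H.tri x y z (1 / (1 + ε)) (by positivity) (by
    rw [div_le_one (by positivity)]; linarith)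
  have h1 := mul_le_mul_of_nonneg_left h (show 0 ≤ (1 + ε) ^ 2 / ε by positivity)
  have e1 : (1 + ε) ^ 2 / ε * (1 / (1 + ε) * (1 - 1 / (1 + ε)) * H.D x z) = H.D x z := by
    field_simp
    ring
  have e2 : (1 + ε) ^ 2 / ε * ((1 - 1 / (1 + ε)) * H.D x y + 1 / (1 + ε) * H.D y z) =
      (1 + ε) * H.D x y + (1 + 1 / ε) * H.D y z := by
    field_simp
    ring
  rwa [e1, e2] at h1

/-- `tri` with `t = a / (a + b)`, `a, b` the square roots (or via `tri'`). -/
theorem sqrt_tri (x y z : V) : √(H.D x z) ≤ √(H.D x y) + √(H.D y z) := by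
  refine le_of_forall_pos_le_add fun δ hδ => ?_
  have ha := Real.sqrt_nonneg (H.D x y)
  have hb := Real.sqrt_nonneg (H.D y z)
  have ha2 := Real.sq_sqrt (H.D_nonneg x y)
  have hb2 := Real.sq_sqrt (H.D_nonneg y z)
  obtain ⟨A, hA⟩ : ∃ A, A = √(H.D x y) + δ / 2 := ⟨_, rfl⟩
  obtain ⟨B, hB⟩ : ∃ B, B = √(H.D y z) + δ / 2 := ⟨_, rfl⟩
  have hA0 : 0 < A := by rw [hA]; positivity
  have hB0 : 0 < B := by rw [hB]; positivity
  have h1 : H.D x y ≤ A ^ 2 := by rw [hA]; nlinarith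
  have h2 : H.D y z ≤ B ^ 2 := by rw [hB]; nlinarith
  have h3 := H.cn_tri' x y z (ε := B / A) (by positivity)
  have h4 : (1 + B / A) * H.D x y + (1 + 1 / (B / A)) * H.D y z ≤
      (1 + B / A) * A ^ 2 + (1 + 1 / (B / A)) * B ^ 2 := by gcongr
  have h5 : (1 + B / A) * A ^ 2 + (1 + 1 / (B / A)) * B ^ 2 = (A + B) ^ 2 := by
    field_simp
    ring
  rw [Real.sqrt_le_left (by positivity)]
  calc H.D x z ≤ (A + B) ^ 2 := by linarith
    _ = _ := by rw [hA, hB]; ring

theorem two (x y z : V) : H.D x z ≤ 2 * H.D x y + 2 * H.D y z := by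
  have := H.tri x y z (1 / 2) (by norm_num) (by norm_num)
  linarith

theorem tri' (x y z : V) {ε : ℝ} (hε : 0 < ε) :
    H.D x z ≤ (1 + ε) * H.D x y + (1 + 1 / ε) * H.D y z := by
  exact H.cn_tri' x y z hε

theorem congr_right (x : V) {y z : V} (h : H.D y z = 0) : H.D x y = H.D x z := by
  have h1 := H.sqrt_tri x y z
  have h2 := H.sqrt_tri x z y
  rw [H.D_symm z y] at h2
  rw [h, Real.sqrt_zero, add_zero] at h1 h2
  exact (Real.sqrt_inj (H.D_nonneg _ _) (H.D_nonneg _ _)).1 (le_antisymm h2 h1)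

theorem congr_left {x y : V} (h : H.D x y = 0) (z : V) : H.D x z = H.D y z := by
  rw [H.D_symm x z, H.D_symm y z]
  exact H.congr_right z h

theorem D_mid_left (e f : V) : H.D e (H.mid e f) = H.D e f / 4 := by
  have h1 := H.CN e e f
  have h2 := H.CN f e f
  have h3 := H.two e (H.mid e f) f
  rw [H.D_self] at h1 h2
  rw [H.D_symm f e] at h2
  rw [H.D_symm (H.mid e f) f] at h3
  linarith

theorem D_mid_right (e f : V) : H.D f (H.mid e f) = H.D e f / 4 := by
  have h1 := H.CN e e f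
  have h2 := H.CN f e f
  have h3 := H.two e (H.mid e f) f
  rw [H.D_self] at h1 h2
  rw [H.D_symm f e] at h2
  rw [H.D_symm (H.mid e f) f] at h3
  linarith

theorem mid_unique {e f m : V} (h1 : H.D e m ≤ H.D e f / 4) (h2 : H.D f m ≤ H.D e f / 4) :
    H.D m (H.mid e f) = 0 := by
  have h3 := H.CN m e f
  rw [H.D_symm m e, H.D_symm m f] at h3
  exact le_antisymm (by linarith) (H.D_nonneg _ _)

/-- `CN` at `o` and `p` for the midpoint of `a, b`, and `two`. -/
theorem quad (o a p b : V) : H.D o p + H.D a b ≤ H.D o a + H.D a p + H.D p b + H.D b o := by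
  have h1 := H.CN o a b
  have h2 := H.CN p a b
  have h3 := H.two o (H.mid a b) p
  rw [H.D_symm (H.mid a b) p] at h3
  rw [H.D_symm p a] at h2
  rw [H.D_symm b o]
  linarith

/-- `CN` three times and `quad`. -/
theorem mid_mid (a b a' b' : V) :
    H.D (H.mid a b) (H.mid a' b') ≤ (H.D a a' + H.D b b') / 2 := by
  have h1 := H.CN (H.mid a b) a' b'
  have h2 := H.CN a' a b
  have h3 := H.CN b' a b
  have h4 := H.quad a' a b b'
  rw [H.D_symm (H.mid a b) a', H.D_symm (H.mid a b) b'] at h1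
  rw [H.D_symm b' a, H.D_symm b' b] at h3
  rw [H.D_symm b' a'] at h4
  rw [H.D_symm a' a] at h2 h4
  linarith

/-- `CN` twice and `D_mid_left`. -/
theorem mid_lip (a x y : V) : H.D (H.mid a x) (H.mid a y) ≤ H.D x y / 4 := by
  have h1 := H.CN (H.mid a x) a y
  have h2 := H.CN y a x
  have h3 := H.D_mid_left a x
  rw [H.D_symm (H.mid a x) a, H.D_symm (H.mid a x) y] at h1
  rw [H.D_symm y a, H.D_symm y x] at h2
  linarith

end Had

namespace Cone

variable {V : Type u} (C : Cone V)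

theorem nrm_nonneg (x : V) : 0 ≤ C.nrm x := by
  exact C.D_nonneg _ _

theorem nrm_o : C.nrm C.o = 0 := by
  exact C.D_self _

theorem ip_symm (x y : V) : C.ip x y = C.ip y x := by
  unfold ip
  rw [C.D_symm x y]
  ring

theorem ip_self (x : V) : C.ip x x = C.nrm x := by
  unfold ip
  rw [C.D_self]
  ring

theorem ip_o (x : V) : C.ip x C.o = 0 := by
  unfold ip
  rw [C.nrm_o, C.D_symm x C.o]
  unfold nrm
  ring

theorem D_eq (x y : V) : C.D x y = C.nrm x + C.nrm y - 2 * C.ip x y := by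
  unfold ip
  ring

theorem nrm_congr {x y : V} (h : C.D x y = 0) : C.nrm x = C.nrm y := by
  exact C.toHad.congr_right C.o h

theorem ip_congr (g : V) {x y : V} (h : C.D x y = 0) : C.ip g x = C.ip g y := by
  unfold ip
  rw [C.nrm_congr h, C.toHad.congr_right g h]

/-- `CN` gives `ip g (h y) ≥ ip g y / 2` (`h = mid o`); apply it twice and compare with `half`. -/
theorem ip_half (g y : V) : C.ip g (C.mid C.o y) = C.ip g y / 2 := by
  have hn : ∀ y, C.nrm (C.mid C.o y) = C.nrm y / 4 := fun y => C.toHad.D_mid_left C.o y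
  have key : ∀ g y, C.ip g y / 2 ≤ C.ip g (C.mid C.o y) := by
    intro g y
    have h1 := C.CN g C.o y
    rw [C.D_symm g C.o] at h1
    unfold ip
    rw [hn]
    unfold nrm
    linarith
  have h1 := key (C.mid C.o y) g
  have h2 := key g y
  have h3 : C.ip (C.mid C.o y) (C.mid C.o g) = C.ip g y / 4 := by
    unfold ip
    rw [hn, hn, C.half, C.D_symm y g]
    ring
  rw [C.ip_symm (C.mid C.o y) g] at h1
  linarith

theorem nrm_half (y : V) : C.nrm (C.mid C.o y) = C.nrm y / 4 := by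
  exact C.toHad.D_mid_left C.o y

theorem D_dbl (x y : V) : C.D (C.dbl x) (C.dbl y) = 4 * C.D x y := by
  have h1 := C.half (C.dbl x) (C.dbl y)
  rw [C.toHad.congr_left (C.half_dbl x), C.toHad.congr_right x (C.half_dbl y)] at h1
  linarith

theorem nrm_dbl (x : V) : C.nrm (C.dbl x) = 4 * C.nrm x := by
  have h1 := C.nrm_half (C.dbl x)
  rw [C.nrm_congr (C.half_dbl x)] at h1
  linarith

theorem ip_dbl (g x : V) : C.ip g (C.dbl x) = 2 * C.ip g x := by
  have h1 := C.ip_half g (C.dbl x)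
  rw [C.ip_congr g (C.half_dbl x)] at h1
  linarith

theorem cn_scale (g : V) (n : ℕ) :
    ∃ G, (∀ x, C.ip G x = 2 ^ n * C.ip g x) ∧ C.nrm G = (2 ^ n) ^ 2 * C.nrm g := by
  induction n with
  | zero => exact ⟨g, fun x => by simp, by simp⟩
  | succ n ih =>
    obtain ⟨G, h1, h2⟩ := ih
    refine ⟨C.dbl G, fun x => ?_, ?_⟩
    · rw [C.ip_symm, C.ip_dbl, C.ip_symm, h1]; ring
    · rw [C.nrm_dbl, h2]; ring

/-- Superadditivity. Apply `CN` to `dbl^[n] g`, divide by `2 ^ n` and let `n → ∞`. -/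
theorem ip_add (g e f : V) : C.ip g e + C.ip g f ≤ C.ip g (C.add e f) := by
  unfold add
  rw [C.ip_dbl]
  have key : C.ip g e + C.ip g f - 2 * C.ip g (C.mid e f) ≤ 0 := by
    refine cn_lim (K := C.nrm e / 2 + C.nrm f / 2 - C.D e f / 4 - C.nrm (C.mid e f)) fun n => ?_
    obtain ⟨G, hG, -⟩ := C.cn_scale g n
    have h1 := C.CN G e f
    rw [C.D_eq G, C.D_eq G e, C.D_eq G f, hG, hG, hG] at h1
    linarith
  linarith

/-- With `m = mid e f`: `D e m = D f m = D e f / 4`, `ip_add` for `g = e, f` and `CN` at `o`. -/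
theorem nrm_add (e f : V) : C.nrm (C.add e f) = C.nrm e + C.nrm f + 2 * C.ip e f := by
  have h1 := C.ip_add e e f
  have h2 := C.toHad.D_mid_left e f
  have h3 := C.CN C.o e f
  have h4 := C.D_eq e f
  have h5 := C.D_eq e (C.mid e f)
  unfold add at h1 ⊢
  rw [C.ip_dbl, C.ip_self] at h1
  rw [C.nrm_dbl]
  change C.nrm (C.mid e f) ≤ C.nrm e / 2 + C.nrm f / 2 - C.D e f / 4 at h3
  linarith

theorem ip_add_left (e f : V) : C.ip e (C.add e f) = C.nrm e + C.ip e f := by
  have h1 := C.nrm_add e f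
  have h2 := C.toHad.D_mid_left e f
  have h4 := C.D_eq e f
  have h5 := C.D_eq e (C.mid e f)
  unfold add at h1 ⊢
  rw [C.nrm_dbl] at h1
  rw [C.ip_dbl]
  linarith

theorem ip_add_right (e f : V) : C.ip f (C.add e f) = C.ip e f + C.nrm f := by
  have h1 := C.nrm_add e f
  have h2 := C.toHad.D_mid_right e f
  have h4 := C.D_eq e f
  have h5 := C.D_eq f (C.mid e f)
  unfold add at h1 ⊢
  rw [C.nrm_dbl] at h1
  rw [C.ip_dbl]
  linarith

theorem add_comm (e f : V) : C.D (C.add e f) (C.add f e) = 0 := by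
  unfold add
  rw [C.D_dbl, C.toHad.mid_unique (e := f) (f := e) (m := C.mid e f), mul_zero]
  · rw [C.toHad.D_mid_right, C.D_symm f e]
  · rw [C.toHad.D_mid_left, C.D_symm f e]

theorem add_lip (e f e' f' : V) :
    C.D (C.add e f) (C.add e' f') ≤ 2 * C.D e e' + 2 * C.D f f' := by
  unfold add
  rw [C.D_dbl]
  linarith [C.toHad.mid_mid e f e' f']

theorem add_lip_right (e f f' : V) : C.D (C.add e f) (C.add e f') ≤ C.D f f' := by
  unfold add
  rw [C.D_dbl]
  linarith [C.toHad.mid_lip e f f']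

theorem add_congr {e f e' f' : V} (h1 : C.D e e' = 0) (h2 : C.D f f' = 0) :
    C.D (C.add e f) (C.add e' f') = 0 := by
  have := C.add_lip e f e' f'
  rw [h1, h2] at this
  exact le_antisymm (by linarith) (C.D_nonneg _ _)

theorem nrm_add_le (e f : V) : C.nrm (C.add e f) ≤ 2 * C.nrm e + 2 * C.nrm f := by
  have h1 := C.nrm_add e f
  have h2 := C.D_eq e f
  have h3 := C.D_nonneg e f
  linarith

/-- from `sqrt_tri` for the triangle `o, x, y` -/
theorem abs_ip_le_sqrt (x y : V) : |C.ip x y| ≤ √(C.nrm x) * √(C.nrm y) := by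
  have h1 := C.toHad.sqrt_tri x C.o y
  have h2 := C.toHad.sqrt_tri C.o x y
  have h3 := C.toHad.sqrt_tri C.o y x
  rw [C.D_symm x C.o] at h1
  rw [C.D_symm y x] at h3
  have a2 := Real.sq_sqrt (C.nrm_nonneg x)
  have b2 := Real.sq_sqrt (C.nrm_nonneg y)
  have d2 := Real.sq_sqrt (C.D_nonneg x y)
  have a0 := Real.sqrt_nonneg (C.nrm x)
  have b0 := Real.sqrt_nonneg (C.nrm y)
  have d0 := Real.sqrt_nonneg (C.D x y)
  have h4 := C.D_eq x y
  change √(C.D x y) ≤ √(C.nrm x) + √(C.nrm y) at h1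
  change √(C.nrm y) ≤ √(C.nrm x) + √(C.D x y) at h2
  change √(C.nrm x) ≤ √(C.nrm y) + √(C.D x y) at h3
  have h5 : (√(C.nrm x) - √(C.nrm y)) ^ 2 ≤ √(C.D x y) ^ 2 :=
    sq_le_sq' (by linarith) (by linarith)
  have h6 : √(C.D x y) ^ 2 ≤ (√(C.nrm x) + √(C.nrm y)) ^ 2 := pow_le_pow_left₀ d0 h1 2
  rw [abs_le]
  constructor <;> nlinarith

theorem abs_ip_le (x y : V) {ε : ℝ} (hε : 0 < ε) :
    |C.ip x y| ≤ (ε * C.nrm x + C.nrm y / ε) / 2 := by
  exact (C.abs_ip_le_sqrt x y).trans (cn_amgm (C.nrm_nonneg x) (C.nrm_nonneg y) hε)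

/-- `D (t g) y - D (t g) x ≤ d x y * (d (t g) x + d (t g) y) ≤ d x y * (2 t |g| + |x| + |y|)` with
`t = 2 ^ n → ∞`. -/
theorem ip_lip_sqrt (g x y : V) : |C.ip g x - C.ip g y| ≤ √(C.nrm g) * √(C.D x y) := by
  have key : ∀ x y, C.ip g x - C.ip g y ≤ √(C.nrm g) * √(C.D x y) := by
    intro x y
    have : C.ip g x - C.ip g y - √(C.nrm g) * √(C.D x y) ≤ 0 := by
      refine cn_lim (K := (√(C.D x y) * (√(C.nrm x) + √(C.nrm y)) + C.nrm x - C.nrm y) / 2)
        fun n => ?_
      obtain ⟨G, hG, hGn⟩ := C.cn_scale g n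
      have h1 := C.toHad.sqrt_tri G x y
      have h2 := C.toHad.sqrt_tri G C.o x
      have h3 := C.toHad.sqrt_tri G C.o y
      rw [C.D_symm G C.o] at h2 h3
      change √(C.D G x) ≤ √(C.nrm G) + √(C.nrm x) at h2
      change √(C.D G y) ≤ √(C.nrm G) + √(C.nrm y) at h3
      have h4 : √(C.nrm G) = 2 ^ n * √(C.nrm g) := by
        rw [hGn, Real.sqrt_mul (by positivity), Real.sqrt_sq (by positivity)]
      have a2 := Real.sq_sqrt (C.D_nonneg G x)
      have b2 := Real.sq_sqrt (C.D_nonneg G y)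
      have a0 := Real.sqrt_nonneg (C.D G x)
      have b0 := Real.sqrt_nonneg (C.D G y)
      have d0 := Real.sqrt_nonneg (C.D x y)
      have h5 : C.D G y - C.D G x ≤ √(C.D x y) * (√(C.D G x) + √(C.D G y)) := by
        have : C.D G y - C.D G x = (√(C.D G y) - √(C.D G x)) * (√(C.D G x) + √(C.D G y)) := by
          linarith
        rw [this]
        exact mul_le_mul_of_nonneg_right (by linarith) (by linarith)
      have h6 : √(C.D x y) * (√(C.D G x) + √(C.D G y)) ≤
          √(C.D x y) * (2 * (2 ^ n * √(C.nrm g)) + √(C.nrm x) + √(C.nrm y)) :=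
        mul_le_mul_of_nonneg_left (by linarith) d0
      have h7 := C.D_eq G x
      have h8 := C.D_eq G y
      rw [hG] at h7 h8
      linarith
    linarith
  have h1 := key x y
  have h2 := key y x
  rw [C.D_symm y x] at h2
  rw [abs_le]
  constructor <;> linarith

theorem ip_lip (g x y : V) {ε : ℝ} (hε : 0 < ε) :
    |C.ip g x - C.ip g y| ≤ (ε * C.nrm g + C.D x y / ε) / 2 := by
  exact (C.ip_lip_sqrt g x y).trans (cn_amgm (C.nrm_nonneg g) (C.D_nonneg x y) hε)

theorem Fl.swap {C : Cone V} {c a b : V} (h : C.Fl c a b) : C.Fl c b a := by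
  unfold Fl at h ⊢
  rw [C.ip_congr c (C.add_comm b a), h]
  ring

theorem cn_fl_half {C : Cone V} {c a b : V} (h : C.Fl c a b) : C.Fl c (C.mid C.o a) b := by
  obtain ⟨a', ha'⟩ : ∃ a', a' = C.mid C.o a := ⟨_, rfl⟩
  have hip : ∀ g, C.ip g a' = C.ip g a / 2 := fun g => ha' ▸ C.ip_half g a
  have hn : C.nrm a' = C.nrm a / 4 := ha' ▸ C.nrm_half a
  rw [← ha']
  have hD : C.D (C.add a b) (C.add (C.add a' b) a') = 0 := by
    have e1 := C.nrm_add a b
    have e2 := C.nrm_add (C.add a' b) a'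
    have e3 := C.nrm_add a' b
    have e4 := C.ip_add_left a' b
    have e5 := C.D_eq (C.add a b) (C.add (C.add a' b) a')
    have e6 := C.ip_add (C.add a b) (C.add a' b) a'
    have e7 := C.ip_add (C.add a b) a' b
    have e8 := C.ip_add_left a b
    have e9 := C.ip_add_right a b
    have e10 := hip (C.add a b)
    have e11 := hip b
    rw [C.ip_symm _ a'] at e2
    rw [C.ip_symm a' b] at e3 e4
    rw [C.ip_symm _ a] at e10
    rw [C.ip_symm b a] at e11
    rw [C.ip_symm b (C.add a b)] at e9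
    exact le_antisymm (by linarith) (C.D_nonneg _ _)
  unfold Fl at h ⊢
  have e1 := C.ip_congr c hD
  have e2 := C.ip_add c (C.add a' b) a'
  have e3 := C.ip_add c a' b
  have e4 := hip c
  linarith

/-- (1) `Fl c a b → Fl c (h a) b`, since `a + b ≈ (h a + b) + h a` (equal norms by `nrm_add`,
`ip_add_left`; inner product bounded below by `ip_add`).  (2) With `t = 2⁻¹ ^ n`, `a' = h^[n] a`,
`q = a' + b`, `m = mid b c`: `D c q = D b c + 2 t (ip a b - ip a c) + t ^ 2 nrm a` by (1), and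
`D c q ≤ 2 D c m + 2 D m q`, `D m q ≤ D m b + 2 t ip a b + t ^ 2 nrm a - 2 t ip m a` (`ip_add`),
so `4 ip m a ≤ 2 ip a b + 2 ip a c + t nrm a`. -/
theorem Fl.rot {C : Cone V} {c a b : V} (h : C.Fl c a b) : C.Fl a b c := by
  have hstep : ∀ n : ℕ, ∃ a', C.Fl c a' b ∧ (∀ g, 2 ^ n * C.ip g a' = C.ip g a) ∧
      2 ^ n * (2 ^ n * C.nrm a') = C.nrm a := by
    intro n
    induction n with
    | zero => exact ⟨a, h, fun g => by simp, by simp⟩
    | succ n ih =>
      obtain ⟨a', h1, h2, h3⟩ := ih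
      refine ⟨C.mid C.o a', cn_fl_half h1, fun g => ?_, ?_⟩
      · rw [C.ip_half, ← h2 g]; ring
      · rw [C.nrm_half, ← h3]; ring
  have key : 4 * C.ip (C.mid b c) a - 2 * C.ip b a - 2 * C.ip c a ≤ 0 := by
    refine cn_lim (K := C.nrm a) fun n => ?_
    obtain ⟨a', h1, h2, h3⟩ := hstep n
    unfold Fl at h1
    have e1 := C.D_eq c (C.add a' b)
    have e2 := C.nrm_add a' b
    have e3 := C.toHad.two c (C.mid b c) (C.add a' b)
    have e4 := C.toHad.D_mid_left b c
    have e5 := C.toHad.D_mid_right b c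
    have e6 := C.D_eq (C.mid b c) (C.add a' b)
    have e7 := C.ip_add (C.mid b c) a' b
    have e8 := C.D_eq b (C.mid b c)
    have e9 := C.D_eq b c
    rw [C.ip_symm a' b] at e2
    rw [C.ip_symm b (C.mid b c)] at e8
    rw [C.ip_symm b c] at e9
    have e10 : 4 * C.ip (C.mid b c) a' - 2 * C.ip b a' - 2 * C.ip c a' ≤ C.nrm a' := by linarith
    rw [← h2 (C.mid b c), ← h2 b, ← h2 c, ← h3]
    have hp : (0 : ℝ) ≤ 2 ^ n := by positivity
    refine mul_le_mul_of_nonneg_left ?_ hp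
    have := mul_le_mul_of_nonneg_left e10 hp
    linarith
  have h1 := C.ip_add a b c
  unfold Fl
  unfold add at h1 ⊢
  rw [C.ip_dbl] at h1 ⊢
  rw [C.ip_symm _ a, C.ip_symm b a, C.ip_symm c a] at key
  linarith

/-- equal norms by `Fl.rot`, inner product by `ip_add` -/
theorem add_assoc {c a b : V} (h : C.Fl c a b) :
    C.D (C.add (C.add a b) c) (C.add a (C.add b c)) = 0 := by
  have h' := h.rot
  unfold Fl at h h'
  have e1 := C.nrm_add (C.add a b) c
  have e2 := C.nrm_add a b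
  have e3 := C.nrm_add a (C.add b c)
  have e4 := C.nrm_add b c
  have e5 := C.D_eq (C.add (C.add a b) c) (C.add a (C.add b c))
  have e6 := C.ip_add (C.add (C.add a b) c) a (C.add b c)
  have e7 := C.ip_add (C.add (C.add a b) c) b c
  have e8 := C.ip_add a (C.add a b) c
  have e9 := C.ip_add b (C.add a b) c
  have e10 := C.ip_add_right (C.add a b) c
  have e11 := C.ip_add_left a b
  have e12 := C.ip_add_right a b
  rw [C.ip_symm _ a] at e6
  rw [C.ip_symm _ b, C.ip_symm _ c] at e7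
  rw [C.ip_symm (C.add a b) c] at e1 e10
  rw [C.ip_symm c a, C.ip_symm c b] at h
  exact le_antisymm (by linarith) (C.D_nonneg _ _)

end Cone

end Crest.Agent.R196
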