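import Crest.Agent.R196.Defs

/-! Row 196: the probability of letter coincidences. -/

set_option autoImplicit false

namespace Crest.Agent.R196

open Finset

open Crest.Agent.R034

theorem cost_sum {I Y : Type} [DecidableEq Y] (U : Finset I) (cl : I → Y) (g : Y → ℝ) :
    ∑ t ∈ U, g (cl t) * (1 / (#{s ∈ U | cl s = cl t} : ℝ)) = ∑ c ∈ U.image cl, g c := by
  rw [← Finset.sum_fiberwise_of_maps_to (s := U) (t := U.image cl) (g := cl)
    (fun t ht => Finset.mem_image_of_mem cl ht)]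
  refine Finset.sum_congr rfl fun c hc => ?_
  obtain ⟨t₀, ht₀, rfl⟩ := Finset.mem_image.1 hc
  have h1 : ∀ t ∈ U.filter (fun t => cl t = cl t₀),
      g (cl t) * (1 / (#{s ∈ U | cl s = cl t} : ℝ)) =
        g (cl t₀) * (1 / (#(U.filter (fun t => cl t = cl t₀)) : ℝ)) := by
    intro t ht
    have h := (Finset.mem_filter.1 ht).2
    have h2 : U.filter (fun s => cl s = cl t) = U.filter (fun t => cl t = cl t₀) := by
      ext s
      simp only [Finset.mem_filter, h]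
    rw [h2, h]
  have h3 : (0 : ℝ) < #(U.filter (fun t => cl t = cl t₀)) := by
    have : t₀ ∈ U.filter (fun t => cl t = cl t₀) := Finset.mem_filter.2 ⟨ht₀, rfl⟩
    exact_mod_cast Finset.card_pos.2 ⟨t₀, this⟩
  rw [Finset.sum_congr rfl h1, Finset.sum_const, nsmul_eq_mul]
  have h4 : (#(U.filter (fun t => cl t = cl t₀)) : ℝ) ≠ 0 := h3.ne'
  convert mul_div_cancel₀ (g (cl t₀)) h4 using 2
  ring

theorem cost_one {β : Type} [Fintype β] (P : β → Prop) (h : ∀ b b', P b → P b' → b = b') :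
    pr P ≤ 1 / (Fintype.card β : ℝ) := by
  classical
  rw [pr_eq_card]
  refine div_le_div_of_nonneg_right ?_ (Nat.cast_nonneg _)
  exact_mod_cast Finset.card_le_one.2 fun b hb b' hb' =>
    h b b' (Finset.mem_filter.1 hb).2 (Finset.mem_filter.1 hb').2

/-- If the event is empty there is nothing to prove; so fix `ω₀` in it.  Then `hh (y t)` is constant
on the `lt`-classes (blocks) of `U` (`hh_eq`), and each block has at most one deterministic edge
(`det_inj`).  Choose in each block a reference edge, the deterministic one if there is one; let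
`N` be the set of the other edges `y t` (edges of different blocks are different by `hlt`); they
are not deterministic and not reference edges.  Resample the coordinates in `N` (`ex_resample`):
each must hit one prescribed letter (`emb_inj`, `pr_forall_coord`), probability
`≤ ∏ e ∈ N, exp (-hh e)`, and `∑ e ∈ N, hh e = costOf ..`. -/
theorem cost_prob {E S : Type} [Fintype E] [DecidableEq E] {B : E → Type} [∀ e, Fintype (B e)]
    [∀ e, Nonempty (B e)] (A : Alph E S B) (hA : A.OK) {I Z : Type} (U : Finset I) (y : I → E)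
    (lt : I → Z) (hlt : ∀ t ∈ U, ∀ s ∈ U, y t = y s → lt t = lt s) :
    pr (fun ω : ∀ e, B e => ∀ t ∈ U, ∀ s ∈ U, lt t = lt s →
      A.emb (y t) (ω (y t)) = A.emb (y s) (ω (y s))) ≤
      Real.exp (-costOf U y lt fun t => A.hh (y t)) := by
  classical
  by_cases hev : ∃ ω₀ : ∀ e, B e, ∀ t ∈ U, ∀ s ∈ U, lt t = lt s →
      A.emb (y t) (ω₀ (y t)) = A.emb (y s) (ω₀ (y s))
  swap
  · refine le_trans (ex_le_of_le fun ω => ?_) (Real.exp_pos _).le
    rw [ind_neg fun h => hev ⟨ω, h⟩]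
  obtain ⟨ω₀, h₀⟩ := hev
  rcases U.eq_empty_or_nonempty with rfl | ⟨t₀, -⟩
  · simpa [costOf] using pr_le_one _
  have : Nonempty I := ⟨t₀⟩
  have hex : ∀ z : Z, (∃ s ∈ U, lt s = z) →
      ∃ s, s ∈ U ∧ lt s = z ∧ ∀ s' ∈ U, lt s' = z → A.det (y s') → A.det (y s) := by
    rintro z ⟨s, hs, hz⟩
    by_cases hd : ∃ s' ∈ U, lt s' = z ∧ A.det (y s')
    · obtain ⟨s', h1, h2, h3⟩ := hd
      exact ⟨s', h1, h2, fun _ _ _ _ => h3⟩
    · exact ⟨s, hs, hz, fun s' h1 h2 h3 => absurd ⟨s', h1, h2, h3⟩ hd⟩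
  choose! ρ hρ using hex
  have hρ' : ∀ t ∈ U, ρ (lt t) ∈ U ∧ lt (ρ (lt t)) = lt t ∧ (A.det (y t) → A.det (y (ρ (lt t)))) :=
    fun t ht => ⟨(hρ _ ⟨t, ht, rfl⟩).1, (hρ _ ⟨t, ht, rfl⟩).2.1,
      (hρ _ ⟨t, ht, rfl⟩).2.2 t ht rfl⟩
  set R : Finset E := (U.image lt).image fun z => y (ρ z) with hR
  set N : Finset E := U.image y \ R with hN
  have hRm : ∀ t ∈ U, y (ρ (lt t)) ∈ R := fun t ht =>
    Finset.mem_image.2 ⟨lt t, Finset.mem_image_of_mem lt ht, rfl⟩
  have hRs : R ⊆ U.image y := by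
    intro e he
    obtain ⟨z, hz, rfl⟩ := Finset.mem_image.1 he
    obtain ⟨t, ht, rfl⟩ := Finset.mem_image.1 hz
    exact Finset.mem_image_of_mem y (hρ' t ht).1
  have hcost : costOf U y lt (fun t => A.hh (y t)) = ∑ e ∈ N, A.hh e := by
    have h1 := cost_sum U y A.hh
    have h2 := cost_sum U lt fun z => A.hh (y (ρ z))
    have h3 : ∑ e ∈ R, A.hh e = ∑ z ∈ U.image lt, A.hh (y (ρ z)) := by
      refine Finset.sum_image ?_
      intro z hz z' hz' h
      obtain ⟨t, ht, rfl⟩ := Finset.mem_image.1 (Finset.mem_coe.1 hz)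
      obtain ⟨t', ht', rfl⟩ := Finset.mem_image.1 (Finset.mem_coe.1 hz')
      have := hlt _ (hρ' t ht).1 _ (hρ' t' ht').1 h
      rwa [(hρ' t ht).2.1, (hρ' t' ht').2.1] at this
    have h4 := Finset.sum_sdiff (f := A.hh) hRs
    have h5 : ∀ t ∈ U, A.hh (y (ρ (lt t))) = A.hh (y t) := fun t ht =>
      hA.hh_eq _ _ _ _ (h₀ _ (hρ' t ht).1 t ht (hρ' t ht).2.1)
    have h6 : ∑ t ∈ U, A.hh (y (ρ (lt t))) * (1 / (#{s ∈ U | lt s = lt t} : ℝ)) =
        ∑ t ∈ U, A.hh (y t) * (1 / (#{s ∈ U | lt s = lt t} : ℝ)) :=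
      Finset.sum_congr rfl fun t ht => by rw [h5 t ht]
    have h7 : costOf U y lt (fun t => A.hh (y t)) =
        ∑ t ∈ U, A.hh (y t) * (1 / (#{s ∈ U | y s = y t} : ℝ)) -
        ∑ t ∈ U, A.hh (y t) * (1 / (#{s ∈ U | lt s = lt t} : ℝ)) := by
      unfold costOf
      rw [← Finset.sum_sub_distrib]
      refine Finset.sum_congr rfl fun t _ => ?_
      rw [mul_sub]
      congr!
    rw [h7, h1, ← h6, h2, ← h3, ← h4]
    ring
  have hdet : ∀ e ∈ N, ¬ A.det e := by
    intro e he hd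
    obtain ⟨h1, h2⟩ := Finset.mem_sdiff.1 he
    obtain ⟨t, ht, rfl⟩ := Finset.mem_image.1 h1
    have := hA.det_inj _ _ _ _ ((hρ' t ht).2.2 hd) hd (h₀ _ (hρ' t ht).1 t ht (hρ' t ht).2.1)
    exact h2 (this ▸ hRm t ht)
  rw [hcost, ← Finset.sum_neg_distrib, Real.exp_sum]
  unfold pr
  rw [ex_resample N]
  refine ex_le_of_le fun ω => ?_
  refine le_trans (pr_mono (F := fun ω' : ∀ e, B e => ∀ e ∈ N, ∃ t ∈ U, y t = e ∧
    A.emb e (ω' e) = A.emb (y (ρ (lt t))) (ω (y (ρ (lt t))))) fun ω' h e he => ?_) ?_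
  · obtain ⟨t, ht, rfl⟩ := Finset.mem_image.1 (Finset.mem_sdiff.1 he).1
    refine ⟨t, ht, rfl, ?_⟩
    have := h t ht _ (hρ' t ht).1 (hρ' t ht).2.1.symm
    rwa [Finset.piecewise_eq_of_mem _ _ _ he, Finset.piecewise_eq_of_notMem _ _ _
      (fun h' => (Finset.mem_sdiff.1 h').2 (hRm t ht))] at this
  rw [pr_forall_coord N (fun e b => ∃ t ∈ U, y t = e ∧
    A.emb e b = A.emb (y (ρ (lt t))) (ω (y (ρ (lt t)))))]
  refine Finset.prod_le_prod (fun e _ => pr_nonneg _) fun e he => ?_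
  refine (cost_one _ ?_).trans ?_
  · rintro b b' ⟨t, ht, h1, h2⟩ ⟨t', ht', h1', h2'⟩
    apply hA.emb_inj e
    rw [h2, h2', hlt t ht t' ht' (h1.trans h1'.symm)]
  · rw [Real.exp_neg, ← one_div]
    exact one_div_le_one_div_of_le (Real.exp_pos _) (hA.hh_card e (hdet e he))

end Crest.Agent.R196
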