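import Crest.Agent.R196.V0
import Crest.Agent.R034.Prob

/-!
Row 196: shared definitions (do not edit).

Part C: a calculus of squared distances (`Had` = CAT(0) spaces, `Cone` = Euclidean cones).
Part A: levels of alphabets, energies.  Part P: weighted graphs with random labels.
-/

set_option autoImplicit false

universe u

namespace Crest.Agent.R196

open Finset
open Crest.Agent.R184 (TP)

/-! ## Part C -/

/-- A CAT(0) pseudo-metric space, described by its squared distance `D` and midpoints. -/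
structure Had (V : Type u) where
  D : V → V → ℝ
  mid : V → V → V
  D_self : ∀ x, D x x = 0
  D_symm : ∀ x y, D x y = D y x
  D_nonneg : ∀ x y, 0 ≤ D x y
  tri : ∀ (x y z : V) (t : ℝ), 0 ≤ t → t ≤ 1 → t * (1 - t) * D x z ≤ (1 - t) * D x y + t * D y z
  CN : ∀ g e f, D g (mid e f) ≤ D g e / 2 + D g f / 2 - D e f / 4

/-- `p` minimises the sum of the squared distances to the family `A`. -/
def Had.IsMin {V : Type u} (H : Had V) {ι : Type} [Fintype ι] (p : V) (A : ι → V) : Prop :=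
  ∀ z, ∑ i, H.D p (A i) ≤ ∑ i, H.D z (A i)

/-- the mean squared distance from `p` to the family `A` -/
noncomputable def Had.en {V : Type u} (H : Had V) {ι : Type} [Fintype ι] (p : V) (A : ι → V) : ℝ :=
  (∑ i, H.D p (A i)) / Fintype.card ι

/-- A CAT(0) Euclidean cone with apex `o`. -/
structure Cone (V : Type u) extends Had V where
  o : V
  dbl : V → V
  half : ∀ x y, D (mid o x) (mid o y) = D x y / 4
  half_dbl : ∀ x, D (mid o (dbl x)) x = 0

namespace Cone

variable {V : Type u} (C : Cone V)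

/-- squared norm -/
def nrm (x : V) : ℝ := C.D C.o x

/-- inner product -/
noncomputable def ip (x y : V) : ℝ := (C.nrm x + C.nrm y - C.D x y) / 2

/-- sum -/
def add (x y : V) : V := C.dbl (C.mid x y)

/-- the equality case of superadditivity -/
def Fl (c a b : V) : Prop := C.ip c (C.add a b) = C.ip c a + C.ip c b

end Cone

/-- A pre-cone: only approximate midpoints. -/
structure PH (V : Type u) where
  D : V → V → ℝ
  o : V
  hf : V → V
  dbl : V → V
  D_self : ∀ x, D x x = 0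
  D_symm : ∀ x y, D x y = D y x
  D_nonneg : ∀ x y, 0 ≤ D x y
  tri : ∀ (x y z : V) (t : ℝ), 0 ≤ t → t ≤ 1 → t * (1 - t) * D x z ≤ (1 - t) * D x y + t * D y z
  Q : ∀ (e f g m : V) (t : ℝ), 0 ≤ t → t ≤ 1 →
    D e f / 4 + t * (1 - t) * D g m ≤ t * (D e g + D f g) / 2 + (1 - t) * (D e m + D f m) / 2
  amid : ∀ (e f : V) (ε : ℝ), 0 < ε → ∃ m, D e m ≤ D e f / 4 + ε ∧ D f m ≤ D e f / 4 + ε
  hf_o : ∀ x, D o (hf x) ≤ D o x / 4
  hf_x : ∀ x, D x (hf x) ≤ D o x / 4
  half : ∀ x y, D (hf x) (hf y) = D x y / 4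
  half_dbl : ∀ x, D (hf (dbl x)) x = 0

/-- What is used of the tangent cone of `H` at `p` and of its logarithm `lg`. -/
structure IsTan {V T : Type u} (H : Had V) (p : V) (C : Cone T) (lg : V → T) : Prop where
  nrm : ∀ y, C.nrm (lg y) = H.D p y
  le : ∀ y z, C.D (lg y) (lg z) ≤ H.D y z
  cen : ∀ (ι : Type) [Fintype ι] (A : ι → V), H.IsMin p A → ∀ g, ∑ i, C.ip g (lg (A i)) ≤ 0
  dens : ∀ y₁ y₂, (∀ y, 0 ≤ C.ip (lg y) (lg y₁) + C.ip (lg y) (lg y₂)) →
    ∀ g, 0 ≤ C.ip g (lg y₁) + C.ip g (lg y₂)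

/-- the twelve points of the configuration -/
inductive Pt | a | x | u | m | s | b | c | g | k | v | f | e

/-- the value of a point at `ω = (a, x, u, m)` -/
def Pt.ev {F : Type} [Field F] (ω : F × F × F × F) : Pt → F
  | .a => ω.1
  | .x => ω.2.1
  | .u => ω.2.2.1
  | .m => ω.2.2.2
  | .s => ω.1 * ω.2.1
  | .b => ω.2.2.1 + ω.1 * ω.2.1
  | .c => ω.1 * ω.2.2.2
  | .g => ω.1 * ω.2.2.2 * ω.2.1
  | .k => ω.1 * ω.2.2.2 * (ω.1 * ω.2.1)
  | .v => ω.2.2.1 + ω.1 * ω.2.2.2
  | .f => ω.2.2.1 + ω.1 * ω.2.1 + ω.1 * ω.2.2.2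
  | .e => ω.1 * ω.2.2.2 + ω.1 * ω.2.1

/-- `a`, `x`, `m` do not vanish -/
def Nz {F : Type} [Field F] (ω : F × F × F × F) : Prop := ω.1 ≠ 0 ∧ ω.2.1 ≠ 0 ∧ ω.2.2.2 ≠ 0

/-- the four points are coordinates on the generic part of `F⁴`, in characteristic two -/
def IsBas (p q r t : Pt) : Prop :=
  ∀ (F : Type) [Field F] [CharP F 2] (ω ω' : F × F × F × F), Nz ω → Nz ω' →
    p.ev ω = p.ev ω' → q.ev ω = q.ev ω' → r.ev ω = r.ev ω' → t.ev ω = t.ev ω' → ω = ω'

/-- `z = p + q` or `z = p * q` -/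
def IsCol (z p q : Pt) : Prop :=
  (∀ (F : Type) [Field F] [CharP F 2] (ω : F × F × F × F), z.ev ω = p.ev ω + q.ev ω) ∨
  (∀ (F : Type) [Field F] [CharP F 2] (ω : F × F × F × F), z.ev ω = p.ev ω * q.ev ω)

/-- `z = q + r * p` -/
def IsLin (z p q r : Pt) : Prop :=
  ∀ (F : Type) [Field F] [CharP F 2] (ω : F × F × F × F), z.ev ω = q.ev ω + r.ev ω * p.ev ω

/-- The configuration, up to an error `ε`. -/
structure Cfg {V : Type u} (C : Cone V) (W : Pt → V) (ε : ℝ) : Prop where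
  nrm : ∀ p q r t, IsBas p q r t → |C.nrm (W p) - 1| ≤ ε
  bas : ∀ p q r t, IsBas p q r t →
    C.nrm (C.add (C.add (C.add (W p) (W q)) (W r)) (W t)) ≤ 4 + ε
  orth : ∀ p q r t, IsBas p q r t → -ε ≤ C.ip (W p) (W q)
  col : ∀ z p q r t, IsBas p q r t → IsCol z p q → 1 - ε ≤ C.ip (W z) (C.add (W p) (W q))
  flag : ∀ z p q r t, IsBas p q r t → IsLin z p q r →
    1 - ε ≤ C.ip (C.add (W p) (W q)) (C.add (W r) (W z))

/-! ## Part A -/

section level

variable {F F' : Type} [Field F]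

/-- the four atoms joined to the node `(x, y)` -/
def slot (σ : Fin 4) (x y : F) : F := ![x, y, x + y, x * y] σ

/-- good triples `(x, y, a)` -/
abbrev Gd (F : Type) [Field F] : Type :=
  {t : F × F × F // t.1 ≠ 0 ∧ t.1 ≠ 1 ∧ t.2.2 ≠ 0 ∧ t.2.2 ≠ 1}

/-- the two nodes `(x, y)` and `(a, y + a x)` joined through a good triple -/
def nodeOf (β : Bool) (t : Gd F) : F × F :=
  match β with
  | false => (t.1.1, t.1.2.1)
  | true => (t.1.2.2, t.1.2.1 + t.1.2.2 * t.1.1)

/-- the randomly labelled edges of a level -/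
abbrev RE (F : Type) [Field F] : Type := (Bool × Fin 4 × F × F) ⊕ (Bool × Gd F)

instance RE_decEq [DecidableEq F] : DecidableEq (RE F) := fun a b => instDecidableEqSum a b

/-- labellings of a level -/
abbrev Lab (F F' : Type) [Field F] : Type := RE F → F'

/-- The data seen in the tangent cone when the energies are tied. -/
structure LevelData [Fintype F] [DecidableEq F] {V : Type u} (C : Cone V) (w : F → V)
    (χ : Bool → F × F → V) (ρ : ℝ) : Prop where
  cen : ∀ g, ∑ x, C.ip g (w x) ≤ 0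
  nrm : ∑ x, C.nrm (w x) = Fintype.card F
  sup : ∀ x, C.nrm (w x) ≤ ρ * Fintype.card F
  slt : ∀ β σ, ∑ p : F × F, C.D (χ β p) (w (slot σ p.1 p.2)) ≤ (1 + ρ) * (Fintype.card F : ℝ) ^ 2
  big : ∀ β, (2 - ρ) * (Fintype.card F : ℝ) ^ 2 ≤ ∑ p : F × F, C.nrm (χ β p)
  flg : ∑ t : Gd F, C.D (χ false (nodeOf false t)) (χ true (nodeOf true t)) ≤
    (2 + ρ) * (Fintype.card F : ℝ) ^ 3

open Classical in
/-- Equidistribution of the labels of a level: frequencies. -/
structure EquiA [Fintype F] [DecidableEq F] [Fintype F'] (τ : ℝ) (ℓ : Lab F F') : Prop where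
  e1u : ∀ β σ l, (#{p : F × F | ℓ (.inl (β, σ, p)) = l} : ℝ) * Fintype.card F' ≤
    (1 + τ) * (Fintype.card F : ℝ) ^ 2
  e1l : ∀ β σ l, (1 - τ) * (Fintype.card F : ℝ) ^ 2 ≤
    (#{p : F × F | ℓ (.inl (β, σ, p)) = l} : ℝ) * Fintype.card F'
  e4 : ∀ l l', (#{t : Gd F | ℓ (.inr (false, t)) = l ∧ ℓ (.inr (true, t)) = l'} : ℝ) *
    (Fintype.card F' : ℝ) ^ 2 ≤ (1 + τ) * (Fintype.card F : ℝ) ^ 3

open Classical in
/-- Equidistribution of the labels of a level: stars. -/
structure EquiB [Fintype F] [DecidableEq F] [Fintype F'] (k Dd : ℕ) (ℓ : Lab F F') : Prop where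
  e2 : ∀ β σ x l, #{y : F | ℓ (.inl (β, σ, x, y)) = l} ≤ Dd
  e3 : ∀ β (Λ : Fin k → F'), (#{p : F × (Fin k → F) | Function.Injective p.2 ∧
    ∀ j, ℓ (.inl (β, 0, p.1, p.2 j)) = Λ j} : ℝ) * (Fintype.card F' : ℝ) ^ k ≤
    2 * (Fintype.card F : ℝ) ^ (k + 1)

/-- Equidistribution of the labels of a level. -/
structure Equi [Fintype F] [DecidableEq F] [Fintype F'] (τ : ℝ) (k Dd : ℕ) (ℓ : Lab F F') :
    Prop extends EquiA τ ℓ, EquiB k Dd ℓ

/-- the alphabets are large -/
def Big (F F' : Type) [Fintype F] [Fintype F'] (ρ : ℝ) (k Dd : ℕ) : Prop :=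
  k ^ 2 ≤ Fintype.card F ∧
    3 * (4 * Dd * (Fintype.card F' : ℝ) + Fintype.card F) ≤ ρ * (Fintype.card F : ℝ) ^ 2

/-- The relations imposed by a level. -/
structure LevRel {G : Type} [Group G] (s : F → G) (s' : F' → G) (ℓ : Lab F F')
    (γ : Bool → F × F → G) : Prop where
  r1 : ∀ β σ p, γ β p = s (slot σ p.1 p.2) * s' (ℓ (.inl (β, σ, p)))
  r2 : ∀ t, γ true (nodeOf true t) =
    γ false (nodeOf false t) * (s' (ℓ (.inr (false, t))))⁻¹ * s' (ℓ (.inr (true, t)))

end level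

open Classical in
/-- Equidistribution of the seam labels. -/
def SeamEqui {F F' : Type} [Fintype F] [Fintype F'] (w : F × Fin 3 → F') : Prop :=
  ∀ j x, (#{l : F | w (l, j) = x} : ℝ) * Fintype.card F' ≤ 2 * Fintype.card F

/-! ## Part P -/

/-- a directed multigraph -/
structure Gr (E V : Type) where
  src : E → V
  tgt : E → V

/-- the opposite half-edge -/
def rv {E : Type} (h : E × Bool) : E × Bool := (h.1, !h.2)

namespace Gr

variable {E V : Type} (Γ : Gr E V)

/-- the start of a half-edge -/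
def st (h : E × Bool) : V := if h.2 then Γ.src h.1 else Γ.tgt h.1

/-- the end of a half-edge -/
def en (h : E × Bool) : V := Γ.st (rv h)

/-- the half-edge system of a labelling -/
def hes {S : Type} (lab : E → S) : HES V S (E × Bool) := ⟨Γ.st, fun h => (lab h.1, h.2)⟩

/-- non-backtracking walks with `k + 1` edges -/
def IsWalk {k : ℕ} (c : Fin (k + 1) → E × Bool) : Prop :=
  ∀ i : Fin k, Γ.st (c i.succ) = Γ.en (c i.castSucc) ∧ c i.succ ≠ rv (c i.castSucc)

/-- simple cycles with `k + 1` edges -/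
def IsCyc {k : ℕ} (c : Fin (k + 1) → E × Bool) : Prop :=
  (∀ i, Γ.st (c (i + 1)) = Γ.en (c i) ∧ c (i + 1) ≠ rv (c i)) ∧
    Function.Injective fun i => Γ.st (c i)

open Classical in
/-- bounds on vertices and steps -/
structure PF0 [Fintype E] [Fintype V] (D : E → ℝ) (W : V → ℝ) (C : ℝ) : Prop where
  vtx : ∑ v, Real.exp (-W v) ≤ C
  step : ∀ v, ∑ h with Γ.st h = v, Real.exp (-(D h.1 / 2 + (W (Γ.en h) - W v) / 2)) ≤ C

open Classical in
/-- the bound on simple cycles -/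
def PFc [Fintype E] (D : E → ℝ) (C : ℝ) : Prop :=
  ∀ k, ∑ c : Fin (k + 1) → E × Bool with Γ.IsCyc c, Real.exp (-∑ i, D (c i).1 / 2) ≤ C ^ (k + 2)

open Classical in
/-- bounds on walks and on lollipops -/
structure PF2 [Fintype E] (D : E → ℝ) (W : V → ℝ) (C : ℝ) : Prop where
  path : ∀ k, ∑ c : Fin (k + 1) → E × Bool with Γ.IsWalk c,
    Real.exp (-(∑ i, D (c i).1 / 2 + (W (Γ.st (c 0)) + W (Γ.en (c (Fin.last k)))) / 2)) ≤
      C ^ (k + 2)
  lol : ∀ k (j : Fin (k + 1)), ∑ c : Fin (k + 1) → E × Bool with (Γ.IsWalk c ∧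
      (Function.Injective fun i => Γ.st (c i)) ∧ Γ.en (c (Fin.last k)) = Γ.st (c j)),
    Real.exp (-(∑ i, D (c i).1 / 2 + (W (Γ.st (c 0)) - W (Γ.st (c j))) / 2)) ≤ C ^ (k + 2)

end Gr

/-- The edge `e` carries a letter `emb e b` with `b : B e`. -/
structure Alph (E S : Type) (B : E → Type) where
  emb : ∀ e, B e → S
  det : E → Prop
  hh : E → ℝ

/-- properties of the alphabets alone -/
structure Alph.OK {E S : Type} {B : E → Type} [∀ e, Fintype (B e)] (A : Alph E S B) : Prop where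
  emb_inj : ∀ e, Function.Injective (A.emb e)
  det_inj : ∀ e e' b b', A.det e → A.det e' → A.emb e b = A.emb e' b' → e = e'
  hh_eq : ∀ e e' b b', A.emb e b = A.emb e' b' → A.hh e = A.hh e'
  hh_card : ∀ e, ¬ A.det e → Real.exp (A.hh e) ≤ Fintype.card (B e)
  hh_nonneg : ∀ e, 0 ≤ A.hh e

/-- comparison of the weights with the alphabets -/
structure Alph.Wt {E V S : Type} {B : E → Type} (A : Alph E S B) (D : E → ℝ) (W : V → ℝ)
    (a γ : ℝ) : Prop where
  D_nonneg : ∀ e, 0 ≤ D e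
  D_le : ∀ e, D e ≤ A.hh e
  D_gap : ∀ e, ¬ A.det e → D e + γ ≤ A.hh e
  D_max : ∀ e, D e ≤ a * γ
  W_nonneg : ∀ v, 0 ≤ W v
  W_max : ∀ v, W v ≤ a * γ

/-- A piece of a diagram. -/
structure Piece {V S H : Type} (D : HES V S H) (rev : H → H) (I : Type) where
  θ : I → H
  nx : I → Option I
  mu : I → Option I
  nx_inj : ∀ t t' s, nx t = some s → nx t' = some s → t = t'
  nx_spec : ∀ t s, nx t = some s → D.vert (θ s) = D.vert (rev (θ t)) ∧ θ s ≠ rev (θ t)
  mu_symm : ∀ t s, mu t = some s → mu s = some t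
  mu_spec : ∀ t s, mu t = some s → D.lett (θ s) = R184.flp (D.lett (θ t)) ∧ θ s ≠ rev (θ t)

open Classical in
/-- the isoperimetric inequality for pieces of size at most `K` -/
def PieceIneq {V S H : Type} (D : HES V S H) (rev : H → H) (K C0 : ℕ) : Prop :=
  ∀ (I : Type) [Fintype I] (c : Piece D rev I), Fintype.card I ≤ K →
    Fintype.card I ≤ C0 * (#{t | c.nx t = none} + #{t | c.mu t = none})

/-- polymatroids -/
structure Polym {I : Type} [DecidableEq I] (f : Finset I → ℝ) : Prop where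
  empty : f ∅ = 0
  mono : ∀ U U', U ⊆ U' → f U ≤ f U'
  sub : ∀ U U' t, U ⊆ U' → f (insert t U') - f U' ≤ f (insert t U) - f U

open Classical in
/-- the elements whose class has more than `τ` elements -/
noncomputable def thr {I Y : Type} [Fintype I] (cl : I → Y) (τ : ℕ) : Finset I :=
  {t | τ < #{s | cl s = cl t}}

open Classical in
/-- the sum of `h` over the `cl`-classes of `U` minus its sum over the `lt`-classes of `U` -/
noncomputable def costOf {I Y Z : Type} (U : Finset I) (cl : I → Y) (lt : I → Z) (h : I → ℝ) : ℝ :=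
  ∑ t ∈ U, h t * (1 / (#{s ∈ U | cl s = cl t} : ℝ) - 1 / (#{s ∈ U | lt s = lt t} : ℝ))

/-! ### The graph of a level -/

section lvl

variable (F : Type) [Field F]

/-- vertices: root, atoms, nodes, mids -/
abbrev LV (F : Type) : Type := Unit ⊕ F ⊕ (Bool × F × F) ⊕ (F × F × F)

/-- edges: root-atom, atom-node, mid-node -/
abbrev LEd : Type := F ⊕ RE F

instance LV_decEq {F : Type} [DecidableEq F] : DecidableEq (LV F) :=
  fun a b => instDecidableEqSum a b

instance LEd_decEq [DecidableEq F] : DecidableEq (LEd F) := fun a b => instDecidableEqSum a b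

/-- the graph of a level -/
def lvl : Gr (LEd F) (LV F) where
  src
    | .inl _ => .inl ()
    | .inr (.inl (_, σ, p)) => .inr (.inl (slot σ p.1 p.2))
    | .inr (.inr (_, t)) => .inr (.inr (.inr t.1))
  tgt
    | .inl x => .inr (.inl x)
    | .inr (.inl (β, _, p)) => .inr (.inr (.inl (β, p)))
    | .inr (.inr (β, t)) => .inr (.inr (.inl (β, nodeOf β t)))

/-- the height of a vertex -/
def ht {F : Type} : LV F → ℝ
  | .inl _ => 0
  | .inr (.inl _) => 1
  | .inr (.inr (.inl _)) => 2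
  | .inr (.inr (.inr _)) => 3

end lvl

/-! ### The whole graph -/

section union

variable (F : ℕ → Type) [∀ i, Field (F i)] (L : ℕ)

/-- vertices -/
abbrev UV (F : ℕ → Type) (L : ℕ) : Type := (Σ i : Fin L, LV (F i)) ⊕ (F L × Fin 4)

/-- edges -/
abbrev UE : Type := (Σ i : Fin L, LEd (F i)) ⊕ (F L × Option (Fin 3))

/-- letters -/
abbrev US (F : ℕ → Type) (L : ℕ) : Type := Σ j : Fin (L + 1), F j

instance UV_decEq (F : ℕ → Type) (L : ℕ) [∀ i, DecidableEq (F i)] : DecidableEq (UV F L) :=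
  fun a b => instDecidableEqSum a b

instance UE_decEq [∀ i, DecidableEq (F i)] : DecidableEq (UE F L) :=
  fun a b => instDecidableEqSum a b

/-- the levels and the seam (one 4-cycle for each letter of the last alphabet) -/
def uG : Gr (UE F L) (UV F L) where
  src
    | .inl ⟨i, e⟩ => .inl ⟨i, (lvl (F i)).src e⟩
    | .inr (l, none) => .inr (l, 0)
    | .inr (l, some j) => .inr (l, ![0, 2, 2] j)
  tgt
    | .inl ⟨i, e⟩ => .inl ⟨i, (lvl (F i)).tgt e⟩
    | .inr (l, none) => .inr (l, 3)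
    | .inr (l, some j) => .inr (l, ![1, 1, 3] j)

/-- the possible labels of an edge -/
def uB : UE F L → Type
  | .inl ⟨_, .inl _⟩ => Unit
  | .inl ⟨i, .inr _⟩ => F (i + 1)
  | .inr (_, none) => Unit
  | .inr (_, some _) => F 0

instance uB_fintype [∀ i, Fintype (F i)] : ∀ e, Fintype (uB F L e)
  | .inl ⟨_, .inl _⟩ => inferInstanceAs (Fintype Unit)
  | .inl ⟨i, .inr _⟩ => inferInstanceAs (Fintype (F (i + 1)))
  | .inr (_, none) => inferInstanceAs (Fintype Unit)
  | .inr (_, some _) => inferInstanceAs (Fintype (F 0))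

instance uB_nonempty : ∀ e, Nonempty (uB F L e)
  | .inl ⟨_, .inl _⟩ => ⟨()⟩
  | .inl ⟨i, .inr _⟩ => ⟨(0 : F (i + 1))⟩
  | .inr (_, none) => ⟨()⟩
  | .inr (_, some _) => ⟨(0 : F 0)⟩

/-- the alphabets -/
noncomputable def uA [∀ i, Fintype (F i)] : Alph (UE F L) (US F L) (uB F L) where
  emb
    | .inl ⟨i, .inl x⟩, _ => ⟨⟨i, i.2.trans (Nat.lt_succ_self L)⟩, x⟩
    | .inl ⟨i, .inr _⟩, b => ⟨⟨i + 1, Nat.succ_lt_succ i.2⟩, b⟩
    | .inr (l, none), _ => ⟨⟨L, Nat.lt_succ_self L⟩, l⟩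
    | .inr (_, some _), b => ⟨⟨0, Nat.succ_pos L⟩, b⟩
  det
    | .inl ⟨_, .inl _⟩ => True
    | .inl ⟨_, .inr _⟩ => False
    | .inr (_, none) => True
    | .inr (_, some _) => False
  hh
    | .inl ⟨i, .inl _⟩ => Real.log (Fintype.card (F i))
    | .inl ⟨i, .inr _⟩ => Real.log (Fintype.card (F (i + 1)))
    | .inr (_, none) => Real.log (Fintype.card (F L))
    | .inr (_, some _) => Real.log (Fintype.card (F 0))

/-- edge weights -/
noncomputable def uD [∀ i, Fintype (F i)] : UE F L → ℝ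
  | .inl ⟨i, _⟩ => Real.log (Fintype.card (F i))
  | .inr (_, none) => Real.log (Fintype.card (F L))
  | .inr (_, some _) => 2 / 3 * Real.log (Fintype.card (F 0))

/-- vertex weights -/
noncomputable def uW (F : ℕ → Type) (L : ℕ) [∀ i, Fintype (F i)] : UV F L → ℝ
  | .inl ⟨i, v⟩ => ht v * Real.log (Fintype.card (F i))
  | .inr _ => Real.log (Fintype.card (F L))

variable {F L}

/-- the labels of level `i` -/
def uLab (ω : ∀ e, uB F L e) (i : Fin L) : Lab (F i) (F (i + 1)) :=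
  fun r => ω (.inl ⟨i, .inr r⟩)

/-- the labels of the seam -/
def uSeam (ω : ∀ e, uB F L e) : F L × Fin 3 → F 0 := fun p => ω (.inr (p.1, some p.2))

/-- the half-edge system -/
noncomputable def uH [∀ i, Fintype (F i)] (ω : ∀ e, uB F L e) :
    HES (UV F L) (US F L) (UE F L × Bool) :=
  (uG F L).hes fun e => (uA F L).emb e (ω e)

/-- the group -/
abbrev uGrp [∀ i, Fintype (F i)] (ω : ∀ e, uB F L e) : Type := ((uH ω).tp rv).Grp

/-- the letters, as elements of the group -/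
noncomputable def uS [∀ i, Fintype (F i)] (ω : ∀ e, uB F L e) (i : ℕ) (x : F i) : uGrp ω :=
  if h : i < L + 1 then ((uH ω).tp rv).gen (.inr ⟨⟨i, h⟩, x⟩) else 1

end union

end Crest.Agent.R196
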