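import Crest.Agent.R196.Chernoff

/-! Row 196: frequencies of labels. -/

set_option autoImplicit false

namespace Crest.Agent.R196

open Finset

open Crest.Agent.R034

section aux

variable {ι κ F' : Type} [Fintype ι] [DecidableEq ι] [Fintype κ] [Fintype F'] [Nonempty F']

theorem ea_pr_eq (l : F') : pr (fun a : F' => a = l) = 1 / Fintype.card F' := by
  classical
  rw [pr_eq_card, filter_eq' univ l]
  simp

theorem ea_pr_one (i : ι) (l : F') :
    ex (fun ω : ι → F' => ind (ω i = l)) = 1 / Fintype.card F' :=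
  (ex_coord (A := fun _ => F') i fun _ a => ind (a = l)).trans (ea_pr_eq l)

theorem ea_pr_two {i j : ι} (h : i ≠ j) (l l' : F') :
    ex (fun ω : ι → F' => ind (ω i = l ∧ ω j = l')) = 1 / (Fintype.card F' : ℝ) ^ 2 := by
  have := ex_prod_coord_mem (A := fun _ => F') {i, j} fun k a => ind (a = if k = i then l else l')
  simp only [prod_pair h, if_true, if_neg h.symm] at this
  simp only [ind_and]
  rw [this]
  change pr (fun a : F' => a = l) * pr (fun a : F' => a = l') = _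
  rw [ea_pr_eq, ea_pr_eq]
  ring

theorem ea_upper (T : κ → Finset ι) (hT : ∀ b b', b ≠ b' → Disjoint (T b) (T b'))
    (E : κ → (ι → F') → Prop) (hE : ∀ b ω ω', (∀ i ∈ T b, ω i = ω' i) → (E b ω ↔ E b ω'))
    {c n τ M : ℝ} (hc : 0 < c) (hp : ∀ b, ex (fun ω => ind (E b ω)) = 1 / c)
    (hn : (Fintype.card κ : ℝ) ≤ n) (hM : M * c ≤ n) (hτ : 0 < τ) (hτ1 : τ ≤ 1) :
    pr (fun ω => ¬ (∑ b, ind (E b ω)) * c ≤ (1 + τ) * n) ≤ Real.exp (-(τ ^ 2 / 4 * M)) := by
  have h := chernoff_upper (A := fun _ => F') T hT (fun b ω => ind (E b ω))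
    (fun b ω ω' h => ind_congr (hE b ω ω' h)) one_pos (fun _ _ => ind_nonneg _)
    (fun _ _ => ind_le_one _) (μ := n / c) (by
      simp only [hp, sum_const, card_univ, nsmul_eq_mul, mul_one_div]
      gcongr) hτ hτ1
  refine (pr_mono fun ω hω => ?_).trans (h.trans (Real.exp_le_exp.2 ?_))
  · rw [← mul_div_assoc, div_lt_iff₀ hc]
    exact not_le.1 hω
  · have : M ≤ n / c := (le_div_iff₀ hc).2 hM
    nlinarith [sq_nonneg τ]

theorem ea_lower (T : κ → Finset ι) (hT : ∀ b b', b ≠ b' → Disjoint (T b) (T b'))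
    (E : κ → (ι → F') → Prop) (hE : ∀ b ω ω', (∀ i ∈ T b, ω i = ω' i) → (E b ω ↔ E b ω'))
    {c n τ M : ℝ} (hc : 0 < c) (hp : ∀ b, ex (fun ω => ind (E b ω)) = 1 / c)
    (hn : n ≤ (Fintype.card κ : ℝ)) (hM : M * c ≤ n) (hτ : 0 < τ) (hτ1 : τ ≤ 1) :
    pr (fun ω => ¬ (1 - τ) * n ≤ (∑ b, ind (E b ω)) * c) ≤ Real.exp (-(τ ^ 2 / 4 * M)) := by
  have h := chernoff_lower (A := fun _ => F') T hT (fun b ω => ind (E b ω))
    (fun b ω ω' h => ind_congr (hE b ω ω' h)) one_pos (fun _ _ => ind_nonneg _)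
    (fun _ _ => ind_le_one _) (μ := n / c) (by
      simp only [hp, sum_const, card_univ, nsmul_eq_mul, mul_one_div]
      gcongr) hτ hτ1
  refine (pr_mono fun ω hω => ?_).trans (h.trans (Real.exp_le_exp.2 ?_))
  · rw [← mul_div_assoc, lt_div_iff₀ hc]
    exact not_le.1 hω
  · have : M ≤ n / c := (le_div_iff₀ hc).2 hM
    nlinarith [sq_nonneg τ]

end aux

/-- Chernoff with `B = 1`, blocks = single edges (mean `q² / q' = N ^ (m - 1) ≥ N`), resp. the two
edges at a good triple (mean at most `q³ / q'² = N ^ (m - 2) ≥ N`); union over at most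
`16 q' + q'²` events. -/
theorem equiA_prob {τ δ : ℝ} (hτ : 0 < τ) (hτ1 : τ ≤ 1) (hδ : 0 < δ) {m : ℕ} (hm : 3 ≤ m) :
    ∃ N₀ : ℕ, ∀ N : ℕ, N₀ ≤ N → ∀ (F F' : Type) [Field F] [Fintype F] [DecidableEq F]
      [Fintype F'], Fintype.card F = N ^ m → Fintype.card F' = N ^ (m + 1) →
      pr (fun ℓ : Lab F F' => ¬ EquiA τ ℓ) ≤ δ := by
  classical
  obtain ⟨N₀, hN₀⟩ := pow_mul_exp_small (2 * m + 2) (c := τ ^ 2 / 4) (δ := δ / 17)
    (by positivity) (by positivity)
  refine ⟨max N₀ 1, fun N hN F F' _ _ _ _ hF hF' => ?_⟩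
  have h0 := hN₀ N ((le_max_left _ _).trans hN)
  have hN1 : 1 ≤ N := (le_max_right _ _).trans hN
  have hN1' : (1 : ℝ) ≤ N := by exact_mod_cast hN1
  have hq : (Fintype.card F : ℝ) = (N : ℝ) ^ m := by rw [hF]; push_cast; rfl
  have hq' : (Fintype.card F' : ℝ) = (N : ℝ) ^ (m + 1) := by rw [hF']; push_cast; rfl
  have hc : (0 : ℝ) < Fintype.card F' := by rw [hq']; positivity
  haveI : Nonempty F' := Fintype.card_pos_iff.1 (by exact_mod_cast hc)
  have hM1 : (N : ℝ) * Fintype.card F' ≤ (Fintype.card F : ℝ) ^ 2 := by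
    rw [hq, hq', ← pow_succ', ← pow_mul]
    exact pow_le_pow_right₀ hN1' (by omega)
  have hM2 : (N : ℝ) * (Fintype.card F' : ℝ) ^ 2 ≤ (Fintype.card F : ℝ) ^ 3 := by
    rw [hq, hq', ← pow_mul, ← pow_succ', ← pow_mul]
    exact pow_le_pow_right₀ hN1' (by omega)
  have hT : ∀ (β : Bool) (σ : Fin 4) (b b' : F × F), b ≠ b' →
      Disjoint ({.inl (β, σ, b)} : Finset (RE F)) {.inl (β, σ, b')} := fun β σ b b' h => by
    simpa using h
  have hcard : (Fintype.card (F × F) : ℝ) = (Fintype.card F : ℝ) ^ 2 := by simp [sq]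
  have h1 := pr_exists_le_card (univ : Finset (Bool × Fin 4 × F'))
    (fun i (ℓ : Lab F F') => ¬ (∑ p : F × F, ind (ℓ (.inl (i.1, i.2.1, p)) = i.2.2)) *
      (Fintype.card F' : ℝ) ≤ (1 + τ) * (Fintype.card F : ℝ) ^ 2)
    fun i _ => ea_upper _ (hT i.1 i.2.1) (fun p ℓ => ℓ (.inl (i.1, i.2.1, p)) = i.2.2)
      (fun b ω ω' h => by rw [h _ (mem_singleton_self _)]) hc (fun _ => ea_pr_one _ _) hcard.le
      hM1 hτ hτ1
  have h2 := pr_exists_le_card (univ : Finset (Bool × Fin 4 × F'))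
    (fun i (ℓ : Lab F F') => ¬ (1 - τ) * (Fintype.card F : ℝ) ^ 2 ≤
      (∑ p : F × F, ind (ℓ (.inl (i.1, i.2.1, p)) = i.2.2)) * (Fintype.card F' : ℝ))
    fun i _ => ea_lower _ (hT i.1 i.2.1) (fun p ℓ => ℓ (.inl (i.1, i.2.1, p)) = i.2.2)
      (fun b ω ω' h => by rw [h _ (mem_singleton_self _)]) hc (fun _ => ea_pr_one _ _) hcard.ge
      hM1 hτ hτ1
  have h3 := pr_exists_le_card (univ : Finset (F' × F'))
    (fun i (ℓ : Lab F F') => ¬ (∑ t : Gd F, ind (ℓ (.inr (false, t)) = i.1 ∧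
      ℓ (.inr (true, t)) = i.2)) * (Fintype.card F' : ℝ) ^ 2 ≤ (1 + τ) * (Fintype.card F : ℝ) ^ 3)
    fun i _ => ea_upper (fun t : Gd F => ({.inr (false, t), .inr (true, t)} : Finset (RE F)))
      (fun b b' h => by simp [h, h.symm])
      (fun t ℓ => ℓ (.inr (false, t)) = i.1 ∧ ℓ (.inr (true, t)) = i.2)
      (fun b ω ω' h => by rw [h _ (by simp), h (.inr (true, b)) (by simp)]) (by positivity)
      (fun _ => ea_pr_two (by simp) _ _) (by
        have := Fintype.card_subtype_le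
          (fun t : F × F × F => t.1 ≠ 0 ∧ t.1 ≠ 1 ∧ t.2.2 ≠ 0 ∧ t.2.2 ≠ 1)
        simp only [Fintype.card_prod] at this
        calc (Fintype.card (Gd F) : ℝ) ≤ (Fintype.card F * (Fintype.card F * Fintype.card F) : ℕ) := by
              exact_mod_cast (by convert this)
          _ = _ := by push_cast; ring) hM2 hτ hτ1
  refine (pr_mono fun ℓ hℓ => ?_).trans (((pr_or_le _ _).trans
    (add_le_add h1 ((pr_or_le _ _).trans (add_le_add h2 h3)))).trans ?_)
  · by_contra hne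
    simp only [not_or, not_exists, not_and, not_not, mem_univ, forall_true_left] at hne
    refine hℓ ⟨fun β σ l => ?_, fun β σ l => ?_, fun l l' => ?_⟩
    · rw [card_filter_eq_sum_ind]; exact hne.1 (β, σ, l)
    · rw [card_filter_eq_sum_ind]; exact hne.2.1 (β, σ, l)
    · rw [card_filter_eq_sum_ind]; exact hne.2.2 (l, l')
  · simp only [card_univ, Fintype.card_prod, Fintype.card_bool, Fintype.card_fin]
    push_cast
    have h4 : (Fintype.card F' : ℝ) ≤ (N : ℝ) ^ (2 * m + 2) := by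
      rw [hq']; exact pow_le_pow_right₀ hN1' (by omega)
    have h5 : (Fintype.card F' : ℝ) * Fintype.card F' = (N : ℝ) ^ (2 * m + 2) := by
      rw [hq']; ring
    have h6 := mul_le_mul_of_nonneg_right h4 (Real.exp_pos (-(τ ^ 2 / 4 * N))).le
    rw [h5]
    linarith

/-- Chernoff with `B = 1`, `τ = 1`, mean `N ^ L ≥ N`; union over `3 N ^ M` events. -/
theorem seam_prob {δ : ℝ} (hδ : 0 < δ) (M : ℕ) {L : ℕ} (hL : 0 < L) :
    ∃ N₀ : ℕ, ∀ N : ℕ, N₀ ≤ N → ∀ (F F' : Type) [Fintype F] [DecidableEq F] [Fintype F'],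
      Fintype.card F = N ^ (M + L) → Fintype.card F' = N ^ M →
      pr (fun w : F × Fin 3 → F' => ¬ SeamEqui w) ≤ δ := by
  classical
  obtain ⟨N₀, hN₀⟩ := pow_mul_exp_small M (c := 1 ^ 2 / 4) (δ := δ / 3)
    (by positivity) (by positivity)
  refine ⟨max N₀ 1, fun N hN F F' _ _ _ hF hF' => ?_⟩
  have h0 := hN₀ N ((le_max_left _ _).trans hN)
  have hN1 : 1 ≤ N := (le_max_right _ _).trans hN
  have hN1' : (1 : ℝ) ≤ N := by exact_mod_cast hN1
  have hq : (Fintype.card F : ℝ) = (N : ℝ) ^ (M + L) := by rw [hF]; push_cast; rfl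
  have hq' : (Fintype.card F' : ℝ) = (N : ℝ) ^ M := by rw [hF']; push_cast; rfl
  have hc : (0 : ℝ) < Fintype.card F' := by rw [hq']; positivity
  haveI : Nonempty F' := Fintype.card_pos_iff.1 (by exact_mod_cast hc)
  have hM1 : (N : ℝ) * Fintype.card F' ≤ (Fintype.card F : ℝ) := by
    rw [hq, hq', ← pow_succ']
    exact pow_le_pow_right₀ hN1' (by omega)
  have h1 := pr_exists_le_card (univ : Finset (Fin 3 × F'))
    (fun i (w : F × Fin 3 → F') => ¬ (∑ l : F, ind (w (l, i.1) = i.2)) *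
      (Fintype.card F' : ℝ) ≤ (1 + 1) * (Fintype.card F : ℝ))
    fun i _ => ea_upper (fun l => {(l, i.1)}) (fun b b' h => by simpa using h)
      (fun l w => w (l, i.1) = i.2)
      (fun b ω ω' h => by rw [h _ (mem_singleton_self _)]) hc (fun _ => ea_pr_one _ _) le_rfl
      hM1 one_pos le_rfl
  refine (pr_mono fun w hw => ?_).trans (h1.trans ?_)
  · by_contra hne
    simp only [not_exists, not_and, not_not, mem_univ, forall_true_left] at hne
    refine hw fun j x => ?_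
    rw [card_filter_eq_sum_ind, ← one_add_one_eq_two]
    exact hne (j, x)
  · simp only [card_univ, Fintype.card_prod, Fintype.card_fin]
    push_cast
    rw [hq']
    linarith

end Crest.Agent.R196
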