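import Crest.Agent.R196.Chernoff

/-! Row 196: stars of labels. -/

set_option autoImplicit false

namespace Crest.Agent.R196

open Finset

open Crest.Agent.R034

theorem equiB_pt {ι κ B : Type} [Fintype ι] [DecidableEq ι] [Fintype κ] [Fintype B] [Nonempty B]
    (φ : κ → ι) (hφ : Function.Injective φ) (Λ : κ → B) :
    pr (fun ω : ι → B => ∀ j, ω (φ j) = Λ j) = (1 / (Fintype.card B : ℝ)) ^ Fintype.card κ := by
  classical
  have h := pr_restrict (A := fun _ : ι => B) φ hφ (fun w => ∀ j, w j = Λ j)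
  refine h.trans ?_
  rw [pr_eq_card]
  have : (Finset.univ.filter fun w : κ → B => ∀ j, w j = Λ j) = {Λ} := by
    ext w
    simp [funext_iff]
  rw [this, Finset.card_singleton, Fintype.card_fun]
  simp

theorem equiB_e2 {F F' : Type} [Field F] [Fintype F] [DecidableEq F] [Fintype F'] [Nonempty F']
    (Dd : ℕ) :
    pr (fun ℓ : Lab F F' => ¬ ∀ β σ x l, ∑ y : F, ind (ℓ (.inl (β, σ, x, y)) = l) ≤ Dd) ≤
      8 * (Fintype.card F : ℝ) * Fintype.card F' * (Fintype.card F : ℝ) ^ (Dd + 1) *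
        (1 / (Fintype.card F' : ℝ)) ^ (Dd + 1) := by
  classical
  refine (pr_mono (F := fun ℓ => ∃ t ∈ (univ : Finset (Bool × Fin 4 × F × F' × (Fin (Dd + 1) → F))),
    Function.Injective t.2.2.2.2 ∧
      ∀ j, ℓ (.inl (t.1, t.2.1, t.2.2.1, t.2.2.2.2 j)) = t.2.2.2.1) ?_).trans ?_
  · intro ℓ h
    push Not at h
    obtain ⟨β, σ, x, l, h⟩ := h
    rw [← card_filter_eq_sum_ind] at h
    have h' : Dd + 1 ≤ #{y : F | ℓ (.inl (β, σ, x, y)) = l} := by exact_mod_cast h
    obtain ⟨e⟩ := Function.Embedding.nonempty_of_card_le (α := Fin (Dd + 1))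
      (β := ({y : F | ℓ (.inl (β, σ, x, y)) = l} : Finset F)) (by rwa [Fintype.card_fin, Fintype.card_coe])
    exact ⟨(β, σ, x, l, fun j => (e j).1), mem_univ _,
      fun a b hab => e.injective (Subtype.ext hab), fun j => (mem_filter.mp (e j).2).2⟩
  · refine (pr_exists_le_card _ _ (b := (1 / (Fintype.card F' : ℝ)) ^ (Dd + 1)) ?_).trans
      (le_of_eq ?_)
    · rintro ⟨β, σ, x, l, y⟩ -
      by_cases hy : Function.Injective y
      · have := equiB_pt (ι := RE F) (fun j => .inl (β, σ, x, y j))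
          (fun a b hab => hy (by simpa using hab)) (fun _ => l)
        rw [Fintype.card_fin] at this
        exact (pr_mono fun ℓ h => h.2).trans this.le
      · refine (pr_mono (F := fun _ => False) fun ℓ h => hy h.1).trans ?_
        have : pr (fun _ : Lab F F' => False) = 0 := by
          rw [pr_eq_card]; simp
        rw [this]
        positivity
    · simp only [card_univ, Fintype.card_prod, Fintype.card_bool, Fintype.card_fin,
        Fintype.card_fun]
      push_cast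
      ring

theorem equiB_e3 {F F' : Type} [Field F] [Fintype F] [DecidableEq F] [Fintype F'] [Nonempty F']
    (k : ℕ) {Dd : ℕ} (hD : 0 < Dd) (β : Bool) (Λ : Fin k → F') :
    pr (fun ℓ : Lab F F' => (∀ β σ x l, ∑ y : F, ind (ℓ (.inl (β, σ, x, y)) = l) ≤ Dd) ∧
      2 * ((Fintype.card F : ℝ) ^ (k + 1) / (Fintype.card F' : ℝ) ^ k) <
        ∑ p : F × (Fin k → F), ind (Function.Injective p.2 ∧
          ∀ j, ℓ (.inl (β, 0, p.1, p.2 j)) = Λ j)) ≤
      Real.exp (-(((Fintype.card F : ℝ) ^ (k + 1) / (Fintype.card F' : ℝ) ^ k) /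
        (4 * (Dd : ℝ) ^ k))) := by
  classical
  let G : F → Lab F F' → ℝ := fun x ℓ => ∑ y : Fin k → F, ind (Function.Injective y ∧
    ∀ j, ℓ (.inl (β, 0, x, y j)) = Λ j)
  let c : F → Lab F F' → Prop := fun x ℓ => ∀ l, ∑ y : F, ind (ℓ (.inl (β, 0, x, y)) = l) ≤ Dd
  have hG0 : ∀ x ℓ, 0 ≤ G x ℓ := fun x ℓ => sum_nonneg fun _ _ => ind_nonneg _
  have hch := chernoff_upper (A := fun _ : RE F => F')
    (fun x : F => univ.image fun y : F => (.inl (β, 0, x, y) : RE F))
    (fun x x' hx => by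
      rw [disjoint_left]
      intro a h1 h2
      obtain ⟨y, -, rfl⟩ := mem_image.mp h1
      obtain ⟨y', -, h⟩ := mem_image.mp h2
      simp at h
      exact hx h.1.symm)
    (fun x ℓ => ind (c x ℓ) * G x ℓ)
    (fun x ℓ ℓ' h => by
      have h' : ∀ y, ℓ (.inl (β, 0, x, y)) = ℓ' (.inl (β, 0, x, y)) := fun y =>
        h _ (mem_image_of_mem _ (mem_univ y))
      simp only [c, G, h'])
    (B := (Dd : ℝ) ^ k) (μ := (Fintype.card F : ℝ) ^ (k + 1) / (Fintype.card F' : ℝ) ^ k) (τ := 1)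
    (by positivity) (fun x ℓ => mul_nonneg (ind_nonneg _) (hG0 x ℓ))
    (fun x ℓ => by
      by_cases hc : c x ℓ
      · rw [ind_pos hc, one_mul]
        calc G x ℓ ≤ ∑ y : Fin k → F, ∏ j, ind (ℓ (.inl (β, 0, x, y j)) = Λ j) := by
              refine sum_le_sum fun y _ => ?_
              rw [← ind_forall_mem]
              exact ind_mono fun h j _ => h.2 j
          _ = ∏ j, ∑ y : F, ind (ℓ (.inl (β, 0, x, y)) = Λ j) := by
              rw [Finset.prod_univ_sum, Fintype.piFinset_univ]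
          _ ≤ ∏ _j : Fin k, (Dd : ℝ) :=
              prod_le_prod (fun j _ => sum_nonneg fun _ _ => ind_nonneg _) fun j _ => hc _
          _ = (Dd : ℝ) ^ k := by simp
      · rw [ind_neg hc, zero_mul]; positivity)
    (by
      have h1 : ∀ x : F, ex (fun ℓ => ind (c x ℓ) * G x ℓ) ≤
          (Fintype.card F : ℝ) ^ k * (1 / (Fintype.card F' : ℝ)) ^ k := by
        intro x
        refine (ex_mono (g := G x) fun ℓ =>
          mul_le_of_le_one_left (hG0 x ℓ) (ind_le_one _)).trans ?_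
        simp only [G]
        rw [ex_sum]
        refine (sum_le_card_nsmul _ _ ((1 / (Fintype.card F' : ℝ)) ^ k) fun y _ => ?_).trans
          (le_of_eq ?_)
        · by_cases hy : Function.Injective y
          · have := equiB_pt (ι := RE F) (fun j => .inl (β, 0, x, y j))
              (fun a b hab => hy (by simpa using hab)) Λ
            rw [Fintype.card_fin] at this
            exact (ex_mono fun ℓ => ind_mono fun h => h.2).trans this.le
          · refine ex_le_of_le fun ℓ => ?_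
            rw [ind_neg fun h => hy h.1]
            positivity
        · simp
      refine (sum_le_card_nsmul _ _ _ fun x _ => h1 x).trans (le_of_eq ?_)
      rw [card_univ, nsmul_eq_mul, one_div, inv_pow]
      ring)
    one_pos le_rfl
  rw [one_pow, one_mul] at hch
  refine (pr_mono fun ℓ h => ?_).trans hch
  rw [one_add_one_eq_two]
  refine h.2.trans_le (le_of_eq ?_)
  rw [Fintype.sum_prod_type]
  refine sum_congr rfl fun x _ => ?_
  rw [ind_pos (show c x ℓ from h.1 β 0 x), one_mul]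

/-- `e2` fails at `(β, σ, x, l)` only if some `(Dd + 1)`-subset of `F` has all labels `l`:
probability `≤ q ^ (Dd + 1) / q' ^ (Dd + 1) = N⁻¹ ^ (Dd + 1)` (`pr_forall_coord`); there are
`8 N ^ (2 m + 1)` events.  `e3`: blocks `x`, `g x = #{y injective | ∀ j, ℓ (β, 0, x, y j) = Λ j}` if
`∀ l, #{y | ℓ (β, 0, x, y) = l} ≤ Dd` and `0` otherwise; `g x ≤ Dd ^ k`, `ex (g x) ≤ q ^ k / q' ^ k`,
so `μ = q ^ (k + 1) / q' ^ k = N ^ (m - k) ≥ N`; `chernoff_upper` with `τ = 1`, union over
`2 q' ^ k` events; when `e2` holds the truncation is inactive. -/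
theorem equiB_prob {δ : ℝ} (hδ : 0 < δ) {k m Dd : ℕ} (hm : k + 1 ≤ m) (hD : 2 * m + 1 ≤ Dd) :
    ∃ N₀ : ℕ, ∀ N : ℕ, N₀ ≤ N → ∀ (F F' : Type) [Field F] [Fintype F] [DecidableEq F]
      [Fintype F'], Fintype.card F = N ^ m → Fintype.card F' = N ^ (m + 1) →
      pr (fun ℓ : Lab F F' => ¬ EquiB k Dd ℓ) ≤ δ := by
  have hD0 : 0 < Dd := by omega
  obtain ⟨N₁, hN₁⟩ := pow_mul_exp_small ((m + 1) * k) (c := 1 / (4 * (Dd : ℝ) ^ k)) (δ := δ / 4)
    (by positivity) (by positivity)
  obtain ⟨N₂, hN₂⟩ := exists_nat_ge (16 / δ)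
  refine ⟨max (max N₁ N₂) 1, fun N hN F F' _ _ _ _ hF hF' => ?_⟩
  classical
  have hN1 : N₁ ≤ N := le_trans (by simp) hN
  have hN2 : N₂ ≤ N := le_trans (by simp) hN
  have hN3 : 1 ≤ N := le_trans (by simp) hN
  have hNR : (1 : ℝ) ≤ N := by exact_mod_cast hN3
  have hNpos : (0 : ℝ) < N := by linarith
  have : Nonempty F' := Fintype.card_pos_iff.mp (by rw [hF']; positivity)
  have hq : (Fintype.card F : ℝ) = (N : ℝ) ^ m := by rw [hF]; push_cast; rfl
  have hq' : (Fintype.card F' : ℝ) = (N : ℝ) ^ (m + 1) := by rw [hF']; push_cast; rfl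
  refine (pr_mono (F := fun ℓ : Lab F F' =>
    (¬ ∀ β σ x l, ∑ y : F, ind (ℓ (.inl (β, σ, x, y)) = l) ≤ Dd) ∨
    ∃ t ∈ (univ : Finset (Bool × (Fin k → F'))),
      (∀ β σ x l, ∑ y : F, ind (ℓ (.inl (β, σ, x, y)) = l) ≤ Dd) ∧
      2 * ((Fintype.card F : ℝ) ^ (k + 1) / (Fintype.card F' : ℝ) ^ k) <
        ∑ p : F × (Fin k → F), ind (Function.Injective p.2 ∧
          ∀ j, ℓ (.inl (t.1, 0, p.1, p.2 j)) = t.2 j)) ?_).trans ((pr_or_le _ _).trans ?_)
  · intro ℓ h
    by_contra hcon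
    push Not at hcon
    obtain ⟨h1, h2⟩ := hcon
    refine h ⟨fun β σ x l => ?_, fun β Λ => ?_⟩
    · have := h1 β σ x l
      rw [← card_filter_eq_sum_ind] at this
      exact_mod_cast this
    · have := h2 (β, Λ) (mem_univ _) h1
      rw [card_filter_eq_sum_ind]
      rwa [← mul_div_assoc, le_div_iff₀ (by rw [hq']; positivity)] at this
  · have e2 := equiB_e2 (F := F) (F' := F') Dd
    have e3 := pr_exists_le_card (univ : Finset (Bool × (Fin k → F'))) _
      fun t _ => equiB_e3 (F := F) k hD0 t.1 t.2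
    have b2 : 8 * (Fintype.card F : ℝ) * Fintype.card F' * (Fintype.card F : ℝ) ^ (Dd + 1) *
        (1 / (Fintype.card F' : ℝ)) ^ (Dd + 1) ≤ δ / 2 := by
      rw [hq, hq', mul_assoc, ← mul_pow,
        show (N : ℝ) ^ m * (1 / (N : ℝ) ^ (m + 1)) = 1 / N by field_simp; ring]
      obtain ⟨j, rfl⟩ := Nat.exists_eq_add_of_le hD
      have h1 : (8 * (N : ℝ) ^ m * (N : ℝ) ^ (m + 1)) * (1 / (N : ℝ)) ^ (2 * m + 1 + j + 1) =
          8 / N * (1 / (N : ℝ)) ^ j := by
        simp only [one_div, inv_pow]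
        field_simp
        ring
      have h2 : (1 / (N : ℝ)) ^ j ≤ 1 :=
        pow_le_one₀ (by positivity) (by rw [div_le_one hNpos]; exact hNR)
      have h3 : 8 / (N : ℝ) ≤ δ / 2 := by
        have : 16 / δ ≤ N := hN₂.trans (by exact_mod_cast hN2)
        rw [div_le_iff₀ hδ] at this
        rw [div_le_iff₀ hNpos]
        linarith
      rw [h1]
      calc 8 / (N : ℝ) * (1 / (N : ℝ)) ^ j ≤ 8 / N * 1 := by gcongr
        _ ≤ δ / 2 := by linarith
    have b3 : ((univ : Finset (Bool × (Fin k → F'))).card : ℝ) *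
        Real.exp (-(((Fintype.card F : ℝ) ^ (k + 1) / (Fintype.card F' : ℝ) ^ k) /
          (4 * (Dd : ℝ) ^ k))) ≤ δ / 2 := by
      have h1 : ((univ : Finset (Bool × (Fin k → F'))).card : ℝ) = 2 * (N : ℝ) ^ ((m + 1) * k) := by
        simp only [card_univ, Fintype.card_prod, Fintype.card_bool, Fintype.card_fin,
          Fintype.card_fun]
        push_cast
        rw [hq', pow_mul]
      have h2 : (N : ℝ) ≤ (Fintype.card F : ℝ) ^ (k + 1) / (Fintype.card F' : ℝ) ^ k := by
        rw [hq, hq', le_div_iff₀ (by positivity), ← pow_mul, ← pow_mul, ← pow_succ']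
        refine pow_le_pow_right₀ hNR ?_
        nlinarith
      have h3 := hN₁ N hN1
      have h4 : Real.exp (-(((Fintype.card F : ℝ) ^ (k + 1) / (Fintype.card F' : ℝ) ^ k) /
          (4 * (Dd : ℝ) ^ k))) ≤ Real.exp (-(1 / (4 * (Dd : ℝ) ^ k) * N)) := by
        refine Real.exp_le_exp.mpr (neg_le_neg ?_)
        rw [one_div, inv_mul_eq_div]
        gcongr
      rw [h1]
      calc _ ≤ 2 * (N : ℝ) ^ ((m + 1) * k) * Real.exp (-(1 / (4 * (Dd : ℝ) ^ k) * N)) := by gcongr
        _ ≤ δ / 2 := by linarith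
    linarith

end Crest.Agent.R196
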