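import Crest.Agent.R196.PieceA

/-! Row 196: the isoperimetric inequality for pieces holds with probability at least one half. -/

set_option autoImplicit false

namespace Crest.Agent.R196

open Finset

open Crest.Agent.R034

/-- transport of a piece along an equivalence of index types -/
def Piece.pc_map {V S H : Type} {D : HES V S H} {rev : H → H} {I J : Type} (c : Piece D rev I)
    (e : I ≃ J) : Piece D rev J where
  θ t := c.θ (e.symm t)
  nx t := (c.nx (e.symm t)).map e
  mu t := (c.mu (e.symm t)).map e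
  nx_inj t t' s h h' := by
    obtain ⟨a, ha, rfl⟩ := Option.map_eq_some_iff.1 h
    obtain ⟨a', ha', h2⟩ := Option.map_eq_some_iff.1 h'
    obtain rfl := e.injective h2
    exact e.symm.injective (c.nx_inj _ _ _ ha ha')
  nx_spec t s h := by
    obtain ⟨a, ha, rfl⟩ := Option.map_eq_some_iff.1 h
    rw [e.symm_apply_apply]
    exact c.nx_spec _ _ ha
  mu_symm t s h := by
    obtain ⟨a, ha, rfl⟩ := Option.map_eq_some_iff.1 h
    rw [e.symm_apply_apply, c.mu_symm _ _ ha, Option.map_some, e.apply_symm_apply]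
  mu_spec t s h := by
    obtain ⟨a, ha, rfl⟩ := Option.map_eq_some_iff.1 h
    rw [e.symm_apply_apply]
    exact c.mu_spec _ _ ha

/-- the number of boundary indices -/
noncomputable def pcBd {I : Type} [Fintype I] (nx mu : I → Option I) : ℝ :=
  ∑ t, ind (nx t = none) + ∑ t, ind (mu t = none)

theorem pcBd_map {V S H : Type} {D : HES V S H} {rev : H → H} {I J : Type} [Fintype I] [Fintype J]
    (c : Piece D rev I) (e : I ≃ J) : pcBd (c.pc_map e).nx (c.pc_map e).mu = pcBd c.nx c.mu := by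
  unfold pcBd
  congr 1
  · rw [← e.sum_comp]
    refine sum_congr rfl fun t _ => ind_congr ?_
    simp [Piece.pc_map]
  · rw [← e.sum_comp]
    refine sum_congr rfl fun t _ => ind_congr ?_
    simp [Piece.pc_map]

theorem pc_bad {V S H : Type} {D : HES V S H} {rev : H → H} {K C0 : ℕ}
    (h : ¬ PieceIneq D rev K C0) :
    ∃ m ∈ range (K + 1), ∃ c : Piece D rev (Fin m), C0 * pcBd c.nx c.mu < m := by
  classical
  unfold PieceIneq at h
  push Not at h
  obtain ⟨I, _, c, hK, hc⟩ := h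
  refine ⟨Fintype.card I, mem_range.2 (by omega), c.pc_map (Fintype.equivFin I), ?_⟩
  rw [pcBd_map, pcBd, ← card_filter_eq_sum_ind, ← card_filter_eq_sum_ind]
  have h2 := (Nat.cast_lt (α := ℝ)).2 hc
  push_cast at h2
  convert h2

/-- patterns of pieces -/
abbrev PcPat (m : ℕ) : Type :=
  (Fin m → Option (Fin m)) × (Fin m → Option (Fin m)) × (Fin m → Fin m → Prop) ×
    (Fin m → Fin m → Bool → Bool → Prop) × (Fin m → Fin m → Prop)

noncomputable instance (m : ℕ) : Fintype (PcPat m) := Fintype.ofFinite _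

theorem pc_one (m a : ℕ) {C δ γ : ℝ} (hC : 1 ≤ C) (hδ : 0 < δ) (hγ : 0 < γ)
    (hγ2 : 8 * (2 * Real.log C + Real.log (Fintype.card (PcPat m) / δ)) ≤ γ)
    (E V S : Type) [Fintype E] [DecidableEq E] (B : E → Type)
    [∀ e, Fintype (B e)] [∀ e, Nonempty (B e)] (Γ : Gr E V) (A : Alph E S B) (D : E → ℝ)
    (W : V → ℝ) (hP : Γ.PF2 D W C) (hA : A.OK) (hW : A.Wt D W a γ) :
    pr (fun ω : ∀ e, B e => ∃ c : Piece (Γ.hes fun e => A.emb e (ω e)) rv (Fin m),
      ((8 * (a + 1) : ℕ) : ℝ) * pcBd c.nx c.mu < m) ≤ δ := by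
  classical
  have hN : (0 : ℝ) < Fintype.card (PcPat m) := by
    have : Nonempty (PcPat m) := inferInstance
    exact_mod_cast Fintype.card_pos
  let pat : ∀ ω : ∀ e, B e, Piece (Γ.hes fun e => A.emb e (ω e)) rv (Fin m) → PcPat m :=
    fun ω c => (c.nx, c.mu, fun t s => (c.θ t).1 = (c.θ s).1,
      fun t s b b' => Γ.ends (c.θ t) b = Γ.ends (c.θ s) b',
      fun t s => A.emb (c.θ t).1 (ω _) = A.emb (c.θ s).1 (ω _))
  let 𝔅 : PcPat m → (∀ e, B e) → Prop := fun p ω =>
    ∃ c : Piece (Γ.hes fun e => A.emb e (ω e)) rv (Fin m),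
      ((8 * (a + 1) : ℕ) : ℝ) * pcBd c.nx c.mu < m ∧ pat ω c = p
  have h1 : ∀ p ∈ (univ : Finset (PcPat m)), pr (𝔅 p) ≤ δ / Fintype.card (PcPat m) := by
    intro p _
    by_contra hlt
    push Not at hlt
    have hpos : 0 < pr (𝔅 p) := lt_trans (by positivity) hlt
    have hne : ∃ ω, 𝔅 p ω := by
      by_contra hno
      push Not at hno
      have : pr (𝔅 p) = 0 := by
        unfold pr ex
        simp only [ind_neg (hno _), sum_const_zero, zero_div]
      exact hpos.ne' this
    obtain ⟨ω₀, c₀, hc₀, hp₀⟩ := id hne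
    have hch : ∀ ω, ∃ θ : Fin m → E × Bool, 𝔅 p ω →
        ∃ c : Piece (Γ.hes fun e => A.emb e (ω e)) rv (Fin m), c.θ = θ ∧ pat ω c = p := by
      intro ω
      by_cases h : 𝔅 p ω
      · obtain ⟨c, -, hc⟩ := h
        exact ⟨c.θ, fun _ => ⟨c, rfl, hc⟩⟩
      · exact ⟨c₀.θ, fun h' => absurd h' h⟩
    choose θ hθ using hch
    have hmain := piece_one Γ A hC (Nat.cast_nonneg a) hγ.le hP hA hW p.1 p.2.1 (𝔅 p) hne θ
      (fun ω h => by
        obtain ⟨c, h1, h2⟩ := hθ ω h
        exact ⟨c, h1, by rw [← h2], by rw [← h2]⟩)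
      (fun ω ω' h h' t s => by
        obtain ⟨c, h1, h2⟩ := hθ ω h
        obtain ⟨c', h1', h2'⟩ := hθ ω' h'
        rw [← h1, ← h1']
        have := congrFun (congrFun (congrArg (fun q : PcPat m => q.2.2.1) (h2.trans h2'.symm)) t) s
        exact this.mp)
      (fun ω ω' h h' t s b b' => by
        obtain ⟨c, h1, h2⟩ := hθ ω h
        obtain ⟨c', h1', h2'⟩ := hθ ω' h'
        rw [← h1, ← h1']
        have := congrFun (congrFun (congrFun (congrFun
          (congrArg (fun q : PcPat m => q.2.2.2.1) (h2.trans h2'.symm)) t) s) b) b'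
        exact this.mp)
      (fun ω ω' h h' t s => by
        obtain ⟨c, h1, h2⟩ := hθ ω h
        obtain ⟨c', h1', h2'⟩ := hθ ω' h'
        rw [← h1, ← h1']
        have := congrFun (congrFun
          (congrArg (fun q : PcPat m => q.2.2.2.2) (h2.trans h2'.symm)) t) s
        exact this.mp)
    rw [card_filter_eq_sum_ind, card_filter_eq_sum_ind, Fintype.card_fin] at hmain
    have hb : pcBd c₀.nx c₀.mu = ∑ t, ind (p.1 t = none) + ∑ t, ind (p.2.1 t = none) := by
      rw [← hp₀]; rfl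
    rw [← hb] at hmain
    have hlog : -Real.log (pr (𝔅 p)) ≤ Real.log (Fintype.card (PcPat m) / δ) := by
      rw [← Real.log_inv]
      refine Real.log_le_log (by positivity) ?_
      rw [← inv_div]
      exact inv_anti₀ (by positivity) hlt.le
    push_cast at hc₀
    have hm : (0 : ℝ) ≤ m := Nat.cast_nonneg m
    have h2 : (m : ℝ) * (2 * Real.log C - Real.log (pr (𝔅 p))) ≤ m * (γ / 8) :=
      mul_le_mul_of_nonneg_left (by linarith) hm
    have h3 : γ * (8 * ((a : ℝ) + 1) * pcBd c₀.nx c₀.mu) < γ * m :=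
      mul_lt_mul_of_pos_left hc₀ hγ
    nlinarith
  refine le_trans (pr_mono (F := fun ω => ∃ p ∈ (univ : Finset (PcPat m)), 𝔅 p ω) ?_)
    ((pr_exists_le_card _ _ h1).trans (le_of_eq ?_))
  · rintro ω ⟨c, hc⟩
    exact ⟨pat ω c, mem_univ _, c, hc, rfl⟩
  · rw [card_univ]; field_simp

/-- A bad `ω` has a bad piece on `I = Fin m`, `m ≤ K` (transport along `Fintype.equivFin`); choose
one for each bad `ω`, and let its pattern be `(m, nx, mu)` with the three relations (equal edges,
equal ends, equal letters), an element of a finite type with `N` elements depending only on `K`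
(`Σ m : Fin (K + 1), …`).  For each pattern let `𝔅` be the set of bad `ω` with this pattern; if
`pr 𝔅 > 1 / (2 N)` then `piece_one` and `γ ≥ 8 (2 log C + log (2 N))`, `γ > 0` give
`m ≤ 8 (a + 1) (nx0 + mu0)`, a contradiction.  Union bound (`pr_exists_le_card`). -/
theorem piece_prob (K a : ℕ) {C : ℝ} (hC : 1 ≤ C) :
    ∃ γ₀ : ℝ, ∀ γ, γ₀ ≤ γ → ∀ (E V S : Type) [Fintype E] [DecidableEq E] (B : E → Type)
      [∀ e, Fintype (B e)] [∀ e, Nonempty (B e)] (Γ : Gr E V) (A : Alph E S B) (D : E → ℝ)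
      (W : V → ℝ), Γ.PF2 D W C → A.OK → A.Wt D W a γ →
      pr (fun ω : ∀ e, B e =>
        ¬ PieceIneq (Γ.hes fun e => A.emb e (ω e)) rv K (8 * (a + 1))) ≤ 1 / 2 := by
  have hδ : (0 : ℝ) < 1 / (2 * (K + 1)) := by positivity
  refine ⟨1 + ∑ m ∈ range (K + 1),
    |8 * (2 * Real.log C + Real.log (Fintype.card (PcPat m) / (1 / (2 * (K + 1)))))|,
    fun γ hγ E V S _ _ B _ _ Γ A D W hP hA hW => ?_⟩
  have h0 : 0 ≤ ∑ m ∈ range (K + 1),
      |8 * (2 * Real.log C + Real.log (Fintype.card (PcPat m) / (1 / (2 * (K + 1)))))| :=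
    sum_nonneg fun _ _ => abs_nonneg _
  refine le_trans (pr_mono (fun ω h => pc_bad h))
    ((pr_exists_le_card _ _ (b := 1 / (2 * (K + 1))) fun m hm => ?_).trans (le_of_eq ?_))
  · refine pc_one m a hC hδ (by linarith) ?_ E V S B Γ A D W hP hA hW
    have := single_le_sum (f := fun m : ℕ =>
      |8 * (2 * Real.log C + Real.log (Fintype.card (PcPat m) / (1 / (2 * (K + 1)))))|)
      (fun _ _ => abs_nonneg _) hm
    have h2 := le_abs_self
      (8 * (2 * Real.log C + Real.log (Fintype.card (PcPat m) / (1 / (2 * (K + 1))))))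
    linarith
  · rw [card_range]; push_cast; field_simp

end Crest.Agent.R196
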