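import Crest.Agent.R196.LvlCyc

/-! Row 196: weights of the whole graph. -/

set_option autoImplicit false

namespace Crest.Agent.R196

open Finset

theorem un_cover {α β : Type} {s : Finset β} {T : Finset α} (g : α → β) {f : β → ℝ} {G : α → ℝ}
    (hf : ∀ b, 0 ≤ f b) (h : ∀ b ∈ s, ∃ x ∈ T, g x = b) (hG : ∀ x ∈ T, f (g x) ≤ G x) :
    ∑ b ∈ s, f b ≤ ∑ x ∈ T, G x := by
  classical
  refine le_trans (Finset.sum_le_sum_of_subset_of_nonneg (t := T.image g)
    (fun b hb => Finset.mem_image.2 (h b hb)) fun b _ _ => hf b) ?_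
  exact le_trans (Finset.sum_image_le_of_nonneg fun b _ => hf b) (Finset.sum_le_sum hG)

/-- the seam 4-cycle -/
def un_G4 : Gr (Option (Fin 3)) (Fin 4) where
  src
    | none => 0
    | some j => ![0, 2, 2] j
  tgt
    | none => 3
    | some j => ![1, 1, 3] j

/-- adjacency of half-edges in the seam 4-cycle -/
def un_adj (h h' : Option (Fin 3) × Bool) : Prop := un_G4.st h' = un_G4.en h ∧ h' ≠ rv h

instance un_adj_dec (h h' : Option (Fin 3) × Bool) : Decidable (un_adj h h') :=
  inferInstanceAs (Decidable (_ ∧ _))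

theorem un_mem {α : Type} {p : α → Prop} {_i : DecidablePred p} {s : Finset α} {a : α} :
    a ∈ s.filter p ↔ a ∈ s ∧ p a := Finset.mem_filter

theorem un_four : ∀ h0 h1, un_adj h0 h1 → ∀ h2, un_adj h1 h2 → ∀ h3, un_adj h2 h3 →
    ∀ o, h0.1 = o ∨ h1.1 = o ∨ h2.1 = o ∨ h3.1 = o := by
  decide

section aux

variable {F : ℕ → Type} [∀ i, Field (F i)] {L : ℕ}

theorem un_st_inl (i : Fin L) (e : LEd (F i)) (b : Bool) :
    (uG F L).st (.inl ⟨i, e⟩, b) = .inl ⟨i, (lvl (F i)).st (e, b)⟩ := by
  cases b <;> rfl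

theorem un_st_inr (l : F L) (o : Option (Fin 3)) (b : Bool) :
    (uG F L).st (.inr (l, o), b) = .inr (l, un_G4.st (o, b)) := by
  cases o <;> cases b <;> rfl

theorem un_en_inl (i : Fin L) (e : LEd (F i)) (b : Bool) :
    (uG F L).en (.inl ⟨i, e⟩, b) = .inl ⟨i, (lvl (F i)).en (e, b)⟩ := un_st_inl i e (!b)

theorem un_en_inr (l : F L) (o : Option (Fin 3)) (b : Bool) :
    (uG F L).en (.inr (l, o), b) = .inr (l, un_G4.en (o, b)) := un_st_inr l o (!b)

variable (F L) in
/-- the component of an edge -/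
def un_cE : UE F L → Fin L ⊕ F L
  | .inl x => .inl x.1
  | .inr x => .inr x.1

/-- the component of a vertex -/
def un_cV (F : ℕ → Type) (L : ℕ) : UV F L → Fin L ⊕ F L
  | .inl x => .inl x.1
  | .inr x => .inr x.1

theorem un_cV_st (h : UE F L × Bool) : un_cV F L ((uG F L).st h) = un_cE F L h.1 := by
  rcases h with ⟨⟨i, e⟩ | ⟨l, o⟩, b⟩
  · rw [un_st_inl]; rfl
  · rw [un_st_inr]; rfl

theorem un_comp {k : ℕ} {c : Fin (k + 1) → UE F L × Bool} (hc : (uG F L).IsCyc c)
    (j : Fin (k + 1)) : un_cE F L (c j).1 = un_cE F L (c 0).1 := by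
  induction j using Fin.induction with
  | zero => rfl
  | succ j ih =>
    rw [← ih, ← Fin.coeSucc_eq_succ, ← un_cV_st, (hc.1 _).1]
    exact un_cV_st _

theorem un_lift_inl {k : ℕ} {c : Fin (k + 1) → UE F L × Bool} {i : Fin L}
    (h : ∀ j, un_cE F L (c j).1 = .inl i) :
    ∃ c' : Fin (k + 1) → LEd (F i) × Bool, c = fun j => (.inl ⟨i, (c' j).1⟩, (c' j).2) := by
  have h1 : ∀ j, ∃ x : LEd (F i) × Bool, c j = (.inl ⟨i, x.1⟩, x.2) := by
    intro j
    have h2 := h j
    rcases hj : c j with ⟨⟨i', e⟩ | ⟨l, o⟩, b⟩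
    · rw [hj] at h2
      obtain rfl : i' = i := Sum.inl.inj h2
      exact ⟨(e, b), rfl⟩
    · rw [hj] at h2
      cases h2
  choose c' hc' using h1
  exact ⟨c', funext hc'⟩

theorem un_lift_inr {k : ℕ} {c : Fin (k + 1) → UE F L × Bool} {l : F L}
    (h : ∀ j, un_cE F L (c j).1 = .inr l) :
    ∃ c' : Fin (k + 1) → Option (Fin 3) × Bool, c = fun j => (.inr (l, (c' j).1), (c' j).2) := by
  have h1 : ∀ j, ∃ x : Option (Fin 3) × Bool, c j = (.inr (l, x.1), x.2) := by
    intro j
    have h2 := h j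
    rcases hj : c j with ⟨⟨i', e⟩ | ⟨l', o⟩, b⟩
    · rw [hj] at h2
      cases h2
    · rw [hj] at h2
      obtain rfl : l' = l := Sum.inr.inj h2
      exact ⟨(o, b), rfl⟩
  choose c' hc' using h1
  exact ⟨c', funext hc'⟩

theorem un_cyc_inl {k : ℕ} {i : Fin L} {c : Fin (k + 1) → LEd (F i) × Bool}
    (h : (uG F L).IsCyc fun j => (.inl ⟨i, (c j).1⟩, (c j).2)) : (lvl (F i)).IsCyc c := by
  refine ⟨fun j => ⟨?_, fun e => (h.1 j).2 ?_⟩, fun j j' e => h.2 ?_⟩
  · have h1 := (h.1 j).1
    simp only [un_st_inl, un_en_inl] at h1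
    exact sigma_mk_injective (β := fun i : Fin L => LV (F i)) (Sum.inl.inj h1)
  · simp only [e]
    rfl
  · simp only [un_st_inl]
    exact congrArg (fun v => Sum.inl (Sigma.mk i v)) e

theorem un_cyc_inr {k : ℕ} {l : F L} {c : Fin (k + 1) → Option (Fin 3) × Bool}
    (h : (uG F L).IsCyc fun j => (.inr (l, (c j).1), (c j).2)) :
    Function.Surjective fun j => (c j).1 := by
  have h1 : ∀ j, un_adj (c j) (c (j + 1)) := by
    refine fun j => ⟨?_, fun e => (h.1 j).2 ?_⟩
    · have h1 := (h.1 j).1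
      simp only [un_st_inr, un_en_inr] at h1
      exact congrArg Prod.snd (Sum.inr.inj h1)
    · simp only [e]
      rfl
  intro o
  rcases un_four _ _ (h1 0) _ (h1 _) _ (h1 _) o with h2 | h2 | h2 | h2 <;> exact ⟨_, h2⟩

variable (F L) in
theorem un_D_nonneg [∀ i, Fintype (F i)] (e : UE F L) : 0 ≤ uD F L e := by
  rcases e with ⟨i, e⟩ | ⟨l, _ | j⟩
  · exact Real.log_natCast_nonneg _
  · exact Real.log_natCast_nonneg _
  · exact mul_nonneg (by norm_num) (Real.log_natCast_nonneg _)

theorem un_hh [∀ i, Fintype (F i)] (e : UE F L) (b : uB F L e) :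
    (uA F L).hh e = Real.log (Fintype.card (F ((uA F L).emb e b).1)) := by
  rcases e with ⟨i, x | r⟩ | ⟨l, _ | j⟩ <;> rfl

end aux

/-- `vtx`: `11 L + 4`; `step`: a half-edge at `inl ⟨i, v⟩` comes from level `i`; a seam vertex has
two half-edges of weight `≤ 1`.  A simple cycle lies in one level (`lvl_PFc`) or in one seam
4-cycle, and then `k = 3` and it uses each of the four edges once, so its weight is
`exp (-(log q_L / 2 + log q_0))`; there are at most `8 ^ 4 q_L` such cycles and `q_L ≤ q_0 ^ 2`. -/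
theorem uPF (L : ℕ) : ∃ C : ℝ, 1 ≤ C ∧ ∀ (F : ℕ → Type) [∀ i, Field (F i)] [∀ i, Fintype (F i)]
    [∀ i, DecidableEq (F i)] [∀ i, CharP (F i) 2], Fintype.card (F L) ≤ Fintype.card (F 0) ^ 2 →
    (uG F L).PF0 (uD F L) (uW F L) C ∧ (uG F L).PFc (uD F L) C := by
  classical
  obtain ⟨C₀, hC₀, hc⟩ := lvl_PFc
  have hL0 : (0 : ℝ) ≤ L := Nat.cast_nonneg L
  have hC11 : 11 * ((L : ℝ) + 1) ≤ ((L : ℝ) + 1) * (11 * C₀) := by nlinarith
  refine ⟨((L : ℝ) + 1) * (11 * C₀), by linarith, fun F _ _ _ _ hq => ⟨⟨?_, ?_⟩, ?_⟩⟩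
  · rw [Fintype.sum_sum_type, Fintype.sum_sigma]
    have h1 : ∑ i : Fin L, ∑ v : LV (F i), Real.exp (-uW F L (.inl ⟨i, v⟩)) ≤ ∑ _i : Fin L, 11 :=
      Finset.sum_le_sum fun i _ => (lvl_PF0 (F := F i)).vtx
    have hq0 : (0 : ℝ) < Fintype.card (F L) := by exact_mod_cast Fintype.card_pos
    have h2 : ∑ v : F L × Fin 4, Real.exp (-uW F L (.inr v)) = 4 := by
      have : ∀ v : F L × Fin 4, Real.exp (-uW F L (.inr v)) = (Fintype.card (F L) : ℝ)⁻¹ := by
        intro v
        change Real.exp (-Real.log _) = _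
        rw [Real.exp_neg, Real.exp_log hq0]
      simp only [this, Finset.sum_const, Finset.card_univ, Fintype.card_prod, Fintype.card_fin,
        nsmul_eq_mul]
      push_cast
      field_simp
    simp only [Finset.sum_const, Finset.card_univ, Fintype.card_fin, nsmul_eq_mul] at h1
    rw [h2]
    linarith
  · rintro (⟨i, v⟩ | ⟨l, a⟩)
    · refine le_trans (le_trans (un_cover (fun x : LEd (F i) × Bool => (.inl ⟨i, x.1⟩, x.2))
        (fun _ => (Real.exp_pos _).le) ?_ ?_) ((lvl_PF0 (F := F i)).step v)) (by linarith)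
      · rintro ⟨⟨i', e⟩ | ⟨l, o⟩, b⟩ hb
        · have h1 := (un_mem.1 hb).2
          rw [un_st_inl] at h1
          have h2 := Sum.inl.inj h1
          obtain rfl : i' = i := congrArg Sigma.fst h2
          exact ⟨(e, b), un_mem.2 ⟨Finset.mem_univ _,
            sigma_mk_injective (β := fun i : Fin L => LV (F i)) h2⟩, rfl⟩
        · have h1 := (un_mem.1 hb).2
          rw [un_st_inr] at h1
          cases h1
      · rintro ⟨e, b⟩ _
        refine le_of_eq ?_
        simp only [un_en_inl]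
        rfl
    · refine le_trans (un_cover (T := Finset.univ) (G := fun _ => 1)
        (fun x : Option (Fin 3) × Bool => (.inr (l, x.1), x.2))
        (fun _ => (Real.exp_pos _).le) ?_ ?_) ?_
      · rintro ⟨⟨i', e⟩ | ⟨l', o⟩, b⟩ hb
        · have h1 := (un_mem.1 hb).2
          rw [un_st_inl] at h1
          cases h1
        · have h1 := (un_mem.1 hb).2
          rw [un_st_inr] at h1
          obtain rfl : l' = l := congrArg Prod.fst (Sum.inr.inj h1)
          exact ⟨(o, b), Finset.mem_univ _, rfl⟩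
      · rintro ⟨o, b⟩ _
        simp only [un_en_inr]
        refine Real.exp_le_one_iff.2 ?_
        have h1 := un_D_nonneg F L (.inr (l, o))
        change -(_ + (Real.log _ - Real.log _) / 2) ≤ 0
        rw [sub_self]
        linarith
      · simp only [Finset.sum_const, Finset.card_univ, Fintype.card_prod, Fintype.card_option,
          Fintype.card_fin, Fintype.card_bool, nsmul_eq_mul]
        push_cast
        linarith
  · intro k
    rw [← Finset.sum_filter_add_sum_filter_not _
      (fun c : Fin (k + 1) → UE F L × Bool => ∃ i, un_cE F L (c 0).1 = .inl i)]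
    have hD : (1 : ℝ) ≤ 11 * C₀ := by linarith
    have e1 : ((L : ℝ) + 1) * (11 * C₀) ^ (k + 2) ≤ (((L : ℝ) + 1) * (11 * C₀)) ^ (k + 2) := by
      rw [mul_pow (_ + _)]
      exact mul_le_mul_of_nonneg_right (le_self_pow₀ (by linarith) (by omega)) (by positivity)
    refine le_trans ?_ e1
    rw [add_mul, one_mul]
    refine add_le_add ?_ ?_
    · refine le_trans (un_cover
        (T := Finset.univ.sigma fun i : Fin L =>
          Finset.univ.filter fun c : Fin (k + 1) → LEd (F i) × Bool => (lvl (F i)).IsCyc c)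
        (G := fun x => Real.exp (-∑ _j : Fin (k + 1), Real.log (Fintype.card (F x.1)) / 2))
        (fun x j => (.inl ⟨x.1, (x.2 j).1⟩, (x.2 j).2)) (fun _ => (Real.exp_pos _).le) ?_
        (fun _ _ => le_rfl)) ?_
      · intro c hc'
        obtain ⟨h1, i, hi⟩ := Finset.mem_filter.1 hc'
        have h2 := (Finset.mem_filter.1 h1).2
        obtain ⟨c', rfl⟩ := un_lift_inl (fun j => (un_comp h2 j).trans hi)
        exact ⟨⟨i, c'⟩, Finset.mem_sigma.2 ⟨Finset.mem_univ _,
          Finset.mem_filter.2 ⟨Finset.mem_univ _, un_cyc_inl h2⟩⟩, rfl⟩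
      · rw [Finset.sum_sigma]
        refine le_trans (Finset.sum_le_sum (g := fun _ => (11 * C₀) ^ (k + 2)) fun i _ =>
          le_trans (hc (F i) k) (pow_le_pow_left₀ (by linarith) (by linarith) _)) ?_
        simp
    · have hq0 : (0 : ℝ) < Fintype.card (F L) := by exact_mod_cast Fintype.card_pos
      refine le_trans (un_cover
        (T := (Finset.univ : Finset (F L)) ×ˢ
          Finset.univ.filter fun c : Fin (k + 1) → Option (Fin 3) × Bool =>
            Function.Surjective fun j => (c j).1)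
        (G := fun _ => (Fintype.card (F L) : ℝ)⁻¹)
        (fun x j => (.inr (x.1, (x.2 j).1), (x.2 j).2)) (fun _ => (Real.exp_pos _).le) ?_ ?_) ?_
      · intro c hc'
        obtain ⟨h1, hi⟩ := Finset.mem_filter.1 hc'
        have h2 := (Finset.mem_filter.1 h1).2
        obtain ⟨l, hl⟩ : ∃ l, un_cE F L (c 0).1 = .inr l := by
          rcases h : un_cE F L (c 0).1 with i | l
          · exact absurd ⟨i, h⟩ hi
          · exact ⟨l, rfl⟩
        obtain ⟨c', rfl⟩ := un_lift_inr (fun j => (un_comp h2 j).trans hl)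
        exact ⟨⟨l, c'⟩, Finset.mem_product.2 ⟨Finset.mem_univ _,
          Finset.mem_filter.2 ⟨Finset.mem_univ _, un_cyc_inr h2⟩⟩, rfl⟩
      · rintro ⟨l, c'⟩ hx
        have hs := (Finset.mem_filter.1 (Finset.mem_product.1 hx).2).2
        have h1 : ∑ o : Option (Fin 3), uD F L (.inr (l, o)) / 2 ≤
            ∑ j, uD F L (.inr (l, (c' j).1)) / 2 :=
          un_cover (fun j => (c' j).1)
            (fun o => div_nonneg (un_D_nonneg F L _) zero_le_two)
            (fun o _ => (hs o).imp fun j hj => ⟨Finset.mem_univ _, hj⟩) (fun _ _ => le_rfl)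
        have h2 : ∑ o : Option (Fin 3), uD F L (.inr (l, o)) / 2 =
            Real.log (Fintype.card (F L)) / 2 + Real.log (Fintype.card (F 0)) := by
          rw [Fintype.sum_option, Fin.sum_univ_three]
          simp only [uD]
          ring
        have h3 : Real.log (Fintype.card (F L)) ≤ 2 * Real.log (Fintype.card (F 0)) := by
          have h4 : (Fintype.card (F L) : ℝ) ≤ (Fintype.card (F 0) : ℝ) ^ 2 := by exact_mod_cast hq
          have h5 := Real.log_le_log hq0 h4
          rwa [Real.log_pow, Nat.cast_ofNat] at h5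
        rw [← Real.exp_log hq0, ← Real.exp_neg]
        refine Real.exp_le_exp.2 (neg_le_neg ?_)
        change _ ≤ ∑ j, uD F L (.inr (l, (c' j).1)) / 2
        linarith
      · rw [Finset.sum_const, Finset.card_product, Finset.card_univ, nsmul_eq_mul]
        have h1 := Finset.card_le_univ (Finset.univ.filter
          fun c : Fin (k + 1) → Option (Fin 3) × Bool => Function.Surjective fun j => (c j).1)
        simp only [Fintype.card_fun, Fintype.card_prod, Fintype.card_option,
          Fintype.card_fin, Fintype.card_bool] at h1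
        push_cast
        rw [mul_right_comm, mul_inv_cancel₀ hq0.ne', one_mul]
        refine le_trans (Nat.cast_le.2 h1) ?_
        push_cast
        calc ((8 : ℝ)) ^ (k + 1) ≤ (11 * C₀) ^ (k + 1) :=
              pow_le_pow_left₀ (by norm_num) (by linarith) _
          _ ≤ (11 * C₀) ^ (k + 2) := pow_le_pow_right₀ hD (by omega)

variable (F : ℕ → Type) [∀ i, Field (F i)] [∀ i, Fintype (F i)] (L : ℕ)

theorem uA_OK : (uA F L).OK := by
  refine ⟨?_, ?_, ?_, ?_, ?_⟩
  · rintro (⟨i, x | r⟩ | ⟨l, _ | j⟩) b b' h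
    · exact Subsingleton.elim (α := Unit) _ _
    · exact sigma_mk_injective (β := fun j : Fin (L + 1) => F j) h
    · exact Subsingleton.elim (α := Unit) _ _
    · exact sigma_mk_injective (β := fun j : Fin (L + 1) => F j) h
  · rintro (⟨i, x | r⟩ | ⟨l, _ | j⟩) (⟨i', x' | r'⟩ | ⟨l', _ | j'⟩) b b' h1 h2 h
    all_goals first | exact (h1 : False).elim | exact (h2 : False).elim | skip
    · obtain rfl : i = i' := Fin.ext (congrArg (fun s : US F L => s.1.val) h)
      obtain rfl : x = x' := sigma_mk_injective (β := fun j : Fin (L + 1) => F j) h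
      rfl
    · exact absurd (congrArg (fun s : US F L => s.1.val) h) i.2.ne
    · exact absurd (congrArg (fun s : US F L => s.1.val) h) i'.2.ne'
    · obtain rfl : l = l' := sigma_mk_injective (β := fun j : Fin (L + 1) => F j) h
      rfl
  · intro e e' b b' h
    rw [un_hh e b, un_hh e' b', h]
  · rintro (⟨i, x | r⟩ | ⟨l, _ | j⟩) h
    · exact absurd trivial h
    · exact le_of_eq (Real.exp_log (Nat.cast_pos.2 (Fintype.card_pos (α := F (i + 1)))))
    · exact absurd trivial h
    · exact le_of_eq (Real.exp_log (Nat.cast_pos.2 (Fintype.card_pos (α := F 0))))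
  · rintro (⟨i, x | r⟩ | ⟨l, _ | j⟩) <;> exact Real.log_natCast_nonneg _

theorem uA_Wt {M N : ℕ} (hN : 1 ≤ N) (hL : L ≤ M) (hM : 3 ≤ M)
    (hF : ∀ i, Fintype.card (F i) = N ^ (M + i)) :
    (uA F L).Wt (uD F L) (uW F L) (6 * M : ℕ) (Real.log N) := by
  have hγ : 0 ≤ Real.log N := Real.log_natCast_nonneg _
  have hl : ∀ i, Real.log (Fintype.card (F i)) = ((M : ℝ) + i) * Real.log N := by
    intro i
    rw [hF i, Nat.cast_pow, Real.log_pow, Nat.cast_add]
  have hL' : (L : ℝ) ≤ M := by exact_mod_cast hL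
  have hM' : (3 : ℝ) ≤ M := by exact_mod_cast hM
  have hi : ∀ i : Fin L, ((i : ℕ) : ℝ) ≤ M := fun i => by exact_mod_cast i.2.le.trans hL
  have hht : ∀ (G : Type) (v : LV G), 0 ≤ ht v ∧ ht v ≤ 3 := by
    rintro G (_ | _ | _ | _) <;> simp only [ht] <;> norm_num
  refine ⟨un_D_nonneg F L, ?_, ?_, ?_, ?_, ?_⟩
  · rintro (⟨i, x | r⟩ | ⟨l, _ | j⟩) <;> simp only [uD, uA, hl] <;> push_cast <;> nlinarith
  · rintro (⟨i, x | r⟩ | ⟨l, _ | j⟩) h
    · exact absurd trivial h
    · simp only [uD, uA, hl]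
      push_cast
      nlinarith
    · exact absurd trivial h
    · simp only [uD, uA, hl]
      push_cast
      nlinarith
  · rintro (⟨i, e⟩ | ⟨l, _ | j⟩)
    · have := hi i
      simp only [uD, hl]
      push_cast
      nlinarith
    · simp only [uD, hl]
      push_cast
      nlinarith
    · simp only [uD, hl]
      push_cast
      nlinarith
  · rintro (⟨i, v⟩ | v)
    · exact mul_nonneg (hht _ v).1 (Real.log_natCast_nonneg _)
    · exact Real.log_natCast_nonneg _
  · rintro (⟨i, v⟩ | v)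
    · have h1 := hi i
      have h2 := mul_le_mul_of_nonneg_right (hht _ v).2
        (Real.log_natCast_nonneg (Fintype.card (F i)))
      refine le_trans h2 ?_
      rw [hl]
      push_cast
      nlinarith
    · simp only [uW, hl]
      push_cast
      nlinarith

end Crest.Agent.R196
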