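import Crest.Agent.R196.EquiA
import Crest.Agent.R196.EquiB
import Crest.Agent.R196.Piece
import Crest.Agent.R196.Union

/-! Row 196: a good labelling exists. -/

set_option autoImplicit false

namespace Crest.Agent.R196

open Finset

open Crest.Agent.R034

/-- `piece_prob` (with `uPF`, `PF2_of`, `uA_OK`, `uA_Wt`, `γ = log N → ∞`), `equiA_prob`,
`equiB_prob` for `m = M + i` and `seam_prob`, with `δ = 1 / (4 (2 L + 1))`, moved to the big
product by `pr_restrict`; the failure probabilities sum to less than one. -/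
theorem exists_labels {τ : ℝ} (hτ : 0 < τ) (hτ1 : τ ≤ 1) (k K : ℕ) {L M : ℕ} (hL : 0 < L)
    (hM : L ≤ M) (hk : k + 1 ≤ M) (h3 : 3 ≤ M) :
    ∃ N₀ : ℕ, ∀ N : ℕ, N₀ ≤ N → ∀ (F : ℕ → Type) [∀ i, Field (F i)] [∀ i, Fintype (F i)]
      [∀ i, DecidableEq (F i)] [∀ i, CharP (F i) 2], (∀ i, Fintype.card (F i) = N ^ (M + i)) →
      ∃ ω : ∀ e, uB F L e, PieceIneq (uH ω) rv K (8 * (6 * M + 1)) ∧
        (∀ i, Equi τ k (4 * M + 2) (uLab ω i)) ∧ SeamEqui (uSeam ω) := by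
  obtain ⟨C, hC, hPF⟩ := uPF L
  obtain ⟨γ₀, hγ₀⟩ := piece_prob K (6 * M) hC
  have hδ : (0 : ℝ) < 1 / (4 * (2 * L + 1)) := by positivity
  have hA := Filter.eventually_all.2 fun i : Fin L => Filter.eventually_atTop.2
    (equiA_prob hτ hτ1 hδ (m := M + i) (by omega))
  have hB := Filter.eventually_all.2 fun i : Fin L => Filter.eventually_atTop.2
    (equiB_prob hδ (k := k) (m := M + i) (Dd := 4 * M + 2) (by omega) (by have := i.2; omega))
  have hS := Filter.eventually_atTop.2 (seam_prob hδ M hL)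
  have hN1 : ∀ᶠ N : ℕ in Filter.atTop, 1 ≤ N := Filter.eventually_ge_atTop 1
  have hN2 : ∀ᶠ N : ℕ in Filter.atTop, γ₀ ≤ Real.log N :=
    (Real.tendsto_log_atTop.comp tendsto_natCast_atTop_atTop).eventually_ge_atTop γ₀
  refine Filter.eventually_atTop.1 ?_
  filter_upwards [hA, hB, hS, hN1, hN2] with N hA hB hS hN1 hN2 F _ _ _ _ hF
  obtain ⟨h0, hc⟩ := hPF F (by
    rw [hF, hF, ← pow_mul]
    exact Nat.pow_le_pow_right hN1 (by omega))
  have p1 := hγ₀ _ hN2 (UE F L) (UV F L) (US F L) (uB F L) (uG F L) (uA F L) (uD F L) (uW F L)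
    (Gr.PF2_of _ hC h0 hc) (uA_OK F L) (uA_Wt F L hN1 hM h3 hF)
  have p2 : ∀ i ∈ (univ : Finset (Fin L)),
      pr (fun ω : ∀ e, uB F L e => ¬ EquiA τ (uLab ω i)) ≤ 1 / (4 * (2 * L + 1)) := by
    intro i _
    refine le_trans (le_of_eq ?_) (hA i (F i) (F (i + 1)) (hF i) (hF (i + 1)))
    exact pr_restrict (A := uB F L) (fun r : RE (F i) => (.inl ⟨i, .inr r⟩ : UE F L))
      (fun r r' h => by simpa using h) (fun ℓ => ¬ EquiA (F' := F (i + 1)) τ ℓ)
  have p3 : ∀ i ∈ (univ : Finset (Fin L)),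
      pr (fun ω : ∀ e, uB F L e => ¬ EquiB k (4 * M + 2) (uLab ω i)) ≤ 1 / (4 * (2 * L + 1)) := by
    intro i _
    refine le_trans (le_of_eq ?_) (hB i (F i) (F (i + 1)) (hF i) (hF (i + 1)))
    exact pr_restrict (A := uB F L) (fun r : RE (F i) => (.inl ⟨i, .inr r⟩ : UE F L))
      (fun r r' h => by simpa using h) (fun ℓ => ¬ EquiB (F' := F (i + 1)) k (4 * M + 2) ℓ)
  have p4 : pr (fun ω : ∀ e, uB F L e => ¬ SeamEqui (uSeam ω)) ≤ 1 / (4 * (2 * L + 1)) := by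
    refine le_trans (le_of_eq ?_) (hS (F L) (F 0) (hF L) (hF 0))
    exact pr_restrict (A := uB F L) (fun p : F L × Fin 3 => (.inr (p.1, some p.2) : UE F L))
      (fun r r' h => by
        simp only [Sum.inr.injEq, Prod.mk.injEq, Option.some.injEq] at h
        exact Prod.ext h.1 h.2) (fun w => ¬ SeamEqui (F' := F 0) w)
  have q2 := pr_exists_le_card _ _ p2
  have q3 := pr_exists_le_card _ _ p3
  rw [card_univ, Fintype.card_fin] at q2 q3
  have q := (pr_or_le _ _).trans (add_le_add p1 ((pr_or_le _ _).trans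
    (add_le_add q2 ((pr_or_le _ _).trans (add_le_add q3 p4)))))
  have hlt : (1 / 2 : ℝ) + (L * (1 / (4 * (2 * L + 1))) +
      (L * (1 / (4 * (2 * L + 1))) + 1 / (4 * (2 * L + 1)))) < 1 := by
    have : (L * (1 / (4 * (2 * L + 1))) +
      (L * (1 / (4 * (2 * L + 1))) + 1 / (4 * (2 * L + 1))) : ℝ) = 1 / 4 := by
      field_simp; ring
    rw [this]; norm_num
  obtain ⟨ω, hω⟩ := exists_not_of_pr_lt_one (q.trans_lt hlt)
  simp only [not_or, not_not, not_exists, not_and, mem_univ, true_imp_iff] at hω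
  exact ⟨ω, hω.1, fun i => ⟨hω.2.1 i, hω.2.2.1 i⟩, hω.2.2.2⟩

end Crest.Agent.R196
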