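import Crest.Agent.R196.Defs
import Crest.Agent.R184.Fox

/-! Row 196: relations in the group. -/

set_option autoImplicit false

namespace Crest.Agent.R196

open Finset

variable {F : ℕ → Type} [∀ i, Field (F i)] [∀ i, Fintype (F i)] {L : ℕ} (ω : ∀ e, uB F L e)

theorem uG_ne (e : UE F L) : (uG F L).src e ≠ (uG F L).tgt e := by
  rcases e with ⟨i, x | ⟨β, σ, p⟩ | ⟨β, t⟩⟩ | ⟨l, _ | j⟩
  · simp [uG, lvl]
  · simp [uG, lvl]
  · simp [uG, lvl]
  · simp [uG]
  · fin_cases j <;> simp [uG]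

theorem ex_edge (e : UE F L) :
    ((uH ω).tp rv).gen (.inl ((uG F L).src e)) * ((uH ω).tp rv).gen (.inr ((uA F L).emb e (ω e))) =
      ((uH ω).tp rv).gen (.inl ((uG F L).tgt e)) :=
  ((uH ω).tp rv).gen_rel ⟨(e, true), rfl⟩

theorem ex_uS {i : ℕ} (h : i < L + 1) (x : F i) :
    uS ω i x = ((uH ω).tp rv).gen (.inr ⟨⟨i, h⟩, x⟩) := dif_pos h

/-- the cone element of a vertex of level `i` -/
noncomputable def exC (i : Fin L) (v : LV (F i)) : uGrp ω := ((uH ω).tp rv).gen (.inl (.inl ⟨i, v⟩))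

theorem ex_root (i : Fin L) (x : F i) :
    exC ω i (.inl ()) * uS ω i x = exC ω i (.inr (.inl x)) := by
  rw [ex_uS ω (i.2.trans (Nat.lt_succ_self L))]
  exact ex_edge ω (.inl ⟨i, .inl x⟩)

theorem ex_atom (i : Fin L) (β : Bool) (σ : Fin 4) (p : F i × F i) :
    exC ω i (.inr (.inl (slot σ p.1 p.2))) * uS ω (i + 1) (uLab ω i (.inl (β, σ, p))) =
      exC ω i (.inr (.inr (.inl (β, p)))) := by
  rw [ex_uS ω (Nat.succ_lt_succ i.2)]
  exact ex_edge ω (.inl ⟨i, .inr (.inl (β, σ, p))⟩)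

theorem ex_mid (i : Fin L) (β : Bool) (t : Gd (F i)) :
    exC ω i (.inr (.inr (.inr t.1))) * uS ω (i + 1) (uLab ω i (.inr (β, t))) =
      exC ω i (.inr (.inr (.inl (β, nodeOf β t)))) := by
  rw [ex_uS ω (Nat.succ_lt_succ i.2)]
  exact ex_edge ω (.inl ⟨i, .inr (.inr (β, t))⟩)

/-- each edge `e` gives `gen (inl (src e)) * gen (inr letter) = gen (inl (tgt e))` (relator of the
half-edge `(e, true)`); `γ β p = (c root)⁻¹ * c (node β p)` -/
theorem u_rel (i : Fin L) : ∃ γ, LevRel (uS ω i) (uS ω (i + 1)) (uLab ω i) γ := by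
  refine ⟨fun β p => (exC ω i (.inl ()))⁻¹ * exC ω i (.inr (.inr (.inl (β, p)))),
    fun β σ p => ?_, fun t => ?_⟩
  · rw [← ex_atom ω i β σ p, ← ex_root]
    group
  · rw [← ex_mid ω i true t, ← ex_mid ω i false t]
    group

theorem u_seam (l : F L) : uS ω L l =
    uS ω 0 (uSeam ω (l, 0)) * (uS ω 0 (uSeam ω (l, 1)))⁻¹ * uS ω 0 (uSeam ω (l, 2)) := by
  let v : Fin 4 → uGrp ω := fun k => ((uH ω).tp rv).gen (.inl (.inr (l, k)))
  have h0 : v 0 * uS ω L l = v 3 := by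
    rw [ex_uS ω (Nat.lt_succ_self L)]
    exact ex_edge ω (.inr (l, none))
  have h1 : v 0 * uS ω 0 (uSeam ω (l, 0)) = v 1 := by
    rw [ex_uS ω (Nat.succ_pos L)]
    exact ex_edge ω (.inr (l, some 0))
  have h2 : v 2 * uS ω 0 (uSeam ω (l, 1)) = v 1 := by
    rw [ex_uS ω (Nat.succ_pos L)]
    exact ex_edge ω (.inr (l, some 1))
  have h3 : v 2 * uS ω 0 (uSeam ω (l, 2)) = v 3 := by
    rw [ex_uS ω (Nat.succ_pos L)]
    exact ex_edge ω (.inr (l, some 2))
  rw [eq_inv_mul_iff_mul_eq.2 h0, eq_inv_mul_iff_mul_eq.2 h1, eq_inv_mul_iff_mul_eq.2 h2,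
    eq_inv_mul_iff_mul_eq.2 h3]
  group

/-- the degree of a generator -/
def exDeg : UV F L ⊕ US F L → ℤ
  | .inl (.inl ⟨_, .inl _⟩) => 1
  | .inl (.inl ⟨_, .inr (.inl _)⟩) => 2
  | .inl (.inl ⟨_, .inr (.inr (.inl _))⟩) => 3
  | .inl (.inl ⟨_, .inr (.inr (.inr _))⟩) => 2
  | .inl (.inr (_, k)) => ![1, 2, 1, 2] k
  | .inr _ => 1

omit [∀ i, Field (F i)] [∀ i, Fintype (F i)] in
theorem exDeg_ne (x : UV F L ⊕ US F L) : exDeg x ≠ 0 := by
  rcases x with (⟨i, _ | x | p | t⟩ | ⟨l, k⟩) | s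
  · exact one_ne_zero
  · exact two_ne_zero
  · exact three_ne_zero
  · exact two_ne_zero
  · fin_cases k
    · exact one_ne_zero
    · exact two_ne_zero
    · exact one_ne_zero
    · exact two_ne_zero
  · exact one_ne_zero

omit [∀ i, Fintype (F i)] in
theorem exDeg_edge (e : UE F L) :
    exDeg (.inl ((uG F L).src e)) + 1 = exDeg (.inl ((uG F L).tgt e)) := by
  rcases e with ⟨i, x | ⟨β, σ, p⟩ | ⟨β, t⟩⟩ | ⟨l, _ | j⟩
  · rfl
  · rfl
  · rfl
  · rfl
  · fin_cases j <;> rfl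

/-- the homomorphism to `ℤ` with letters `↦ 1`, root `↦ 1`, atoms `↦ 2`, nodes `↦ 3`, mids `↦ 2`,
seam vertices `0, 2 ↦ 1` and `1, 3 ↦ 2` -/
theorem u_gen_ne_one (x : UV F L ⊕ US F L) : ((uH ω).tp rv).gen x ≠ 1 := by
  let f : UV F L ⊕ US F L → Multiplicative ℤ := fun s => Multiplicative.ofAdd (exDeg s)
  have hf : ∀ r ∈ Set.range ((uH ω).tp rv).rel, FreeGroup.lift f r = 1 := by
    rintro _ ⟨⟨⟨e, b⟩, hb⟩, rfl⟩
    obtain rfl : b = true := hb
    simp only [R184.TP.rel, map_mul, map_inv, FreeGroup.lift_apply_of, mul_inv_eq_one]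
    exact congrArg Multiplicative.ofAdd (exDeg_edge e)
  intro h
  have h1 : PresentedGroup.toGroup hf (((uH ω).tp rv).gen x) = f x := PresentedGroup.toGroup.of hf
  rw [h, map_one] at h1
  exact exDeg_ne x (Multiplicative.ofAdd.injective h1.symm)

theorem ex_li {A B I : Type} (φ : (A →₀ ℤ) →ₗ[ℤ] (B →₀ ℤ)) (h : Function.Injective φ) (r : I → A)
    (hr : Function.Injective r) : LinearIndependent ℤ fun e => φ (Finsupp.single (r e) 1) := by
  have h1 : LinearIndependent ℤ fun a : A => (Finsupp.single a 1 : A →₀ ℤ) := by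
    have := (Finsupp.basisSingleOne (R := ℤ) (ι := A)).linearIndependent
    rwa [Finsupp.coe_basisSingleOne] at this
  exact (h1.comp r hr).map' φ (LinearMap.ker_eq_bot.2 h)

/-- Otherwise all atoms of level `0` have the same cone element `c`.  The `8 q²` triangles
`(1, e)`, `e` an atom-node edge of level `0`, have boundaries in the span of the `q + q' + 2 q²`
edges `(1, atom)`, `(c, letter of F 1)`, `(1, node)`, and these boundaries are linearly
independent as `bd` is injective; but `q + q' + 2 q² ≤ 4 q² < 8 q²`. -/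
theorem u_not_const (hL : 0 < L) (hq : Fintype.card (F 1) ≤ Fintype.card (F 0) ^ 2)
    (h : ((uH ω).tp rv).Aspherical) : ¬ ∀ x x' : F 0, uS ω 0 x = uS ω 0 x' := by
  classical
  intro hc
  let i : Fin L := ⟨0, hL⟩
  let g : uGrp ω := exC ω i (.inr (.inl (0 : F 0)))
  have hg : ∀ x : F 0, exC ω i (.inr (.inl x)) = g := fun x => by
    rw [← ex_root ω i x, show uS ω i x = uS ω i (0 : F 0) from hc x 0, ex_root]
  let r : Bool × Fin 4 × F 0 × F 0 → uGrp ω × {h : UE F L × Bool // ((uH ω).lett h).2 = true} :=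
    fun e => (1, ⟨(.inl ⟨i, .inr (.inl e)⟩, true), rfl⟩)
  have hr : Function.Injective r := fun e e' he => by
    have := congrArg (fun z => z.2.1.1) he
    simpa [r] using this
  have li : LinearIndependent ℤ fun e => ((uH ω).tp rv).bd (Finsupp.single (r e) 1) :=
    ex_li _ h r hr
  let u : F 0 ⊕ F 1 ⊕ (Bool × F 0 × F 0) → (uGrp ω × (UV F L ⊕ US F L) →₀ ℤ) :=
    Sum.elim (fun x => Finsupp.single (1, .inl (.inl ⟨i, .inr (.inl x)⟩)) 1)
      (Sum.elim (fun b => Finsupp.single (g, .inr ⟨⟨1, Nat.succ_lt_succ hL⟩, b⟩) 1)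
        fun p => Finsupp.single (1, .inl (.inl ⟨i, .inr (.inr (.inl p))⟩)) 1)
  have hs : Set.range (fun e => ((uH ω).tp rv).bd (Finsupp.single (r e) 1)) ≤
      Submodule.span ℤ (Set.range u) := by
    rintro _ ⟨⟨β, σ, p⟩, rfl⟩
    have e : ((uH ω).tp rv).bd (Finsupp.single (r (β, σ, p)) 1) =
        u (.inl (slot σ p.1 p.2)) + u (.inr (.inl (uLab ω i (.inl (β, σ, p))))) -
          u (.inr (.inr (β, p))) := by
      rw [R184.TP.bd, Finsupp.linearCombination_single, one_smul]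
      simp only [u, Sum.elim_inl, Sum.elim_inr]
      rw [← hg (slot σ p.1 p.2), ← one_mul (exC ω i _)]
      rfl
    simp only [e]
    exact sub_mem (add_mem (Submodule.subset_span ⟨_, rfl⟩) (Submodule.subset_span ⟨_, rfl⟩))
      (Submodule.subset_span ⟨_, rfl⟩)
  have h1 := (linearIndependent_le_span_aux' _ li _ hs).trans (Fintype.card_range_le u)
  simp only [Fintype.card_prod, Fintype.card_sum, Fintype.card_bool, Fintype.card_fin] at h1
  have h2 : 0 < Fintype.card (F 0) := Fintype.card_pos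
  nlinarith

end Crest.Agent.R196
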