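import Crest.Agent.R196.FinalB

/-! Row 196: the contradiction in the graded cone, end. -/

set_option autoImplicit false

universe u

namespace Crest.Agent.R196

namespace GS

variable {T : Type u} {C : Cone T} {N J : T} {P : Pt → T} (h : GS C N J P)
include h

open Pt

theorem false : False := by
  obtain ⟨r5, n5, d5, r5av, r5xf, r5c, r5u, r5b, r5k, r5e⟩ := h.exists_r5
  obtain ⟨r4, n4, d4, r4ab, r4xu, r4k, r4g, r4c, r4v, r4e⟩ := h.exists_r4
  have bac : IsBas a c u x := B_aucx.perm (by simp)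
  have bam : IsBas a m x u := B_axum.perm (by simp)
  have buc : IsBas u c a x := B_aucx.perm (by simp)
  have bbc : IsBas b c x a := B_xbca.perm (by simp)
  have bcx : IsBas c x a u := B_aucx.perm (by simp)
  have bms : IsBas m s u a := B_musa.perm (by simp)
  have bus : IsBas u s m a := B_musa.perm (by simp)
  have bga : IsBas g a b u := B_agbu.perm (by simp)
  have bgb : IsBas g b a u := B_agbu.perm (by simp)
  have bcs : IsBas c s a u := B_aucs.perm (by simp)
  have bce : IsBas c e a u := B_auce.perm (by simp)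
  have bbv : IsBas b v a x := B_abvx.perm (by simp)
  have buf : IsBas u f x a := B_xfua.perm (by simp)
  have d1 := h.d1
  -- memberships of points
  have mPi : 1 ≤ C.ip (P m) (C.add (C.add (P a) (P u)) (P c)) := by
    have h1 := (h.pge B_aucx (P m)).2.1
    have h2 := h.leq bam bac (h.l1 bam).ge (h.col bam C_cam) (P m)
    rw [h.l2 bam] at h2
    have := h.o B_axum m u a x
    linarith
  have vPi : 1 ≤ C.ip (P v) (C.add (C.add (P a) (P u)) (P c)) := by
    have h1 := (h.pge B_aucx (P v)).2.2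
    have h2 := h.col buc C_vuc
    have := h.o B_avcx v a c x
    linarith
  have ePi := h.peq B_aucx B_avcx (h.p1 B_aucx) vPi (h.p3 B_aucx)
  have fPi' : 1 ≤ C.ip (P f) (C.add (C.add (P x) (P b)) (P c)) := by
    have h1 := (h.pge B_xbca (P f)).2.2
    have h2 := h.col bbc C_fbc
    have := h.o B_xfca f x a c
    linarith
  have ePi' := h.peq B_xbca B_xfca (h.p1 B_xbca) fPi' (h.p3 B_xbca)
  have gPi' : 1 ≤ C.ip (P g) (C.add (C.add (P x) (P b)) (P c)) := by
    have h1 := (h.pge B_xbca (P g)).2.1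
    have h2 := h.col bcx C_gcx
    rw [C.ip_congr _ (C.add_comm _ _)] at h2
    have := h.o B_agbu g b a u
    linarith
  have gP12 : 1 ≤ C.ip (P g) (C.add (C.add (P m) (P u)) (P s)) := by
    have h1 := (h.pge B_musa (P g)).2.1
    have h2 := h.col bms C_gms
    have := h.o B_agbu g u a b
    linarith
  have bP12 : 1 ≤ C.ip (P b) (C.add (C.add (P m) (P u)) (P s)) := by
    have h1 := (h.pge B_musa (P b)).2.2
    have h2 := h.col bus C_bus
    have := h.o B_xbcm b m x c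
    linarith
  have kP24 : 1 ≤ C.ip (P k) (C.add (C.add (P a) (P g)) (P b)) := by
    have h1 := (h.pge B_agbu (P k)).1
    have h2 := h.col bga C_kga
    rw [C.ip_congr _ (C.add_comm _ _)] at h2
    have := h.o B_kbax k b a x
    linarith
  have eP4 : 1 ≤ C.ip (P e) (C.add (C.add (P a) (P b)) (P v)) := by
    have h1 := (h.pge B_abvx (P e)).2.2
    have h2 := h.col bbv C_ebv
    have := h.o B_xuea e a x u
    linarith
  have eP4' : 1 ≤ C.ip (P e) (C.add (C.add (P x) (P f)) (P u)) := by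
    have h1 := (h.pge B_xfua (P e)).2.2
    have h2 := h.col buf C_euf
    rw [C.ip_congr _ (C.add_comm _ _)] at h2
    have := h.o B_xuea e x a u
    linarith
  have eqP4' := h.peq B_xfua B_xuea (h.p1 B_xfua) (h.p3 B_xfua) eP4'
  have kce : 1 ≤ C.ip (P k) (C.add (P c) (P e)) := by
    rw [h.leq bcs bce (h.l1 bcs).ge (h.col bcs C_ecs)]
    exact h.col bcs C_kcs
  have aPi := h.p1 B_aucx
  have uPi := h.p2 B_aucx
  have cPi := h.p3 B_aucx
  have sPi := h.p4 B_aucs
  have xPi' := h.p1 B_xbca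
  have bPi' := h.p2 B_xbca
  have cPi' := h.p3 B_xbca
  have mP12 := h.p1 B_musa
  have uP12 := h.p2 B_musa
  have sP12 := h.p3 B_musa
  have xP4' := h.p1 B_xfua
  have uQ := h.p2 B_xukm
  have kQ := h.p3 B_xukm
  have cAx := h.cmp B_aucx
  have cAs := h.cmp B_aucs
  have cAg := h.cmp B_aucg
  have cAe := h.cmp B_auce
  have cAk := h.cmp B_auck
  have cBm := h.cmp B_xbcm
  have cDu := h.cmp B_agbu
  have cDc := h.cmp B_agbc
  have cEx := h.cmp B_abvx
  have cQm := h.cmp B_xukm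
  have nPi := h.np B_aucx
  have nPi' := h.np B_xbca
  have nP12 := h.np B_musa
  have nP24 := h.np B_agbu
  have nP4 := h.np B_abvx
  have nP4' := h.np B_xfua
  have nQ := h.np B_xukm
  have dPi := h.dp a u c
  have dPi' := h.dp x b c
  have dP12 := h.dp m u s
  have dP24 := h.dp a g b
  have dP4 := h.dp a b v
  have dP4' := h.dp x f u
  have dQ := h.dp x u k
  have gP24 := h.pge B_agbu
  have gP4 := h.pge B_abvx
  have gP4' := h.pge B_xfua
  have gQ := h.pge B_xukm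
  have r5Pi : 1 ≤ C.ip r5 (C.add (C.add (P a) (P u)) (P c)) := by
    have := C.ip_add r5 (C.add (P a) (P v)) (P c)
    rw [ePi] at this
    linarith
  have r5Pi' : 1 ≤ C.ip r5 (C.add (C.add (P x) (P b)) (P c)) := by
    have := C.ip_add r5 (C.add (P x) (P f)) (P c)
    rw [ePi'] at this
    linarith
  have r4P4' : 1 ≤ C.ip r4 (C.add (C.add (P x) (P f)) (P u)) := by
    have := C.ip_add r4 (C.add (P x) (P u)) (P e)
    rw [eqP4'] at this
    linarith
  have PiPi' : 2 ≤ C.ip (C.add (C.add (P a) (P u)) (P c)) (C.add (C.add (P x) (P b)) (P c)) := by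
    rw [← ePi']
    have h1 := C.ip_add (C.add (C.add (P a) (P u)) (P c)) (C.add (P x) (P f)) (P c)
    have h2 := C.ip_add (C.add (P x) (P f)) (C.add (P a) (P v)) (P c)
    rw [ePi, C.ip_symm _ (P c), h.o3 B_xfca] at h2
    rw [C.ip_symm _ (C.add (P x) (P f)), C.ip_symm _ (P c)] at h1
    have := h.fl2
    linarith
  have nl1 := h.nl B_musa
  have nl2 := h.nl bgb
  have dl1 := h.dl m u
  have dl2 := h.dl g b
  have ul1 := h.l2 B_musa
  have ml1 := h.l1 B_musa
  have gl2 := h.l1 bgb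
  have al2 : C.ip (P a) (C.add (P g) (P b)) = 0 := h.o3 bgb
  have ul2 : C.ip (P u) (C.add (P g) (P b)) = 0 :=
    h.o3 (B_agbu.perm (p' := g) (q' := b) (r' := u) (t' := a) (by simp))
  have okc := h.o B_auck k c a u
  have oce := h.o B_auce c e a u
  have l1P12 := C.ip_add' (P m) (P u) (C.add (C.add (P m) (P u)) (P s))
  have l1Pi := C.ip_add' (P m) (P u) (C.add (C.add (P a) (P u)) (P c))
  have l2P12 := C.ip_add' (P g) (P b) (C.add (C.add (P m) (P u)) (P s))
  have l2Pi' := C.ip_add' (P g) (P b) (C.add (C.add (P x) (P b)) (P c))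
  have PiP12 := C.ip_add' (C.add (P m) (P u)) (P s) (C.add (C.add (P a) (P u)) (P c))
  generalize C.add (C.add (P a) (P u)) (P c) = Pi at *
  generalize C.add (C.add (P x) (P b)) (P c) = Pi' at *
  generalize C.add (C.add (P m) (P u)) (P s) = P12 at *
  generalize C.add (C.add (P a) (P g)) (P b) = P24 at *
  generalize C.add (C.add (P a) (P b)) (P v) = P4 at *
  generalize C.add (C.add (P x) (P f)) (P u) = P4' at *
  generalize C.add (C.add (P x) (P u)) (P k) = Q at *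
  generalize C.add (P m) (P u) = l1 at *
  generalize C.add (P g) (P b) = l2 at *
  have sy := C.ip_symm
  -- the line `Λ = r₅ + c`
  obtain ⟨Λ, hΛ⟩ : ∃ Λ, Λ = C.add r5 (P c) := ⟨_, rfl⟩
  have nΛ : C.nrm Λ = 2 := by rw [hΛ, C.nrm_add, n5, h.n1, r5c]; norm_num
  have dΛ : C.ip Λ J = 2 := by rw [hΛ, h.deg_add, d5, h.d1]; norm_num
  have ΛPi : 2 ≤ C.ip Λ Pi := by have := C.ip_add' r5 (P c) Pi; rw [← hΛ] at this; linarith
  have ΛPi' : 2 ≤ C.ip Λ Pi' := by have := C.ip_add' r5 (P c) Pi'; rw [← hΛ] at this; linarith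
  have cΛ : C.ip (P c) Λ = 1 := by rw [hΛ, C.ip_add_right, r5c, h.n1]; norm_num
  have kΛ : 0 ≤ C.ip (P k) Λ := by
    have := C.ip_add (P k) r5 (P c); rw [← hΛ] at this; linarith [sy (P k) r5]
  have mΛ := h.meet (r := Λ) (e := Pi) (f := Pi') (k := 2) nΛ.le
    (by linarith [cAx Pi', sy Pi Pi', sy Pi' (P x)]) (by linarith)
  have m1 := h.meet (r := l1) (e := P12) (f := Pi) (k := 2) nl1.le
    (by linarith [cAs P12, sy P12 (P s)]) (by linarith)
  have m2 := h.meet (r := l2) (e := P12) (f := Pi') (k := 2) nl2.le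
    (by linarith [cBm P12, sy P12 (P m)]) (by linarith)
  -- the point `X`
  have l2Pi1 : C.ip l2 Pi ≤ 1 := by linarith [cAg l2, sy l2 (P g)]
  have l2Pi2 : 1 ≤ C.ip l2 Pi := by linarith [m2 Pi, sy Pi P12, sy Pi l2]
  obtain ⟨X, hX⟩ : ∃ X, X = C.add (C.add l2 Pi) N := ⟨_, rfl⟩
  have gX : ∀ y, C.ip y l2 + C.ip y Pi - C.ip y J ≤ C.ip X y := fun y => by
    rw [sy X, hX]; exact h.ip_mt y l2 Pi
  have nX : C.nrm X ≤ 1 := by rw [hX, h.nrm_mt]; linarith
  have dX : C.ip X J = 1 := by rw [hX, h.deg_mt]; linarith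
  have XPi : 1 ≤ C.ip X Pi := by linarith [gX Pi, C.ip_self Pi, sy Pi l2]
  have Xl2 : 1 ≤ C.ip X l2 := by linarith [gX l2, C.ip_self l2]
  have XPi' : 1 ≤ C.ip X Pi' := by linarith [gX Pi', sy Pi' l2, sy Pi' Pi]
  have XP12 : 1 ≤ C.ip X P12 := by linarith [gX P12, sy P12 l2]
  have Xa : 0 ≤ C.ip X (P a) := by linarith [gX (P a), d1 a]
  have Xu : 0 ≤ C.ip X (P u) := by linarith [gX (P u), d1 u]
  have XΛ : 1 ≤ C.ip X Λ := by linarith [mΛ X]
  have Xl1 : 1 ≤ C.ip X l1 := by linarith [m1 X]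
  have XP24 : 1 ≤ C.ip X P24 := by linarith [(gP24 X).2.2]
  have Xu' : C.ip X (P u) ≤ 0 := by linarith [cDu X]
  have Xk : 0 ≤ C.ip X (P k) := by
    have := h.meet (r := X) (e := Λ) (f := P24) (k := 1) nX
      (by linarith [cDc Λ, sy Λ (P c)]) (by linarith) (P k)
    linarith [d1 k, sy X (P k)]
  -- the plane `ρ = Λ + e`
  have Λe : C.ip Λ (P e) ≤ 0 := by linarith [cAe Λ]
  have Λk : C.ip Λ (P k) ≤ 0 := by linarith [cAk Λ]
  have eΛ := C.ip_add (P e) r5 (P c)
  rw [← hΛ] at eΛ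
  have r5e0 : C.ip r5 (P e) = 0 := by linarith [sy (P e) r5, sy (P e) (P c), sy (P e) Λ]
  have Λe0 : C.ip Λ (P e) = 0 := by linarith [sy (P e) r5, sy (P e) (P c), sy (P e) Λ]
  have fl : C.Fl (P e) r5 (P c) := by
    unfold Cone.Fl
    rw [← hΛ]
    linarith [sy (P e) r5, sy (P e) (P c), sy (P e) Λ]
  obtain ⟨ρ, hρ⟩ : ∃ ρ, ρ = C.add Λ (P e) := ⟨_, rfl⟩
  have nρ : C.nrm ρ = 3 := by rw [hρ, C.nrm_add, nΛ, h.n1, Λe0]; norm_num
  have dρ : C.ip ρ J = 3 := by rw [hρ, h.deg_add, dΛ, h.d1]; norm_num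
  have eρ1 : ∀ y, C.ip y ρ = C.ip y (C.add r5 (C.add (P c) (P e))) := fun y => by
    rw [hρ, hΛ]; exact C.ip_congr y (C.add_assoc fl)
  have eρ2 : ∀ y, C.ip y ρ = C.ip y (C.add (C.add r5 (P e)) (P c)) := fun y => by
    rw [eρ1, C.ip_congr y (C.add_assoc fl.rot.rot.swap)]
    exact C.ip_congr y (C.add_congr (C.D_self _) (C.add_comm _ _))
  have kρ : 1 ≤ C.ip (P k) ρ := by
    rw [eρ1]; linarith [C.ip_add (P k) r5 (C.add (P c) (P e)), sy (P k) r5]
  have cρ : 1 ≤ C.ip (P c) ρ := by rw [hρ]; linarith [C.ip_add (P c) Λ (P e)]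
  have Λρ : C.ip Λ ρ = 2 := by rw [hρ, C.ip_add_left, nΛ, Λe0]; norm_num
  have Xρ : 1 ≤ C.ip X ρ := by
    have h1 : C.D (C.add Λ (P k)) ρ = 0 := C.eqv (k := 3)
      (by rw [C.nrm_add, h.n1]; linarith) nρ.le (by linarith [C.ip_add' Λ (P k) ρ])
    rw [← C.ip_congr X h1]
    linarith [C.ip_add X Λ (P k)]
  have r4ρ : 1 ≤ C.ip r4 ρ := by
    have h1 := h.meet (r := C.add r5 (P e)) (e := P4) (f := P4') (k := 2)
      (by rw [C.nrm_add, h.n1]; linarith) (by linarith [cEx P4', sy P4 P4', sy P4' (P x)])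
      (by
        rw [h.deg_add]
        linarith [C.ip_add' r5 (P e) P4, C.ip_add' r5 (P e) P4', (gP4 r5).2.1, (gP4' r5).1, d1 e])
      r4
    rw [eρ2]
    linarith [C.ip_add r4 (C.add r5 (P e)) (P c), (gP4 r4).1]
  -- the line `k + r₄`
  obtain ⟨l, hl⟩ : ∃ l, l = C.add (P k) r4 := ⟨_, rfl⟩
  have nl : C.nrm l ≤ 2 := by rw [hl, C.nrm_add, h.n1]; linarith [sy (P k) r4]
  have dl : C.ip l J = 2 := by rw [hl, h.deg_add, h.d1, d4]; norm_num
  have gl : ∀ y, C.ip (P k) y + C.ip r4 y ≤ C.ip l y := fun y => by rw [hl]; exact C.ip_add' _ _ _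
  have lP24 : 2 ≤ C.ip l P24 := by linarith [gl P24, (gP24 r4).2.1]
  have Xl : 1 ≤ C.ip X l := by
    have := h.meet (r := l) (e := ρ) (f := P24) (k := 2) nl
      (by linarith [cDc ρ, sy ρ (P c)]) (by linarith [gl ρ]) X
    linarith
  have XQ : 1 ≤ C.ip X Q := by
    have h1 : C.D (C.add l (P u)) Q = 0 := C.eqv (k := 3)
      (by rw [C.nrm_add, h.n1]; linarith [cDu l]) nQ.le
      (by linarith [C.ip_add' l (P u) Q, gl Q, (gQ r4).1])
    rw [← C.ip_congr X h1]
    linarith [C.ip_add X l (P u)]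
  have := h.meet (r := P u) (e := l1) (f := Q) (k := 1) (h.n1 u).le
    (by linarith [cQm l1, sy l1 (P m)]) (by linarith [d1 u]) X
  linarith

end GS

end Crest.Agent.R196
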