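import Crest.Agent.R196.Graded
import Crest.Agent.R196.FinalC

/-! Row 196: the configuration does not exist. -/

set_option autoImplicit false

universe u

namespace Crest.Agent.R196

open Finset

theorem Pt.exists_bas (p : Pt) : ∃ q r t, IsBas p q r t := p.exists_bas'

namespace Cfg

variable {V : Type u} {C : Cone V} {W : Pt → V} (h : Cfg C W 0)
include h

theorem n1 (p : Pt) : C.nrm (W p) = 1 := by
  obtain ⟨q, r, t, hb⟩ := p.exists_bas
  have := abs_nonpos_iff.1 (h.nrm p q r t hb)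
  linarith

theorem o0 {p q r t : Pt} (hb : IsBas p q r t) (y z r' t' : Pt)
    (hp : ∀ w ∈ [p, q, r, t], w ∈ [y, z, r', t'] := by simp) : 0 ≤ C.ip (W y) (W z) := by
  simpa using h.orth _ _ _ _ (hb.perm hp)

theorem exact {p q r t : Pt} (hb : IsBas p q r t) :
    C.ip (W p) (W q) = 0 ∧ C.ip (W r) (C.add (W p) (W q)) = 0 ∧
      C.ip (W t) (C.add (C.add (W p) (W q)) (W r)) = 0 ∧ C.nrm (C.add (W p) (W q)) = 2 ∧
      C.nrm (C.add (C.add (W p) (W q)) (W r)) = 3 ∧
      C.nrm (C.add (C.add (C.add (W p) (W q)) (W r)) (W t)) = 4 := by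
  have h1 := h.bas _ _ _ _ hb
  have e1 := C.nrm_add (C.add (C.add (W p) (W q)) (W r)) (W t)
  have e2 := C.nrm_add (C.add (W p) (W q)) (W r)
  have e3 := C.nrm_add (W p) (W q)
  have a1 := C.ip_add' (C.add (W p) (W q)) (W r) (W t)
  have a2 := C.ip_add' (W p) (W q) (W t)
  have a3 := C.ip_add' (W p) (W q) (W r)
  have := h.o0 hb p q r t
  have := h.o0 hb p r q t
  have := h.o0 hb p t q r
  have := h.o0 hb q r p t
  have := h.o0 hb q t p r
  have := h.o0 hb r t p q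
  rw [h.n1] at e1 e2 e3
  rw [h.n1] at e3
  rw [C.ip_symm (W r), C.ip_symm (W t)]
  refine ⟨?_, ?_, ?_, ?_, ?_, ?_⟩ <;> linarith

theorem sum_eq {J : V} (hJ : C.nrm J = 4) {p q r t : Pt} (hb : IsBas p q r t)
    (hp : 1 ≤ C.ip (W p) J) (hq : 1 ≤ C.ip (W q) J) (hr : 1 ≤ C.ip (W r) J)
    (ht : 1 ≤ C.ip (W t) J) : C.D (C.add (C.add (C.add (W p) (W q)) (W r)) (W t)) J = 0 := by
  refine C.eqv (h.exact hb).2.2.2.2.2.le hJ.le ?_
  have a1 := C.ip_add' (C.add (C.add (W p) (W q)) (W r)) (W t) J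
  have a2 := C.ip_add' (C.add (W p) (W q)) (W r) J
  have a3 := C.ip_add' (W p) (W q) J
  linarith

theorem new_in {J : V} (hJ : C.nrm J = 4) {z p q r t : Pt} (hb : IsBas p q r t)
    (hp : 1 ≤ C.ip (W p) J) (hq : 1 ≤ C.ip (W q) J) (hr : 1 ≤ C.ip (W r) J)
    (ht : 1 ≤ C.ip (W t) J) (hz : IsCol z p q) (h1 : 0 ≤ C.ip (W z) (W r))
    (h2 : 0 ≤ C.ip (W z) (W t)) : 1 ≤ C.ip (W z) J := by
  rw [← C.ip_congr _ (h.sum_eq hJ hb hp hq hr ht)]
  have a1 := C.ip_add (W z) (C.add (C.add (W p) (W q)) (W r)) (W t)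
  have a2 := C.ip_add (W z) (C.add (W p) (W q)) (W r)
  have := h.col _ _ _ _ _ hb hz
  linarith

open Pt in
theorem exists_J : ∃ J, C.nrm J = 4 ∧ ∀ p, 1 ≤ C.ip (W p) J := by
  obtain ⟨e1, e2, e3, -, -, hJ⟩ := h.exact B_axum
  set J := C.add (C.add (C.add (W a) (W x)) (W u)) (W m) with hJ'
  have A1 := fun y => C.ip_add y (C.add (C.add (W a) (W x)) (W u)) (W m)
  have A2 := fun y => C.ip_add y (C.add (W a) (W x)) (W u)
  have ha : 1 ≤ C.ip (W a) J := by
    linarith [A1 (W a), A2 (W a), C.ip_add_left (W a) (W x), h.n1 a, h.o0 B_axum a u x m,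
      h.o0 B_axum a m x u]
  have hx : 1 ≤ C.ip (W x) J := by
    linarith [A1 (W x), A2 (W x), C.ip_add_right (W a) (W x), h.n1 x, h.o0 B_axum x u a m,
      h.o0 B_axum x m a u]
  have hu : 1 ≤ C.ip (W u) J := by
    linarith [A1 (W u), C.ip_add_right (C.add (W a) (W x)) (W u), h.n1 u, h.o0 B_axum u m a x,
      C.ip_symm (W u) (C.add (W a) (W x))]
  have hm : 1 ≤ C.ip (W m) J := by
    linarith [C.ip_add_right (C.add (C.add (W a) (W x)) (W u)) (W m), h.n1 m,
      C.ip_symm (W m) (C.add (C.add (W a) (W x)) (W u))]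
  have hs := h.new_in hJ B_axum ha hx hu hm C_sax (h.o0 B_musa s u m a) (h.o0 B_musa s m u a)
  have hc := h.new_in hJ (B_axum.perm (p' := a) (q' := m) (r' := x) (t' := u) (by simp)) ha hm hx hu
    C_cam (h.o0 B_aucx c x a u) (h.o0 B_aucx c u a x)
  have hb := h.new_in hJ (B_musa.perm (p' := u) (q' := s) (r' := m) (t' := a) (by simp)) hu hs hm ha
    C_bus (h.o0 B_xbcm b m x c) (h.o0 B_xbca b a x c)
  have hg := h.new_in hJ (B_aucx.perm (p' := c) (q' := x) (r' := a) (t' := u) (by simp)) hc hx ha hu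
    C_gcx (h.o0 B_agbu g a b u) (h.o0 B_agbu g u a b)
  have hv := h.new_in hJ (B_aucx.perm (p' := u) (q' := c) (r' := a) (t' := x) (by simp)) hu hc ha hx
    C_vuc (h.o0 B_avcx v a c x) (h.o0 B_avcx v x a c)
  have hf := h.new_in hJ (B_xbca.perm (p' := b) (q' := c) (r' := x) (t' := a) (by simp)) hb hc hx ha
    C_fbc (h.o0 B_xfua f x u a) (h.o0 B_xfua f a u x)
  have hk := h.new_in hJ (B_xuga.perm (p' := g) (q' := a) (r' := u) (t' := x) (by simp)) hg ha hu hx
    C_kga (h.o0 B_xuak k u a x) (h.o0 B_xuak k x a u)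
  have he := h.new_in hJ (B_aucs.perm (p' := c) (q' := s) (r' := a) (t' := u) (by simp)) hc hs ha hu
    C_ecs (h.o0 B_auce e a u c) (h.o0 B_auce e u a c)
  refine ⟨J, hJ, fun p => ?_⟩
  cases p <;> assumption

end Cfg

theorem not_cfg {V : Type u} (C : Cone V) (W : Pt → V) : ¬ Cfg C W 0 := by
  intro h
  obtain ⟨J, hJ, hin⟩ := h.exists_J
  obtain ⟨T, C', N, J', br, g1, g2, g3, g4, g5, g6, g7⟩ := C.exists_graded J
  have sumJ : ∀ {p q r t}, IsBas p q r t →
      C.D (C.add (C.add (C.add (W p) (W q)) (W r)) (W t)) J = 0 := fun hb =>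
    h.sum_eq hJ hb (hin _) (hin _) (hin _) (hin _)
  have d1 : ∀ p, C'.ip (br (W p)) J' = 1 := fun p => by
    obtain ⟨q, r, t, hb⟩ := p.exists_bas
    have hb' : IsBas q r t p := hb.perm (by simp)
    rw [g6, ← C.ip_congr _ (sumJ hb'), C.ip_add_right, C.ip_symm, (h.exact hb').2.2.1, h.n1,
      zero_add]
  have n1 : ∀ p, C'.nrm (br (W p)) = 1 := fun p => by rw [g4, h.n1]
  have dadd : ∀ e f, C'.ip (C'.add e f) J' = C'.ip e J' + C'.ip f J' := fun e f => by
    have h1 := C'.ip_add' e f J'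
    have h2 := C'.ip_add' e f N
    rw [g3, g3, g3] at h2
    linarith
  have inS : ∀ {p q r t}, IsBas p q r t →
      1 ≤ C.ip (W p) (C.add (C.add (W p) (W q)) (W r)) ∧
      1 ≤ C.ip (W q) (C.add (C.add (W p) (W q)) (W r)) ∧
      1 ≤ C.ip (W r) (C.add (C.add (W p) (W q)) (W r)) ∧
      2 ≤ C.ip (C.add (W p) (W q)) (C.add (C.add (W p) (W q)) (W r)) := by
    intro p q r t hb
    obtain ⟨e1, e2, -, e4, -, -⟩ := h.exact hb
    refine ⟨?_, ?_, ?_, ?_⟩
    · linarith [C.ip_add (W p) (C.add (W p) (W q)) (W r), C.ip_add_left (W p) (W q), h.n1 p,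
        h.o0 hb p r q t]
    · linarith [C.ip_add (W q) (C.add (W p) (W q)) (W r), C.ip_add_right (W p) (W q), h.n1 q,
        h.o0 hb q r p t]
    · linarith [C.ip_add_right (C.add (W p) (W q)) (W r), h.n1 r,
        C.ip_symm (W r) (C.add (W p) (W q))]
    · linarith [C.ip_add_left (C.add (W p) (W q)) (W r), C.ip_symm (W r) (C.add (W p) (W q))]
  have o2 : ∀ {p q r t}, IsBas p q r t → C'.ip (br (W p)) (br (W q)) = 0 := by
    intro p q r t hb
    have hb' : IsBas p r t q := hb.perm (by simp)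
    have h1 := g7 _ _ (sumJ hb') (br (W p))
    linarith [g5 (W p) (C.add (C.add (W p) (W r)) (W t)), (inS hb').1, d1 p, g5 (W p) (W q),
      h.o0 hb p q r t]
  have e2 : ∀ {p q r t}, IsBas p q r t →
      C'.D (C'.add (br (W p)) (br (W q))) (br (C.add (W p) (W q))) = 0 := by
    intro p q r t hb
    obtain ⟨e1, -, -, e4, -, -⟩ := h.exact hb
    refine C'.eqv (k := 2) (by rw [C'.nrm_add, n1, n1, o2 hb]; norm_num) (by rw [g4, e4]) ?_
    linarith [C'.ip_add' (br (W p)) (br (W q)) (br (C.add (W p) (W q))),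
      g5 (W p) (C.add (W p) (W q)), g5 (W q) (C.add (W p) (W q)), C.ip_add_left (W p) (W q),
      C.ip_add_right (W p) (W q), h.n1 p, h.n1 q]
  have o3 : ∀ {p q r t}, IsBas p q r t →
      C'.ip (br (W r)) (C'.add (br (W p)) (br (W q))) = 0 := by
    intro p q r t hb
    have hb' : IsBas p q t r := hb.perm (by simp)
    have h1 := g7 _ _ (sumJ hb') (br (C.add (W p) (W q)))
    have h2 : C'.ip (br (C.add (W p) (W q))) J' = 2 := by
      rw [C'.ip_symm, ← C'.ip_congr _ (e2 hb), C'.ip_symm, dadd, d1, d1]; norm_num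
    rw [C'.ip_congr _ (e2 hb)]
    linarith [g5 (C.add (W p) (W q)) (C.add (C.add (W p) (W q)) (W t)), (inS hb').2.2.2,
      g5 (W r) (C.add (W p) (W q)), (h.exact hb).2.1,
      C'.ip_symm (br (W r)) (br (C.add (W p) (W q)))]
  have e3 : ∀ {p q r t}, IsBas p q r t →
      C'.D (C'.add (C'.add (br (W p)) (br (W q))) (br (W r)))
        (br (C.add (C.add (W p) (W q)) (W r))) = 0 := by
    intro p q r t hb
    obtain ⟨i1, i2, i3, -⟩ := inS hb
    refine C'.eqv (k := 3) ?_ (by rw [g4, (h.exact hb).2.2.2.2.1]) ?_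
    · rw [C'.nrm_add, C'.nrm_add, n1, n1, n1, o2 hb, C'.ip_symm, o3 hb]; norm_num
    · linarith [C'.ip_add' (br (W p)) (br (W q)) (br (C.add (C.add (W p) (W q)) (W r))),
        C'.ip_add' (C'.add (br (W p)) (br (W q))) (br (W r)) (br (C.add (C.add (W p) (W q)) (W r))),
        g5 (W p) (C.add (C.add (W p) (W q)) (W r)), g5 (W q) (C.add (C.add (W p) (W q)) (W r)),
        g5 (W r) (C.add (C.add (W p) (W q)) (W r))]
  have fl : ∀ {z p q r t r' t'}, IsBas p q r t → IsBas r z r' t' → IsLin z p q r →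
      1 ≤ C'.ip (C'.add (br (W p)) (br (W q))) (C'.add (br (W r)) (br (W z))) := by
    intro z p q r t r' t' hb hb' hl
    rw [C'.ip_congr _ (e2 hb'), C'.ip_symm, C'.ip_congr _ (e2 hb), C'.ip_symm]
    linarith [h.flag _ _ _ _ _ hb hl, g5 (C.add (W p) (W q)) (C.add (W r) (W z))]
  refine GS.false (C := C') (N := N) (J := J') (P := fun p => br (W p))
    ⟨g1.trans hJ, g2.trans hJ, g3, n1, d1, o2, o3, fun hb g => ?_, fun {z p q r t} hb hz => ?_,
      fl B_xuak B_abvx L_b, fl (B_xfua.perm (p' := .x) (q' := .f) (r' := .a) (t' := .u) (by simp))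
        B_avcx L_v⟩
  · rw [C'.ip_congr _ (e3 hb)]
    exact g7 _ _ (sumJ hb) g
  · rw [C'.ip_congr _ (e2 hb)]
    linarith [h.col _ _ _ _ _ hb hz, g5 (W z) (C.add (W p) (W q))]

end Crest.Agent.R196
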