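import Crest.Agent.R196.Cone
import Crest.Agent.R196.Bas

/-! Row 196: the lattice calculus in a graded cone. -/

set_option autoImplicit false

universe u

namespace Crest.Agent.R196

/-- the configuration in the tangent cone at `J` -/
structure GS {T : Type u} (C : Cone T) (N J : T) (P : Pt → T) : Prop where
  nJ : C.nrm J = 4
  nN : C.nrm N = 4
  hN : ∀ g, C.ip g N = -C.ip g J
  n1 : ∀ p, C.nrm (P p) = 1
  d1 : ∀ p, C.ip (P p) J = 1
  o2 : ∀ {p q r t}, IsBas p q r t → C.ip (P p) (P q) = 0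
  o3 : ∀ {p q r t}, IsBas p q r t → C.ip (P r) (C.add (P p) (P q)) = 0
  cmp : ∀ {p q r t}, IsBas p q r t → ∀ g,
    C.ip g (C.add (C.add (P p) (P q)) (P r)) + C.ip g (P t) ≤ C.ip g J
  col : ∀ {z p q r t}, IsBas p q r t → IsCol z p q → 1 ≤ C.ip (P z) (C.add (P p) (P q))
  fl1 : 1 ≤ C.ip (C.add (P .x) (P .u)) (C.add (P .a) (P .b))
  fl2 : 1 ≤ C.ip (C.add (P .x) (P .f)) (C.add (P .a) (P .v))

theorem Cone.eqv {T : Type u} (C : Cone T) {x y : T} {k : ℝ} (h1 : C.nrm x ≤ k) (h2 : C.nrm y ≤ k)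
    (h3 : k ≤ C.ip x y) : C.D x y = 0 := by
  have := C.D_eq x y
  have := C.D_nonneg x y
  linarith

theorem Cone.ip_add' {T : Type u} (C : Cone T) (e f g : T) :
    C.ip e g + C.ip f g ≤ C.ip (C.add e f) g := by
  rw [C.ip_symm e, C.ip_symm f, C.ip_symm _ g]
  exact C.ip_add g e f

namespace GS

variable {T : Type u} {C : Cone T} {N J : T} {P : Pt → T} (h : GS C N J P)
include h

theorem deg_add (e f : T) : C.ip (C.add e f) J = C.ip e J + C.ip f J := by
  have h1 := C.ip_add' e f J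
  have h2 := C.ip_add' e f N
  rw [h.hN, h.hN, h.hN] at h2
  linarith

theorem deg_N : C.ip N J = -4 := by
  have := h.hN N
  rw [C.ip_self, h.nN] at this
  linarith

theorem deg_mt (e f : T) : C.ip (C.add (C.add e f) N) J = C.ip e J + C.ip f J - 4 := by
  rw [h.deg_add, h.deg_add, h.deg_N]; ring

theorem nrm_mt (e f : T) : C.nrm (C.add (C.add e f) N) =
    C.nrm e + C.nrm f + 2 * C.ip e f + 4 - 2 * (C.ip e J + C.ip f J) := by
  rw [C.nrm_add, C.nrm_add, h.nN, h.hN, h.deg_add]; ring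

theorem ip_mt (g e f : T) : C.ip g e + C.ip g f - C.ip g J ≤ C.ip g (C.add (C.add e f) N) := by
  have h1 := C.ip_add g (C.add e f) N
  have h2 := C.ip_add g e f
  rw [h.hN] at h1
  linarith

/-- If `r` has norm at most `k` and lies in `e` and `f`, whose meet has norm at most `k`, then `r` is
the meet. -/
theorem meet {r e f : T} {k : ℝ} (hr : C.nrm r ≤ k)
    (hef : C.nrm e + C.nrm f + 2 * C.ip e f + 4 - 2 * (C.ip e J + C.ip f J) ≤ k)
    (hk : k ≤ C.ip r e + C.ip r f - C.ip r J) (g : T) :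
    C.ip g e + C.ip g f - C.ip g J ≤ C.ip g r := by
  have h1 : C.D r (C.add (C.add e f) N) = 0 :=
    C.eqv hr (by rw [h.nrm_mt]; exact hef) (hk.trans (h.ip_mt r e f))
  rw [C.ip_congr g h1]
  exact h.ip_mt g e f

section bas

variable {p q r t : Pt} (hb : IsBas p q r t)
include hb

theorem nl : C.nrm (C.add (P p) (P q)) = 2 := by
  rw [C.nrm_add, h.n1, h.n1, h.o2 hb]; norm_num

omit hb in
theorem dl (p q : Pt) : C.ip (C.add (P p) (P q)) J = 2 := by
  rw [h.deg_add, h.d1, h.d1]; norm_num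

theorem np : C.nrm (C.add (C.add (P p) (P q)) (P r)) = 3 := by
  rw [C.nrm_add, h.nl hb, h.n1, C.ip_symm, h.o3 hb]; norm_num

omit hb in
theorem dp (p q r : Pt) : C.ip (C.add (C.add (P p) (P q)) (P r)) J = 3 := by
  rw [h.deg_add, h.dl, h.d1]; norm_num

theorem l1 : C.ip (P p) (C.add (P p) (P q)) = 1 := by
  rw [C.ip_add_left, h.n1, h.o2 hb]; norm_num

theorem l2 : C.ip (P q) (C.add (P p) (P q)) = 1 := by
  rw [C.ip_add_right, h.n1, h.o2 hb]; norm_num

theorem p1 : 1 ≤ C.ip (P p) (C.add (C.add (P p) (P q)) (P r)) := by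
  have := C.ip_add (P p) (C.add (P p) (P q)) (P r)
  rw [h.l1 hb, h.o2 (hb.perm (p' := p) (q' := r) (r' := q) (t' := t) (by simp))] at this
  linarith

theorem p2 : 1 ≤ C.ip (P q) (C.add (C.add (P p) (P q)) (P r)) := by
  have := C.ip_add (P q) (C.add (P p) (P q)) (P r)
  rw [h.l2 hb, h.o2 (hb.perm (p' := q) (q' := r) (r' := p) (t' := t) (by simp))] at this
  linarith

theorem p3 : 1 ≤ C.ip (P r) (C.add (C.add (P p) (P q)) (P r)) := by
  rw [C.ip_add_right, C.ip_symm, h.o3 hb, h.n1]; norm_num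

theorem p4 : 0 ≤ C.ip (P t) (C.add (C.add (P p) (P q)) (P r)) := by
  have h1 := C.ip_add (P t) (C.add (P p) (P q)) (P r)
  rw [h.o3 (hb.perm (p' := p) (q' := q) (r' := t) (t' := r) (by simp)),
    h.o2 (hb.perm (p' := t) (q' := r) (r' := p) (t' := q) (by simp))] at h1
  linarith

/-- two lines with two common points -/
theorem leq {p' q' r' t' : Pt} (hb' : IsBas p' q' r' t')
    (h1 : 1 ≤ C.ip (P p') (C.add (P p) (P q))) (h2 : 1 ≤ C.ip (P q') (C.add (P p) (P q))) (g : T) :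
    C.ip g (C.add (P p') (P q')) = C.ip g (C.add (P p) (P q)) := by
  refine C.ip_congr g (C.eqv (h.nl hb').le (h.nl hb).le ?_)
  have := C.ip_add' (P p') (P q') (C.add (P p) (P q))
  linarith

/-- two planes with three common points -/
theorem peq {p' q' r' t' : Pt} (hb' : IsBas p' q' r' t')
    (h1 : 1 ≤ C.ip (P p') (C.add (C.add (P p) (P q)) (P r)))
    (h2 : 1 ≤ C.ip (P q') (C.add (C.add (P p) (P q)) (P r)))
    (h3 : 1 ≤ C.ip (P r') (C.add (C.add (P p) (P q)) (P r))) (g : T) :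
    C.ip g (C.add (C.add (P p') (P q')) (P r')) = C.ip g (C.add (C.add (P p) (P q)) (P r)) := by
  refine C.ip_congr g (C.eqv (h.np hb').le (h.np hb).le ?_)
  have := C.ip_add' (P p') (P q') (C.add (C.add (P p) (P q)) (P r))
  have := C.ip_add' (C.add (P p') (P q')) (P r') (C.add (C.add (P p) (P q)) (P r))
  linarith

/-- all the ways to bound the inner product with a plane from below -/
theorem pge (g : T) :
    C.ip g (C.add (P p) (P q)) + C.ip g (P r) ≤ C.ip g (C.add (C.add (P p) (P q)) (P r)) ∧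
    C.ip g (C.add (P p) (P r)) + C.ip g (P q) ≤ C.ip g (C.add (C.add (P p) (P q)) (P r)) ∧
    C.ip g (C.add (P q) (P r)) + C.ip g (P p) ≤ C.ip g (C.add (C.add (P p) (P q)) (P r)) := by
  refine ⟨C.ip_add _ _ _, ?_, ?_⟩
  · rw [← h.peq hb (hb.perm (p' := p) (q' := r) (r' := q) (t' := t) (by simp)) (h.p1 hb) (h.p3 hb)
      (h.p2 hb)]
    exact C.ip_add _ _ _
  · rw [← h.peq hb (hb.perm (p' := q) (q' := r) (r' := p) (t' := t) (by simp)) (h.p2 hb) (h.p3 hb)
      (h.p1 hb)]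
    exact C.ip_add _ _ _

end bas

/-- The K-move: `z` lies on the lines `p + q` and `l`, and on the plane `p + q + r`, whose
complement `t` lies on `l`. -/
theorem kmove {p q r t : Pt} (hb : IsBas p q r t) {z l : T} (hz : C.nrm z ≤ 1) (hd : C.ip z J = 1)
    (hl : C.nrm l = 2) (_hdl : C.ip l J = 2) (ht : 1 ≤ C.ip l (P t))
    (h1 : 1 ≤ C.ip z (C.add (P p) (P q))) (h2 : 1 ≤ C.ip z l) (h3 : 0 ≤ C.ip z (P r)) (g : T) :
    C.ip g (C.add (C.add (P p) (P q)) (P r)) + C.ip g l - C.ip g J ≤ C.ip g z := by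
  have a1 := h.cmp hb l
  have a2 := C.ip_add z (C.add (P p) (P q)) (P r)
  refine h.meet hz ?_ (by linarith) g
  rw [h.np hb, h.dp, C.ip_symm _ l]
  linarith

end GS

end Crest.Agent.R196
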