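import Crest.Agent.R196.FinalA

/-! Row 196: the contradiction in the graded cone. -/

set_option autoImplicit false

universe u

namespace Crest.Agent.R196

namespace GS

variable {T : Type u} {C : Cone T} {N J : T} {P : Pt → T} (h : GS C N J P)
include h

theorem o {p q r t : Pt} (hb : IsBas p q r t) (y z r' t' : Pt)
    (hp : ∀ w ∈ [p, q, r, t], w ∈ [y, z, r', t'] := by simp) : C.ip (P y) (P z) = 0 :=
  h.o2 (hb.perm hp)

open Pt

/-- the point `r₅` where the lines `a + v` and `x + f` meet -/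
theorem exists_r5 : ∃ r : T, C.nrm r = 1 ∧ C.ip r J = 1 ∧
    1 ≤ C.ip r (C.add (P a) (P v)) ∧ 1 ≤ C.ip r (C.add (P x) (P f)) ∧ C.ip r (P c) = 0 ∧
    0 ≤ C.ip r (P u) ∧ 0 ≤ C.ip r (P b) ∧ 0 ≤ C.ip r (P k) ∧ 0 ≤ C.ip r (P e) := by
  have bxf : IsBas x f c a := B_xfca
  have nxf := h.nl bxf
  have nav := h.nl B_avcx
  set Pi := C.add (C.add (P a) (P v)) (P c) with hPi
  set l := C.add (P x) (P f) with hl
  set l' := C.add (P a) (P v) with hl'
  have lx : C.ip l (P x) = 1 := by rw [C.ip_symm]; exact h.l1 bxf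
  have la : C.ip l' (P a) = 1 := by rw [C.ip_symm]; exact h.l1 B_avcx
  have dl : C.ip l J = 2 := h.dl _ _
  have dl' : C.ip l' J = 2 := h.dl _ _
  have f2 : 1 ≤ C.ip l l' := h.fl2
  have lc : C.ip (P c) l = 0 := h.o3 bxf
  have l'c : C.ip (P c) l' = 0 := h.o3 B_avcx
  have up : C.ip l Pi ≤ 1 := by have := h.cmp B_avcx l; linarith
  have lo : 1 ≤ C.ip l Pi := by
    have := C.ip_add l l' (P c)
    rw [C.ip_symm l (P c)] at this
    linarith
  have l'Pi : 2 ≤ C.ip l' Pi := by
    have := C.ip_add l' l' (P c)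
    rw [C.ip_self, C.ip_symm l' (P c)] at this
    linarith
  set r := C.add (C.add Pi l) N with hr
  have ge : ∀ y, C.ip y Pi + C.ip y l - C.ip y J ≤ C.ip r y := fun y => by
    rw [C.ip_symm r]; exact h.ip_mt y Pi l
  have nr : C.nrm r ≤ 1 := by
    rw [hr, h.nrm_mt, h.np B_avcx, h.dp, C.ip_symm Pi l]; linarith
  have dr : C.ip r J = 1 := by rw [hr, h.deg_mt, h.dp]; linarith
  have rl : 1 ≤ C.ip r l := by have := ge l; rw [C.ip_self] at this; linarith
  have rl' : 1 ≤ C.ip r l' := by have := ge l'; rw [C.ip_symm l' l] at this; linarith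
  have rc : 0 ≤ C.ip r (P c) := by have := ge (P c); have := h.p3 B_avcx; have := h.d1 c; linarith
  have rx : 0 ≤ C.ip r (P x) := by
    have := ge (P x); have := h.p4 B_avcx; have := h.d1 x; have := h.l1 bxf; linarith
  have ru : 0 ≤ C.ip r (P u) := by
    have h1 := ge (P u)
    have h2 := (h.pge B_avcx (P u)).2.2
    have h3 := h.leq (B_aucx.perm (p' := u) (q' := c) (r' := a) (t' := x) (by simp))
      (B_avcx.perm (p' := v) (q' := c) (r' := a) (t' := x) (by simp))
      (h.col (B_aucx.perm (p' := u) (q' := c) (r' := a) (t' := x) (by simp)) C_vuc)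
      (h.l2 (B_aucx.perm (p' := u) (q' := c) (r' := a) (t' := x) (by simp))).ge (P u)
    rw [h.l1 (B_aucx.perm (p' := u) (q' := c) (r' := a) (t' := x) (by simp))] at h3
    have h4 := h.o B_aucx u a c x
    have h5 : C.ip (P u) l = 0 := h.o3 B_xfua
    have := h.d1 u
    linarith
  -- move to the plane `x + f + c`
  have k1 := h.kmove bxf nr dr nav dl' la.ge rl rl' rc
  have rg : 0 ≤ C.ip r (P g) := by
    have h1 := k1 (P g)
    have h2 := (h.pge bxf (P g)).2.1
    have h3 := h.col (B_aucx.perm (p' := c) (q' := x) (r' := a) (t' := u) (by simp)) C_gcx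
    rw [C.ip_congr _ (C.add_comm _ _)] at h3
    have h4 := h.o B_gfax g f a x
    have h5 : C.ip (P g) l' = 0 := h.o3 B_avgx
    have := h.d1 g
    rw [C.ip_symm r]
    linarith
  have rb : 0 ≤ C.ip r (P b) := by
    have h1 := k1 (P b)
    have h2 := (h.pge bxf (P b)).2.2
    have h3 := h.leq (B_xbca.perm (p' := b) (q' := c) (r' := a) (t' := x) (by simp))
      (bxf.perm (p' := f) (q' := c) (r' := a) (t' := x) (by simp))
      (h.col (B_xbca.perm (p' := b) (q' := c) (r' := a) (t' := x) (by simp)) C_fbc)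
      (h.l2 (B_xbca.perm (p' := b) (q' := c) (r' := a) (t' := x) (by simp))).ge (P b)
    rw [h.l1 (B_xbca.perm (p' := b) (q' := c) (r' := a) (t' := x) (by simp))] at h3
    have h4 := h.o B_xbca b x a c
    have h5 : C.ip (P b) l' = 0 :=
      h.o3 (B_abvx.perm (p' := a) (q' := v) (r' := b) (t' := x) (by simp))
    have := h.d1 b
    rw [C.ip_symm r]
    linarith
  -- move to the plane `a + v + g`
  have rk : 0 ≤ C.ip r (P k) := by
    have h1 := h.kmove B_avgx nr dr nxf dl lx.ge rl' rl rg (P k)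
    have h2 := (h.pge B_avgx (P k)).2.1
    have h3 := h.col (B_agbu.perm (p' := g) (q' := a) (r' := b) (t' := u) (by simp)) C_kga
    rw [C.ip_congr _ (C.add_comm _ _)] at h3
    have h4 := h.o B_kvax k v a x
    have h5 : C.ip (P k) l = 0 :=
      h.o3 (B_kfax.perm (p' := x) (q' := f) (r' := k) (t' := a) (by simp))
    have := h.d1 k
    rw [C.ip_symm r]
    linarith
  -- move to the plane `x + f + u`
  have re : 0 ≤ C.ip r (P e) := by
    have h1 := h.kmove B_xfua nr dr nav dl' la.ge rl rl' ru (P e)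
    have h2 := (h.pge B_xfua (P e)).2.2
    have h3 := h.col (B_xfua.perm (p' := u) (q' := f) (r' := x) (t' := a) (by simp)) C_euf
    rw [C.ip_congr _ (C.add_comm _ _)] at h3
    have h4 := h.o B_xuea e x a u
    have h5 : C.ip (P e) l' = 0 :=
      h.o3 (B_avex.perm (p' := a) (q' := v) (r' := e) (t' := x) (by simp))
    have := h.d1 e
    rw [C.ip_symm r]
    linarith
  have nr' : C.nrm r = 1 := by
    rw [hr, h.nrm_mt, h.np B_avcx, h.dp, C.ip_symm Pi l]; linarith
  refine ⟨r, nr', dr, rl', rl, le_antisymm ?_ rc, ru, rb, rk, re⟩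
  have h1 := h.cmp (B_avcx.perm (p' := a) (q' := v) (r' := x) (t' := c) (by simp)) r
  have h2 := C.ip_add r l' (P x)
  linarith

/-- the point `r₄` where the lines `a + b` and `x + u` meet -/
theorem exists_r4 : ∃ r : T, C.nrm r ≤ 1 ∧ C.ip r J = 1 ∧
    1 ≤ C.ip r (C.add (P a) (P b)) ∧ 1 ≤ C.ip r (C.add (P x) (P u)) ∧ C.ip r (P k) = 0 ∧
    0 ≤ C.ip r (P g) ∧ 0 ≤ C.ip r (P c) ∧ 0 ≤ C.ip r (P v) ∧ 0 ≤ C.ip r (P e) := by
  have bab : IsBas a b g u := B_agbu.perm (by simp)
  have nab := h.nl bab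
  have nxu := h.nl B_xuga
  set Pi := C.add (C.add (P a) (P b)) (P g) with hPi
  set l := C.add (P x) (P u) with hl
  set l' := C.add (P a) (P b) with hl'
  have lx : C.ip l (P x) = 1 := by rw [C.ip_symm]; exact h.l1 B_xuga
  have lu : C.ip l (P u) = 1 := by rw [C.ip_symm]; exact h.l2 B_xuga
  have la : C.ip l' (P a) = 1 := by rw [C.ip_symm]; exact h.l1 bab
  have dl : C.ip l J = 2 := h.dl _ _
  have dl' : C.ip l' J = 2 := h.dl _ _
  have f1 : 1 ≤ C.ip l l' := h.fl1
  have lg : C.ip (P g) l = 0 := h.o3 B_xuga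
  have l'g : C.ip (P g) l' = 0 := h.o3 bab
  have up : C.ip l Pi ≤ 1 := by have := h.cmp bab l; linarith
  have lo : 1 ≤ C.ip l Pi := by
    have := C.ip_add l l' (P g)
    rw [C.ip_symm l (P g)] at this
    linarith
  have l'Pi : 2 ≤ C.ip l' Pi := by
    have := C.ip_add l' l' (P g)
    rw [C.ip_self, C.ip_symm l' (P g)] at this
    linarith
  set r := C.add (C.add Pi l) N with hr
  have ge : ∀ y, C.ip y Pi + C.ip y l - C.ip y J ≤ C.ip r y := fun y => by
    rw [C.ip_symm r]; exact h.ip_mt y Pi l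
  have nr : C.nrm r ≤ 1 := by
    rw [hr, h.nrm_mt, h.np bab, h.dp, C.ip_symm Pi l]; linarith
  have dr : C.ip r J = 1 := by rw [hr, h.deg_mt, h.dp]; linarith
  have rl : 1 ≤ C.ip r l := by have := ge l; rw [C.ip_self] at this; linarith
  have rl' : 1 ≤ C.ip r l' := by have := ge l'; rw [C.ip_symm l' l] at this; linarith
  have rg : 0 ≤ C.ip r (P g) := by have := ge (P g); have := h.p3 bab; have := h.d1 g; linarith
  have ra : 0 ≤ C.ip r (P a) := by
    have := ge (P a); have := h.p1 bab; have := h.d1 a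
    have : C.ip (P a) l = 0 := h.o3 B_xuak
    linarith
  have rk : 0 ≤ C.ip r (P k) := by
    have h1 := ge (P k)
    have h2 := (h.pge bab (P k)).2.1
    have h3 := h.col (B_agbu.perm (p' := g) (q' := a) (r' := b) (t' := u) (by simp)) C_kga
    rw [C.ip_congr _ (C.add_comm _ _)] at h3
    have h4 := h.o B_kbax k b a x
    have h5 : C.ip (P k) l = 0 := h.o3 B_xukm
    have := h.d1 k
    linarith
  -- move to the plane `x + u + g`
  have rc : 0 ≤ C.ip r (P c) := by
    have h1 := h.kmove B_xuga nr dr nab dl' la.ge rl rl' rg (P c)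
    have h2 := (h.pge B_xuga (P c)).2.1
    have bxc : IsBas x c a u := B_aucx.perm (by simp)
    have h0 := h.col (B_aucx.perm (p' := c) (q' := x) (r' := a) (t' := u) (by simp)) C_gcx
    rw [C.ip_congr _ (C.add_comm _ _)] at h0
    have h3 := h.leq bxc (B_xuga.perm (p' := x) (q' := g) (r' := a) (t' := u) (by simp))
      (h.l1 bxc).ge h0 (P c)
    rw [h.l2 bxc] at h3
    have h4 := h.o B_aucx c u a x
    have h5 : C.ip (P c) l' = 0 :=
      h.o3 (B_agbc.perm (p' := a) (q' := b) (r' := c) (t' := g) (by simp))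
    have := h.d1 c
    rw [C.ip_symm r]
    linarith
  -- move to the plane `x + u + c`
  have rv : 0 ≤ C.ip r (P v) := by
    have bxu : IsBas x u c a := B_aucx.perm (by simp)
    have h1 := h.kmove bxu nr dr nab dl' la.ge rl rl' rc (P v)
    have h2 := (h.pge bxu (P v)).2.2
    have h3 := h.col (B_aucx.perm (p' := u) (q' := c) (r' := a) (t' := x) (by simp)) C_vuc
    have h4 := h.o B_avcx v x a c
    have h5 : C.ip (P v) l' = 0 := h.o3 B_abvx
    have := h.d1 v
    rw [C.ip_symm r]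
    linarith
  -- move to the plane `a + b + v`
  have re : 0 ≤ C.ip r (P e) := by
    have h1 := h.kmove B_abvx nr dr nxu dl lx.ge rl' rl rv (P e)
    have h2 := (h.pge B_abvx (P e)).2.2
    have h3 := h.col (B_abvx.perm (p' := b) (q' := v) (r' := x) (t' := a) (by simp)) C_ebv
    have h4 := h.o B_xuea e a x u
    have h5 : C.ip (P e) l = 0 := h.o3 B_xuea
    have := h.d1 e
    rw [C.ip_symm r]
    linarith
  refine ⟨r, nr, dr, rl', rl, le_antisymm ?_ rk, rg, rc, rv, re⟩
  have h1 := h.cmp B_xuak r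
  have h2 := C.ip_add r l (P a)
  linarith

end GS

end Crest.Agent.R196
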