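import Crest.Agent.R196.Quad

/-! Row 196: tied energies give `LevelData`. -/

set_option autoImplicit false

universe u

namespace Crest.Agent.R196

open Finset

/-- a cone with rescaled squared distance -/
def gpScale {V : Type u} (C : Cone V) {c : ℝ} (hc : 0 ≤ c) : Cone V where
  D x y := c * C.D x y
  mid := C.mid
  D_self x := by rw [C.D_self, mul_zero]
  D_symm x y := by rw [C.D_symm]
  D_nonneg x y := mul_nonneg hc (C.D_nonneg x y)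
  tri x y z t h0 h1 := by
    have := mul_le_mul_of_nonneg_left (C.tri x y z t h0 h1) hc
    linarith
  CN g e f := by
    have := mul_le_mul_of_nonneg_left (C.CN g e f) hc
    linarith
  o := C.o
  dbl := C.dbl
  half x y := by rw [C.half]; ring
  half_dbl x := by rw [C.half_dbl, mul_zero]

theorem gp_D {V : Type u} (C : Cone V) {c : ℝ} (hc : 0 ≤ c) (x y : V) :
    (gpScale C hc).D x y = c * C.D x y := rfl

theorem gp_nrm {V : Type u} (C : Cone V) {c : ℝ} (hc : 0 ≤ c) (x : V) :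
    (gpScale C hc).nrm x = c * C.nrm x := rfl

theorem gp_ip {V : Type u} (C : Cone V) {c : ℝ} (hc : 0 ≤ c) (x y : V) :
    (gpScale C hc).ip x y = c * C.ip x y := by
  simp only [Cone.ip, gp_nrm, gp_D]
  ring

theorem gp_num {τ a₀ a₁ a₂ : ℝ} (hτ : 0 < τ) (hτ1 : τ ≤ 1 / 100) (h0 : 0 < a₀)
    (m1 : (1 - τ) * a₀ ≤ (1 + 5 * τ) * a₁) (m2 : (1 - τ) * a₁ ≤ (1 + 5 * τ) * a₂)
    (m3 : a₂ ≤ (1 + τ) * a₀) :
    a₁ ≤ 2 * a₀ ∧ (1 + τ) * a₁ ≤ (1 + 100 * τ) * a₀ ∧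
      (2 - 100 * τ) * a₀ ≤ (1 - τ) * a₀ + (1 - 3 * τ) * a₁ ∧
      (1 + τ) * ((1 + τ) * a₁ + (1 + 5 * τ) * a₂) ≤ (2 + 100 * τ) * a₀ := by
  have t0 : 0 < τ * a₀ := mul_pos hτ h0
  have t1 : τ * (τ * a₀) ≤ 1 / 100 * (τ * a₀) := mul_le_mul_of_nonneg_right hτ1 t0.le
  have t2 : τ * a₀ ≤ 1 / 100 * a₀ := mul_le_mul_of_nonneg_right hτ1 h0.le
  have b2 : (1 + 5 * τ) * a₂ ≤ (1 + 7 * τ) * a₀ := by
    have := mul_le_mul_of_nonneg_left m3 (show 0 ≤ 1 + 5 * τ by linarith)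
    nlinarith
  have u : a₁ ≤ (1 + 9 * τ) * a₀ := by
    refine le_of_mul_le_mul_left ?_ (show 0 < 1 - τ by linarith)
    nlinarith
  have l : (1 - 6 * τ) * a₀ ≤ a₁ := by
    refine le_of_mul_le_mul_left ?_ (show 0 < 1 + 5 * τ by linarith)
    nlinarith
  have u' : (1 + τ) * a₁ ≤ (1 + 11 * τ) * a₀ := by
    have := mul_le_mul_of_nonneg_left u (show 0 ≤ 1 + τ by linarith)
    nlinarith
  refine ⟨by nlinarith, by nlinarith, ?_, ?_⟩
  · have := mul_le_mul_of_nonneg_left l (show 0 ≤ 1 - 3 * τ by linarith)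
    nlinarith
  · have := mul_le_mul_of_nonneg_left (add_le_add u' b2) (show 0 ≤ 1 + τ by linarith)
    nlinarith

/-- Take `η = τ` small (`≤ min ρ 1 / 100`).  By `quad_mono` twice,
`(1 - τ) a₀ ≤ (1 + 5 τ) a₁`, `(1 - τ) a₁ ≤ (1 + 5 τ) a₂ ≤ (1 + 5 τ) (1 + η) a₀`.  Let `C` be the
tangent cone at `p₀` with `D` multiplied by `1 / a₀` (all axioms are homogeneous),
`w x = lg (s₀ x • p₁)`, `χ β p = lg (γ₀ β p • p₂)`.  `sup`: `sup_bound`, `a₁ ≤ 2 a₀`, `Big`;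
`slt`: `slot_bound`; `big`: `star`; `flg`: `flag_bound` and `quad_up` for the second level. -/
theorem gap_level {ρ : ℝ} (hρ : 0 < ρ) :
    ∃ η τ : ℝ, 0 < η ∧ 0 < τ ∧ τ ≤ 1 ∧
      ∀ (G : Type) [Group G] (X : Type u) [MulAction G X] (H : Had X),
        (∀ (g : G) x y, H.D (g • x) (g • y) = H.D x y) →
      ∀ (F₀ F₁ F₂ : Type) [Field F₀] [Fintype F₀] [DecidableEq F₀] [Field F₁] [Fintype F₁]
        [DecidableEq F₁] [Fintype F₂] [Nonempty F₂] (k Dd : ℕ) (ℓ₀ : Lab F₀ F₁) (ℓ₁ : Lab F₁ F₂)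
        (s₀ : F₀ → G) (s₁ : F₁ → G) (s₂ : F₂ → G) (γ₀ : Bool → F₀ × F₀ → G)
        (γ₁ : Bool → F₁ × F₁ → G) (p₀ p₁ p₂ p₃ : X),
        2 ≤ k * τ ^ 2 → Big F₀ F₁ ρ k Dd → k ^ 2 ≤ Fintype.card F₁ →
        Equi τ k Dd ℓ₀ → Equi τ k Dd ℓ₁ → LevRel s₀ s₁ ℓ₀ γ₀ → LevRel s₁ s₂ ℓ₁ γ₁ →
        (H.IsMin p₀ fun x => s₀ x • p₁) → (H.IsMin p₁ fun x => s₁ x • p₂) →
        (H.IsMin p₂ fun x => s₂ x • p₃) → 0 < H.en p₀ (fun x => s₀ x • p₁) →
        H.en p₂ (fun x => s₂ x • p₃) ≤ (1 + η) * H.en p₀ (fun x => s₀ x • p₁) →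
        ∃ (T : Type u) (C : Cone T) (w : F₀ → T) (χ : Bool → F₀ × F₀ → T), LevelData C w χ ρ := by
  have hm : 0 < min ρ 1 := lt_min hρ one_pos
  have hm1 := min_le_left ρ 1
  have hm2 := min_le_right ρ 1
  refine ⟨min ρ 1 / 100, min ρ 1 / 100, by positivity, by positivity, by linarith, ?_⟩
  generalize hτ' : min ρ 1 / 100 = τ
  have hτ : 0 < τ := by linarith
  have hτ1 : τ ≤ 1 / 100 := by linarith
  have hτρ : 100 * τ ≤ ρ := by linarith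
  intro G _ X _ H hiso F₀ F₁ F₂ _ _ _ _ _ _ _ _ k Dd ℓ₀ ℓ₁ s₀ s₁ s₂ γ₀ γ₁ p₀ p₁ p₂ p₃ hk hB hq1 he0
    he1 hr0 hr1 h0 h1 h2 ha0 h20
  have hq0 : (0 : ℝ) < Fintype.card F₀ := Nat.cast_pos.2 Fintype.card_pos
  have hq1' : (0 : ℝ) < Fintype.card F₁ := Nat.cast_pos.2 Fintype.card_pos
  have m1 := quad_mono H hiso hτ hk hB.1 he0 hr0 p₀ p₁ p₂ h0 h1
  have m2 := quad_mono H hiso hτ hk hq1 he1 hr1 p₁ p₂ p₃ h1 h2
  obtain ⟨n1, n2, n3, n4⟩ := gp_num hτ hτ1 ha0 m1 m2 h20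
  have hsup := sup_bound H hiso he0 hr0 p₀ p₁ p₂
  have hslt := slot_bound H hiso he0 hr0 p₁ p₂
  have hbig := star H hiso hτ hk hB.1 he0 hr0 p₀ p₁ p₂ h1
  have hflg := flag_bound H hiso he0 hr0 p₂
  have hup := quad_up H hiso hτ hk hq1 he1 hr1 p₁ p₂ p₃ h2
  have hen := qd_en H p₀ fun x => s₀ x • p₁
  obtain ⟨T, C, lg, hT⟩ := H.exists_tangent p₀
  have hcen := hT.cen F₀ (fun x => s₀ x • p₁) h0
  generalize H.en p₀ (fun x => s₀ x • p₁) = a₀ at *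
  generalize H.en p₁ (fun x => s₁ x • p₂) = a₁ at *
  generalize H.en p₂ (fun x => s₂ x • p₃) = a₂ at *
  have hc : 0 ≤ a₀⁻¹ := inv_nonneg.2 ha0.le
  have hρa : 100 * τ * a₀ ≤ ρ * a₀ := mul_le_mul_of_nonneg_right hτρ ha0.le
  refine ⟨T, gpScale C hc, fun x => lg (s₀ x • p₁), fun β p => lg (γ₀ β p • p₂), ?_, ?_, ?_, ?_,
    ?_, ?_⟩
  · intro g
    simp only [gp_ip]
    rw [← Finset.mul_sum]
    exact mul_nonpos_of_nonneg_of_nonpos hc (hcen g)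
  · simp only [gp_nrm, hT.nrm]
    rw [← Finset.mul_sum, hen]
    field_simp
  · intro x
    rw [gp_nrm, hT.nrm, inv_mul_le_iff₀ ha0]
    refine le_of_mul_le_mul_right ((hsup x).trans ?_) hq0
    have b1 := mul_le_mul_of_nonneg_right hB.2 ha0.le
    have b2 := mul_le_mul_of_nonneg_left n1
      (show (0 : ℝ) ≤ 2 * Dd * Fintype.card F₁ by positivity)
    nlinarith
  · intro β σ
    simp only [gp_D]
    rw [← Finset.mul_sum, inv_mul_le_iff₀ ha0]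
    refine (Finset.sum_le_sum fun p _ => hT.le _ _).trans ((hslt β σ).trans ?_)
    rw [← mul_assoc]
    exact mul_le_mul_of_nonneg_right (by linarith) (by positivity)
  · intro β
    simp only [gp_nrm, hT.nrm]
    rw [← Finset.mul_sum, le_inv_mul_iff₀ ha0]
    refine le_trans ?_ (hbig β)
    rw [← mul_assoc]
    exact mul_le_mul_of_nonneg_right (by linarith) (by positivity)
  · simp only [gp_D]
    rw [← Finset.mul_sum, inv_mul_le_iff₀ ha0]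
    refine (Finset.sum_le_sum fun p _ => hT.le _ _).trans ?_
    refine le_of_mul_le_mul_right (hflg.trans ?_) (pow_pos hq1' 2)
    refine (mul_le_mul_of_nonneg_left hup (by positivity)).trans ?_
    have b1 : (1 + τ) * ((1 + τ) * a₁ + (1 + 5 * τ) * a₂) ≤ a₀ * (2 + ρ) := by linarith
    have b2 := mul_le_mul_of_nonneg_right b1
      (show (0 : ℝ) ≤ (Fintype.card F₀ : ℝ) ^ 3 * (Fintype.card F₁ : ℝ) ^ 2 by positivity)
    linarith

end Crest.Agent.R196
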