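import Crest.Agent.R196.VK
import Crest.Agent.R184.Good

/-! From diagrams to the group. -/

set_option autoImplicit false

namespace Crest.Agent.R196

open Crest.Agent.R184 (TP flp Dart Planar HasCliqueMinor)

namespace HES

variable {V S H : Type} (D : HES V S H) {rev : H → H}

theorem good_l1_term (g : (D.tp rev).Grp) (h : H) :
    ((D.term rev g h).sum fun _ k => k.natAbs) ≤ 1 := by
  unfold term
  split_ifs
  · simp
  · rw [← Finsupp.single_neg, Finsupp.sum_single_index (by simp)]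
    simp
  · simp

theorem good_tri_rev (hc : D.IsConf rev) (h : H) :
    FreeGroup.mk (D.tri rev (rev h)) = (FreeGroup.mk (D.tri rev h))⁻¹ := by
  rw [FreeGroup.inv_mk]
  simp [tri, side, FreeGroup.invRev, hc.invol, hc.lett_rev, flp]

theorem good_term_rev (hc : D.IsConf rev) (g : (D.tp rev).Grp) (h : H) :
    D.term rev g (rev h) = -D.term rev g h := by
  have h1 : (D.lett (rev h)).2 = !(D.lett h).2 := by rw [hc.lett_rev]; rfl
  unfold term
  by_cases hb : (D.lett h).2 = true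
  · have h2 : ¬ (D.lett (rev h)).2 = true := by simp [h1, hb]
    have h3 : (D.lett (rev (rev h))).2 = true := by rw [hc.invol]; exact hb
    rw [dif_neg h2, dif_pos h3, dif_pos hb]
    simp only [hc.invol]
  · have h2 : (D.lett (rev h)).2 = true := by simpa [h1] using hb
    rw [dif_pos h2, dif_neg hb, dif_pos h2, neg_neg]

theorem good_tri_pos {h : H} (hb : (D.lett h).2 = true) :
    FreeGroup.mk (D.tri rev h) = (D.tp rev).rel ⟨h, hb⟩ := by
  simp only [tri, side, hb]
  rfl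

theorem good_tri (hc : D.IsConf rev) (g : (D.tp rev).Grp) (h : H) :
    (D.tp rev).pr (FreeGroup.mk (D.tri rev h)) = 1 ∧
      (D.tp rev).goodFox g (FreeGroup.mk (D.tri rev h)) = (D.tp rev).bd (D.term rev g h) := by
  have pos : ∀ h : H, (D.lett h).2 = true → (D.tp rev).pr (FreeGroup.mk (D.tri rev h)) = 1 ∧
      (D.tp rev).goodFox g (FreeGroup.mk (D.tri rev h)) = (D.tp rev).bd (D.term rev g h) := by
    intro h hb
    rw [D.good_tri_pos hb, term, dif_pos hb]
    exact ⟨R184.TP.good_pr_rel _ _, R184.TP.goodFox_rel _ _ _⟩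
  by_cases hb : (D.lett h).2 = true
  · exact pos h hb
  · have h2 : (D.lett (rev h)).2 = true := by
      rw [hc.lett_rev]
      simpa [flp] using hb
    obtain ⟨h3, h4⟩ := pos _ h2
    rw [← hc.invol h, D.good_tri_rev hc (rev h), D.good_term_rev hc g (rev h), map_inv,
      R184.TP.goodFox_inv, h3, inv_one, mul_one, h4, map_neg]
    exact ⟨rfl, rfl⟩

/-- `n` is a product of conjugates of triangles, with total 2-chain `c` -/
def GoodRel (rev : H → H) (n : FreeGroup (V ⊕ S))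
    (c : (D.tp rev).Grp × {h : H // (D.lett h).2 = true} →₀ ℤ) : Prop :=
  ∃ l : List (FreeGroup (V ⊕ S) × H),
    (l.map fun x => x.1 * FreeGroup.mk (D.tri rev x.2) * x.1⁻¹).prod = n ∧
    (l.map fun x => D.term rev ((D.tp rev).pr x.1) x.2).sum = c

theorem goodRel_one : D.GoodRel rev 1 0 := ⟨[], rfl, rfl⟩

theorem goodRel_single (u : FreeGroup (V ⊕ S)) (h : H) :
    D.GoodRel rev (u * FreeGroup.mk (D.tri rev h) * u⁻¹) (D.term rev ((D.tp rev).pr u) h) :=
  ⟨[(u, h)], by simp, by simp⟩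

theorem goodRel_mul {n n' : FreeGroup (V ⊕ S)}
    {c c' : (D.tp rev).Grp × {h : H // (D.lett h).2 = true} →₀ ℤ} (h : D.GoodRel rev n c)
    (h' : D.GoodRel rev n' c') : D.GoodRel rev (n * n') (c + c') := by
  obtain ⟨l, rfl, rfl⟩ := h
  obtain ⟨l', rfl, rfl⟩ := h'
  exact ⟨l ++ l', by simp, by simp⟩

theorem goodRel_inv (hc : D.IsConf rev) {n : FreeGroup (V ⊕ S)}
    {c : (D.tp rev).Grp × {h : H // (D.lett h).2 = true} →₀ ℤ} (h : D.GoodRel rev n c) :
    D.GoodRel rev n⁻¹ (-c) := by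
  obtain ⟨l, rfl, rfl⟩ := h
  induction l with
  | nil => simpa using D.goodRel_one
  | cons x l ih =>
    have := D.goodRel_mul ih (D.goodRel_single x.1 (rev x.2))
    rw [D.good_tri_rev hc, D.good_term_rev hc] at this
    simpa [mul_assoc] using this

theorem goodRel_bd (hc : D.IsConf rev) {n : FreeGroup (V ⊕ S)}
    {c : (D.tp rev).Grp × {h : H // (D.lett h).2 = true} →₀ ℤ} (h : D.GoodRel rev n c) :
    (D.tp rev).pr n = 1 ∧ (D.tp rev).bd c = (D.tp rev).goodFox 1 n := by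
  obtain ⟨l, rfl, rfl⟩ := h
  induction l with
  | nil => exact ⟨map_one _, map_zero _⟩
  | cons x l ih =>
    obtain ⟨h1, h2⟩ := D.good_tri hc ((D.tp rev).pr x.1) x.2
    have h3 : (D.tp rev).pr (x.1 * FreeGroup.mk (D.tri rev x.2) * x.1⁻¹) = 1 := by
      simp [h1]
    rw [List.map_cons, List.map_cons, List.prod_cons, List.sum_cons, map_mul, h3, ih.1, map_add,
      ih.2, R184.TP.goodFox_mul, h3, mul_one, ← h2]
    refine ⟨rfl, ?_⟩
    congr 1
    rw [R184.TP.goodFox_mul, R184.TP.goodFox_mul, R184.TP.goodFox_inv]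
    simp [h1]

theorem goodRel_ker (hc : D.IsConf rev) {n : FreeGroup (V ⊕ S)} (hn : (D.tp rev).pr n = 1) :
    ∃ c, D.GoodRel rev n c := by
  let N : Subgroup (FreeGroup (V ⊕ S)) :=
    { carrier := {n | ∃ c, D.GoodRel rev n c}
      one_mem' := ⟨0, D.goodRel_one⟩
      mul_mem' := fun ⟨_, h⟩ ⟨_, h'⟩ => ⟨_, D.goodRel_mul h h'⟩
      inv_mem' := fun ⟨_, h⟩ => ⟨_, D.goodRel_inv hc h⟩ }
  have hN : N.Normal := ⟨by
    rintro _ ⟨_, l, rfl, rfl⟩ u
    induction l with
    | nil => simp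
    | cons x l ih =>
      have h1 : u * x.1 * FreeGroup.mk (D.tri rev x.2) * (u * x.1)⁻¹ ∈ N :=
        ⟨_, D.goodRel_single (u * x.1) x.2⟩
      simpa [mul_assoc] using N.mul_mem h1 ih⟩
  have h1 : Subgroup.normalClosure (Set.range (D.tp rev).rel) ≤ N := by
    refine Subgroup.normalClosure_le_normal ?_
    rintro _ ⟨⟨h, hb⟩, rfl⟩
    refine ⟨D.term rev ((D.tp rev).pr 1) h, ?_⟩
    simpa [D.good_tri_pos hb] using D.goodRel_single (rev := rev) 1 h
  exact h1 (PresentedGroup.mk_eq_one_iff.1 hn)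

theorem goodRel_all (hc : D.IsConf rev)
    (c : (D.tp rev).Grp × {h : H // (D.lett h).2 = true} →₀ ℤ) : ∃ n, D.GoodRel rev n c := by
  let N : AddSubgroup ((D.tp rev).Grp × {h : H // (D.lett h).2 = true} →₀ ℤ) :=
    { carrier := {c | ∃ n, D.GoodRel rev n c}
      zero_mem' := ⟨1, D.goodRel_one⟩
      add_mem' := fun ⟨_, h⟩ ⟨_, h'⟩ => ⟨_, D.goodRel_mul h h'⟩
      neg_mem' := fun ⟨_, h⟩ => ⟨_, D.goodRel_inv hc h⟩ }
  change c ∈ N
  induction c using Finsupp.induction_linear with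
  | zero => exact N.zero_mem
  | add a b ha hb => exact N.add_mem ha hb
  | single x k =>
    obtain ⟨g, h, hb⟩ := x
    obtain ⟨u, rfl⟩ : ∃ u, (D.tp rev).pr u = g := PresentedGroup.mk_surjective _ g
    have h1 : D.term rev ((D.tp rev).pr u) h ∈ N := ⟨_, D.goodRel_single u h⟩
    rw [term, dif_pos hb] at h1
    simpa using N.zsmul_mem h1 k

end HES

theorem good_of_lin {V S H : Type} (D : HES V S H) {rev : H → H} (hc : D.IsConf rev)
    (hg : D.Girth rev 1) {K : ℕ}
    (hK : ∀ (w : List ((V ⊕ S) × Bool)) (Δ : Diag D rev w), Fintype.card Δ.T ≤ K * w.length) :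
    (D.tp rev).Aspherical ∧ (D.tp rev).LinIso := by
  have vk : ∀ w c, D.GoodRel rev (FreeGroup.mk w) c → ∃ (Δ : Diag D rev w)
      (base : Δ.T → (D.tp rev).Grp), ∑ t, D.term rev (base t) (Δ.θ t) = c := by
    rintro w _ ⟨l, hl, rfl⟩
    exact vanKampen D hc hg l w hl
  refine ⟨?_, ⟨K, fun w hw => ?_⟩⟩
  · refine R184.TP.good_aspherical _ (D.GoodRel rev) (fun _ _ _ _ => D.goodRel_mul)
      (fun n c c' h h' => ?_) (fun _ _ => D.goodRel_bd hc) (fun _ => D.goodRel_ker hc)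
      (D.goodRel_all hc)
    have h1 := D.goodRel_mul h (D.goodRel_inv hc h')
    rw [mul_inv_cancel] at h1
    obtain ⟨Δ, base, h2⟩ := vk [] _ h1
    have h3 := hK [] Δ
    have : IsEmpty Δ.T := Fintype.card_eq_zero_iff.1 (by simpa using h3)
    rw [Finset.univ_eq_empty, Finset.sum_empty] at h2
    exact eq_of_sub_eq_zero (by rw [sub_eq_add_neg, ← h2])
  · obtain ⟨c, h⟩ := D.goodRel_ker hc hw
    obtain ⟨Δ, base, h2⟩ := vk w c h
    refine ⟨c, (D.goodRel_bd hc h).2, ?_⟩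
    rw [← h2]
    exact (R184.good_l1_sum _ _ fun t => D.good_l1_term _ _).trans (hK w Δ)

end Crest.Agent.R196
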