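import Crest.Agent.R196.VEuler
import Crest.Agent.R184.Minor

/-! No `K₇` minor in the dual graph of a diagram. -/

set_option autoImplicit false

namespace Crest.Agent.R196

open Crest.Agent.R184 (TP flp Dart Planar HasCliqueMinor)

open Finset

theorem Diag.not_hasCliqueMinor {V S H : Type} {D : HES V S H} {rev : H → H}
    {w : List ((V ⊕ S) × Bool)} (Δ : Diag D rev w) : ¬ HasCliqueMinor Δ.graph 7 := by
  classical
  rintro ⟨A, hne, hconn, hdis, hadj⟩
  have hac : ∀ (a : Fin 3) (t s : Δ.T), Δ.across a t = some s →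
      ∃ a', Δ.α (.inl (t, a)) = .inl (s, a') := by
    intro a t s h
    unfold Diag.across at h
    rcases hE : Δ.α (.inl (t, a)) with ⟨t', a'⟩ | k
    · rw [hE] at h
      obtain rfl := Option.some.inj h
      exact ⟨a', rfl⟩
    · rw [hE] at h
      simp at h
  have hrel : ∀ t s : Δ.T, (Δ.nx t = some s ∨ Δ.mu t = some s) →
      ∃ a a', Δ.α (.inl (t, a)) = .inl (s, a') := fun t s h =>
    h.elim (fun h => ⟨2, hac 2 t s h⟩) fun h => ⟨1, hac 1 t s h⟩
  have hA : ∀ t s : Δ.T, Δ.graph.Adj t s → ∃ a a', Δ.α (.inl (t, a)) = .inl (s, a') := by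
    intro t s h
    rcases ((SimpleGraph.fromRel_adj _ _ _).1 h).2 with h | h
    · exact hrel t s h
    · obtain ⟨a, a', h⟩ := hrel s t h
      exact ⟨a', a, by rw [← h, Δ.α_α]⟩
  let o : Δ.T → Option (Fin 7) := fun t => if h : ∃ i, t ∈ A i then some h.choose else none
  have ho : ∀ t i, o t = some i ↔ t ∈ A i := by
    intro t i
    constructor
    · intro h
      simp only [o] at h
      split_ifs at h with h1
      exact Option.some.inj h ▸ h1.choose_spec
    · intro h
      have h1 : ∃ i, t ∈ A i := ⟨i, h⟩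
      simp only [o, dif_pos h1, Option.some.injEq]
      by_contra h2
      exact Set.disjoint_left.1 (hdis _ _ h2) h1.choose_spec h
  choose b hb using hne
  have hd : ∀ i j, i ≠ j → ∃ d : Dart Δ.T w.length,
      R184.minorOwn o d = some i ∧ R184.minorOwn o (Δ.α d) = some j := by
    intro i j h
    obtain ⟨x, hx, y, hy, hxy⟩ := hadj i j h
    obtain ⟨a, a', hE⟩ := hA x y hxy
    exact ⟨.inl (x, a), (ho x i).2 hx, by rw [hE]; exact (ho y j).2 hy⟩
  have : Nonempty (Dart Δ.T w.length) := ⟨.inl (b 0, 0)⟩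
  choose! d hd1 hd2 using hd
  refine R184.minor_core Δ.α_α Δ.planar o b (fun i t ht => ?_)
    (fun i j => if i < j then d i j else Δ.α (d j i)) (fun i j h => ?_) fun i j h => ?_
  · have h1 := hconn i _ (hb i) t ((ho t i).1 ht)
    clear ht
    induction h1 with
    | refl => exact .refl
    | @tail u v _ huv ih => exact ih.tail ⟨hA u v huv.1, (ho u i).2 huv.2.1, (ho v i).2 huv.2.2⟩
  · split_ifs
    · exact hd1 i j h
    · exact hd2 j i h.symm
  · rcases lt_or_gt_of_ne h with h1 | h1
    · rw [if_pos h1, if_neg h1.not_gt]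
    · rw [if_neg h1.not_gt, if_pos h1, Δ.α_α]

end Crest.Agent.R196
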