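import Crest.Agent.R196.Defs
import Crest.Agent.R196.VGood
import Crest.Agent.R196.VMinor
import Crest.Agent.R184.HF
import Crest.Agent.R184.GlobalAux

/-! Row 196: from pieces to the group. -/

set_option autoImplicit false

namespace Crest.Agent.R196

open Finset
open Crest.Agent.R184 (globalRes globalRes_eq_some globalRes_eq_none globalCnt globalCnt_eq
  globalCnt_mono globalCnt_or globalCnt_sum globalCnt_pull globalCnt_true hyperfinite)

/-- the piece of a diagram carried by a set of triangles -/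
noncomputable def glPiece {V S H : Type} {D : HES V S H} {rev : H → H} {w : List ((V ⊕ S) × Bool)}
    (Δ : Diag D rev w) (P : Δ.T → Prop) : Piece D rev {t // P t} where
  θ t := Δ.θ t.1
  nx := globalRes _ Δ.nx
  mu := globalRes _ Δ.mu
  nx_inj _ _ _ h1 h2 := Subtype.ext (Δ.nx_inj (globalRes_eq_some.1 h1) (globalRes_eq_some.1 h2))
  nx_spec _ _ h := Δ.nx_spec (globalRes_eq_some.1 h)
  mu_symm _ _ h := globalRes_eq_some.2 (Δ.mu_symm (globalRes_eq_some.1 h))
  mu_spec _ _ h := Δ.mu_spec (globalRes_eq_some.1 h)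

theorem gl_lin (C0 : ℕ) : ∃ K : ℕ, ∀ (V S H : Type) (D : HES V S H) (rev : H → H),
    PieceIneq D rev K C0 → ∀ (w : List ((V ⊕ S) × Bool)) (Δ : Diag D rev w),
      Fintype.card Δ.T ≤ 4 * C0 * w.length := by
  classical
  obtain ⟨K, hK⟩ := hyperfinite 7 (2 * (2 * C0 + 1))
  refine ⟨K, fun V S H D rev hp w Δ => ?_⟩
  obtain ⟨R, cmp, hR, hcmp, hcard⟩ := hK Δ.T Δ.graph Δ.not_hasCliqueMinor
  have hlink : ∀ t s, (Δ.nx t = some s ∨ Δ.mu t = some s) → t ∉ R → s ∉ R → cmp t = cmp s := by
    intro t s h ht hs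
    by_cases hc : t = s
    · rw [hc]
    · exact hcmp _ _ ht hs ((SimpleGraph.fromRel_adj _ _ _).2 ⟨hc, Or.inl h⟩)
  set Qn : Δ.T → Prop := fun t => Δ.nx t = none ∨ ∃ s, Δ.nx t = some s ∧ s ∈ R with hQn
  set Qm : Δ.T → Prop := fun t => Δ.mu t = none ∨ ∃ s, Δ.mu t = some s ∧ s ∈ R with hQm
  have hpiece : ∀ k : ℕ, globalCnt (fun _ : {t // t ∉ R ∧ cmp t = k} => True) ≤
      C0 * (globalCnt (fun t : {t // t ∉ R ∧ cmp t = k} => Qn t.1) +
        globalCnt (fun t : {t // t ∉ R ∧ cmp t = k} => Qm t.1)) := by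
    intro k
    have h := hp _ (glPiece Δ fun t => t ∉ R ∧ cmp t = k) (by
      rw [Fintype.card_subtype]
      convert hcard k)
    rw [globalCnt_eq, globalCnt_eq, ← globalCnt_true] at h
    refine h.trans (Nat.mul_le_mul_left _ (Nat.add_le_add (globalCnt_mono fun t ht => ?_)
      (globalCnt_mono fun t ht => ?_)))
    · have ht' := globalRes_eq_none.1 ht
      rcases hs : Δ.nx t.1 with _ | s
      · exact Or.inl hs
      · refine Or.inr ⟨s, hs, ?_⟩
        by_contra h1
        exact ht' s hs ⟨h1, (hlink _ _ (Or.inl hs) t.2.1 h1).symm.trans t.2.2⟩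
    · have ht' := globalRes_eq_none.1 ht
      rcases hs : Δ.mu t.1 with _ | s
      · exact Or.inl hs
      · refine Or.inr ⟨s, hs, ?_⟩
        by_contra h1
        exact ht' s hs ⟨h1, (hlink _ _ (Or.inr hs) t.2.1 h1).symm.trans t.2.2⟩
  set Ks : Finset ℕ := univ.image cmp with hKs
  have hKs1 : ∀ t, t ∉ R → cmp t ∈ Ks := fun t _ => mem_image_of_mem _ (mem_univ _)
  have hsum := sum_le_sum fun k (_ : k ∈ Ks) => hpiece k
  simp only [sum_add_distrib, ← mul_sum] at hsum
  rw [globalCnt_sum (fun t => t ∉ R) cmp Ks hKs1 (fun _ => True),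
    globalCnt_sum (fun t => t ∉ R) cmp Ks hKs1 Qn,
    globalCnt_sum (fun t => t ∉ R) cmp Ks hKs1 Qm] at hsum
  have hmu : ∀ t t' s, Δ.mu t = some s → Δ.mu t' = some s → t = t' := fun t t' s h h' =>
    Option.some.inj ((Δ.mu_symm h).symm.trans (Δ.mu_symm h'))
  have c1 : globalCnt (fun t => t ∈ R) ≤ R.card := by
    rw [← globalCnt_eq]; simp
  have f0 : Fintype.card Δ.T ≤ globalCnt (fun t => t ∉ R ∧ True) + R.card := by
    rw [← globalCnt_true]
    refine le_trans (globalCnt_mono fun t _ => ?_) (globalCnt_or.trans (Nat.add_le_add_left c1 _))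
    by_cases h : t ∈ R <;> simp [h]
  have f2 : globalCnt (fun t => t ∉ R ∧ Qn t) ≤ globalCnt (fun t => Δ.nx t = none) + R.card :=
    (globalCnt_mono fun t ht => ht.2).trans (globalCnt_or.trans
      (Nat.add_le_add_left ((globalCnt_pull _ (fun _ _ _ => Δ.nx_inj) _).trans c1) _))
  have f3 : globalCnt (fun t => t ∉ R ∧ Qm t) ≤ globalCnt (fun t => Δ.mu t = none) + R.card :=
    (globalCnt_mono fun t ht => ht.2).trans (globalCnt_or.trans
      (Nat.add_le_add_left ((globalCnt_pull _ hmu _).trans c1) _))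
  have h5 := Δ.card_nx_none.trans List.countP_le_length
  have h6 := Δ.card_mu_none.trans List.countP_le_length
  rw [globalCnt_eq] at h5 h6
  have h7 := hsum.trans (Nat.mul_le_mul_left C0 (Nat.add_le_add
    (f2.trans (Nat.add_le_add_right h5 _)) (f3.trans (Nat.add_le_add_right h6 _))))
  nlinarith

theorem rv_rv {E : Type} (h : E × Bool) : rv (rv h) = h := by simp [rv]

/-- `K = max 2 (hyperfinite 7 (2 (2 C0 + 1)))`.  `IsConf.inj3`: two distinct half-edges `h, h'` with
the same ends and letter give the piece `I = Bool`, `θ = ![h, rv h']`, `nx = mu = some ∘ not`,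
without boundary.  `Girth 1`: no loops.  For a diagram `Δ`, cut `Δ.graph` (no `K₇` minor) along `R`;
each part `{t // t ∉ R ∧ cmp t = k}` is a piece (`R184.globalRes`); an element of a part without
`nx` (`mu`) has none in `Δ` or has it in `R` (`globalCnt_sum`, `globalCnt_pull`).  So
`|T| - |R| ≤ C0 (nx0 + mu0 + 2 |R|)`, `|T| ≤ 2 C0 (nx0 + mu0) ≤ 4 C0 |w|` (`card_nx_none`,
`card_mu_none`), and `good_of_lin` applies.  See `R184/Global.lean` for a model. -/
theorem good_of_piece (C0 : ℕ) : ∃ K : ℕ, ∀ (E V S : Type) (Γ : Gr E V) (lab : E → S),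
    (∀ e, Γ.src e ≠ Γ.tgt e) → PieceIneq (Γ.hes lab) rv K C0 →
    ((Γ.hes lab).tp rv).Aspherical ∧ ((Γ.hes lab).tp rv).LinIso := by
  obtain ⟨K, hK⟩ := gl_lin C0
  refine ⟨max 2 K, fun E V S Γ lab hne hp => ?_⟩
  have hc : (Γ.hes lab).IsConf rv := by
    refine ⟨rv_rv, fun _ => rfl, fun h h' h1 h2 h3 => ?_⟩
    by_contra hh
    have hh' : rv h' ≠ rv h := fun e => hh (by rw [← rv_rv h, ← e, rv_rv])
    let c : Piece (Γ.hes lab) rv Bool :=
      { θ := fun b => if b then h else rv h'
        nx := fun b => some (!b)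
        mu := fun b => some (!b)
        nx_inj := by decide
        nx_spec := by
          rintro (_ | _) _ ⟨⟩
          · exact ⟨by simpa [rv_rv] using h1, by simpa [rv_rv] using hh⟩
          · exact ⟨by simpa using h3.symm, by simpa using hh'⟩
        mu_symm := by decide
        mu_spec := by
          have h4 : (Γ.hes lab).lett (rv h') = R184.flp ((Γ.hes lab).lett h) := by rw [h2]; rfl
          rintro (_ | _) _ ⟨⟩
          · refine ⟨?_, by simpa [rv_rv] using hh⟩
            simp [h4, R184.flp]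
          · exact ⟨by simpa using h4, by simpa using hh'⟩ }
    have := hp Bool c (by simp)
    simp [c] at this
  refine good_of_lin _ hc (fun p k hk _ => ?_)
    (hK _ _ _ _ _ fun I _ c hI => hp I c (hI.trans (le_max_right _ _)))
  obtain rfl : k = 0 := by omega
  rcases p 0 with ⟨e, _ | _⟩
  · exact hne e
  · exact (hne e).symm

end Crest.Agent.R196
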