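import Crest.Agent.R196.Tangent

/-! Row 196: the tangent cone of a cone at a point `J`. -/

set_option autoImplicit false

universe u

namespace Crest.Agent.R196

open Finset

/-- `C'` is the tangent cone of `C.toHad` at `J`, `N = lg o`, `J' = lg (dbl J)`,
`br x = lg (J + x)`.  Basic tool: `C'.ip (lg y) (lg z) ≥ (D J y + D J z - D y z) / 2` (`nrm`, `le`).
If `D J y = D J z = D y z / 4` then `J` is `IsMin` for the family `![y, z]` (`two`), so
`ip g (lg y) + ip g (lg z) ≤ 0` for all `g` by `cen`.  Apply this to `(o, dbl J)`; the reverse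
inequality holds for `g = lg y` by the basic tool (`ip (lg y) N ≥ nrm J - ip y J`,
`ip (lg y) J' ≥ ip y J - nrm J`), hence always by `dens`.  `D J (J + x) = nrm x`,
`D (J + x) (J + y) ≤ D x y` (`add_lip_right`), and `ip (br x) J' = ip (J + x) J - nrm J`.
Last clause: `Fl J S S'` holds as `J ≈ S + S'`, so `Fl S' J S` (`Fl.rot`, `Fl.swap`), whence
`D S' (J + S) = 4 nrm S`, `D S' J = nrm S`: `ip g (br S) + ip g (lg S') ≤ 0`.  With `g = br S'` and
`D (J + S') S' = nrm J` this gives `ip (br S') (br S) ≤ ip S S'`, so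
`D (br S + br S') J' ≤ 0` (use `ip_add` for `J'`), and `ip_add`, `ip_congr` conclude. -/
theorem Cone.exists_graded {V : Type u} (C : Cone V) (J : V) :
    ∃ (T : Type u) (C' : Cone T) (N J' : T) (br : V → T),
      C'.nrm J' = C.nrm J ∧ C'.nrm N = C.nrm J ∧ (∀ g, C'.ip g N = -C'.ip g J') ∧
      (∀ x, C'.nrm (br x) = C.nrm x) ∧ (∀ x y, C.ip x y ≤ C'.ip (br x) (br y)) ∧
      (∀ x, C'.ip (br x) J' = C.ip x J) ∧
      ∀ S S', C.D (C.add S S') J = 0 →
        ∀ g, C'.ip g (br S) + C'.ip g (br S') ≤ C'.ip g J' := by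
  obtain ⟨T, C', lg, h⟩ := C.toHad.exists_tangent J
  have tool : ∀ y z, (C.D J y + C.D J z - C.D y z) / 2 ≤ C'.ip (lg y) (lg z) := fun y z => by
    have := C'.D_eq (lg y) (lg z)
    rw [h.nrm, h.nrm] at this
    linarith [h.le y z]
  have opp : ∀ y z, C.D J y = C.D y z / 4 → C.D J z = C.D y z / 4 →
      ∀ g, C'.ip g (lg y) + C'.ip g (lg z) ≤ 0 := fun y z h1 h2 g => by
    have := h.cen (Fin 2) ![y, z] (fun q => by
      simp only [Fin.sum_univ_two, Matrix.cons_val_zero, Matrix.cons_val_one]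
      linarith [C.two y q z, C.D_symm y q]) g
    simpa using this
  have e0 : C.D J C.o = C.nrm J := C.D_symm _ _
  have e1 : C.D J (C.dbl J) = C.nrm J := by
    rw [C.D_eq, C.nrm_dbl, C.ip_dbl, C.ip_self]; ring
  have e2 : ∀ x, C.D J (C.add J x) = C.nrm x := fun x => by
    rw [C.D_eq, C.nrm_add, C.ip_add_left]; ring
  have lo1 : ∀ y, C.nrm J - C.ip y J ≤ C'.ip (lg y) (lg C.o) := fun y => by
    have := tool y C.o
    rw [e0, C.D_eq J y, C.D_symm y, C.ip_symm J y] at this
    unfold Cone.nrm at this ⊢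
    linarith
  have lo2 : ∀ y, C.ip y J - C.nrm J ≤ C'.ip (lg y) (lg (C.dbl J)) := fun y => by
    have := tool y (C.dbl J)
    rw [e1, C.D_eq J y, C.D_eq y, C.nrm_dbl, C.ip_dbl, C.ip_symm J y] at this
    linarith
  have hN : ∀ g, C'.ip g (lg C.o) = -C'.ip g (lg (C.dbl J)) := fun g => by
    have h0 : C.D C.o (C.dbl J) = 4 * C.nrm J := C.nrm_dbl J
    have h1 := opp C.o (C.dbl J) (by rw [e0]; linarith) (by rw [e1]; linarith) g
    have h2 := h.dens C.o (C.dbl J) (fun y => by linarith [lo1 y, lo2 y]) g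
    linarith
  have nb : ∀ x, C'.nrm (lg (C.add J x)) = C.nrm x := fun x => (h.nrm _).trans (e2 x)
  have dg : ∀ x, C'.ip (lg (C.add J x)) (lg (C.dbl J)) = C.ip x J := fun x => by
    have h1 := lo1 (C.add J x)
    have h2 := lo2 (C.add J x)
    rw [hN] at h1
    rw [C.ip_symm _ J, C.ip_add_left, C.ip_symm J x] at h1 h2
    linarith
  refine ⟨T, C', lg C.o, lg (C.dbl J), fun x => lg (C.add J x), (h.nrm _).trans e1,
    (h.nrm _).trans e0, hN, nb, fun x y => ?_, dg, fun S S' hS g => ?_⟩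
  · have := tool (C.add J x) (C.add J y)
    rw [e2, e2] at this
    linarith [C.add_lip_right J x y, C.D_eq x y]
  · have n1 : C.nrm J = C.nrm S + C.nrm S' + 2 * C.ip S S' := by
      rw [← C.nrm_congr hS, C.nrm_add]
    have i1 : C.ip S J = C.nrm S + C.ip S S' := by rw [← C.ip_congr _ hS, C.ip_add_left]
    have i2 : C.ip S' J = C.ip S S' + C.nrm S' := by rw [← C.ip_congr _ hS, C.ip_add_right]
    have fl : C.Fl J S S' := by
      unfold Cone.Fl
      rw [C.ip_congr _ hS, C.ip_self, C.ip_symm J, C.ip_symm J]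
      linarith
    have f2 : C.ip S' (C.add J S) = C.ip S' J + C.ip S' S := fl.rot.rot
    have d1 : C.D S' (C.add J S) = 4 * C.nrm S := by
      rw [C.D_eq, C.nrm_add, f2, C.ip_symm J S, C.ip_symm S' S]; linarith
    have d2 : C.D J S' = C.nrm S := by rw [C.D_eq, C.ip_symm J]; linarith
    have d3 : C.D (C.add J S') S' = C.nrm J := by
      rw [C.D_eq, C.nrm_add, C.ip_symm (C.add J S') S', C.ip_add_right]; ring
    have o1 := opp S' (C.add J S) (by rw [d1, d2]; ring) (by rw [d1, e2]; ring) (lg (C.add J S'))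
    have o2 := tool (C.add J S') S'
    rw [e2, d2, d3] at o2
    have z : C'.D (C'.add (lg (C.add J S)) (lg (C.add J S'))) (lg (C.dbl J)) = 0 := by
      refine le_antisymm ?_ (C'.D_nonneg _ _)
      have := C'.ip_add (lg (C.dbl J)) (lg (C.add J S)) (lg (C.add J S'))
      rw [C'.ip_symm _ (lg (C.add J S)), C'.ip_symm _ (lg (C.add J S')), dg, dg] at this
      rw [C'.D_eq, C'.nrm_add, nb, nb, h.nrm, C'.ip_symm _ (lg (C.dbl J)),
        C'.ip_symm (lg (C.add J S))]
      linarith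
    rw [← C'.ip_congr g z]
    exact C'.ip_add _ _ _

end Crest.Agent.R196
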