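import Crest.Agent.R196.Defs

/-! Row 196: degrees and codegrees in the graph of a level. -/

set_option autoImplicit false

namespace Crest.Agent.R196

open Finset

variable {F : Type} [Field F] [Fintype F] [DecidableEq F]

omit [Fintype F] [DecidableEq F] in
theorem lc_three {A B c u v w : F} (hAB : A ≠ 0 ∨ B ≠ 0) (hu : A * u ^ 2 + B * u = c)
    (hv : A * v ^ 2 + B * v = c) (hw : A * w ^ 2 + B * w = c) (huv : u ≠ v) (huw : u ≠ w)
    (hvw : v ≠ w) : False := by
  have h1 : A * (u + v) + B = 0 :=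
    mul_left_cancel₀ (sub_ne_zero.2 huv) (by linear_combination hu - hv)
  have h2 : A * (u + w) + B = 0 :=
    mul_left_cancel₀ (sub_ne_zero.2 huw) (by linear_combination hu - hw)
  have h3 : A = 0 := mul_left_cancel₀ (sub_ne_zero.2 hvw) (by linear_combination h1 - h2)
  rcases hAB with h | h
  · exact h h3
  · exact h (by rw [h3] at h1; linear_combination h1)

omit [Field F] in
theorem lc_graph (S : Finset (F × F)) (c : F) (φ : F → F)
    (h : ∀ p ∈ S, p.1 = c ∨ p.2 = φ p.1) : #S ≤ 2 * Fintype.card F := by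
  have h1 : S ⊆ univ.image (fun y => (c, y)) ∪ univ.image (fun x => (x, φ x)) := by
    intro p hp
    rcases h p hp with h | h
    · exact mem_union_left _ (mem_image.2 ⟨p.2, mem_univ _, Prod.ext h.symm rfl⟩)
    · exact mem_union_right _ (mem_image.2 ⟨p.1, mem_univ _, Prod.ext rfl h.symm⟩)
  refine (card_le_card h1).trans ((card_union_le _ _).trans ?_)
  rw [two_mul]
  exact add_le_add card_image_le card_image_le

theorem lc_slot (a : F) :
    ∑ σ : Fin 4, #{p : F × F | slot σ p.1 p.2 = a} ≤ 5 * Fintype.card F := by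
  have h0 : #{p : F × F | slot 0 p.1 p.2 = a} ≤ Fintype.card F := by
    refine card_le_card_of_injOn (t := univ) Prod.snd (fun _ _ => mem_univ _) ?_
    intro p hp p' hp' h
    simp only [coe_filter, mem_univ, true_and, Set.mem_ofPred_eq] at hp hp'
    exact Prod.ext (hp.trans hp'.symm) h
  have h1 : #{p : F × F | slot 1 p.1 p.2 = a} ≤ Fintype.card F := by
    refine card_le_card_of_injOn (t := univ) Prod.fst (fun _ _ => mem_univ _) ?_
    intro p hp p' hp' h
    simp only [coe_filter, mem_univ, true_and, Set.mem_ofPred_eq] at hp hp'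
    exact Prod.ext h (hp.trans hp'.symm)
  have h2 : #{p : F × F | slot 2 p.1 p.2 = a} ≤ Fintype.card F := by
    refine card_le_card_of_injOn (t := univ) Prod.fst (fun _ _ => mem_univ _) ?_
    intro p hp p' hp' h
    simp only [coe_filter, mem_univ, true_and, Set.mem_ofPred_eq] at hp hp'
    have h3 : p.1 + p.2 = p'.1 + p'.2 := hp.trans hp'.symm
    exact Prod.ext h (by rw [h] at h3; exact add_left_cancel h3)
  have h3 : #{p : F × F | slot 3 p.1 p.2 = a} ≤ 2 * Fintype.card F := by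
    refine lc_graph _ 0 (fun x => a / x) fun p hp => ?_
    have h4 : p.1 * p.2 = a := (mem_filter.1 hp).2
    by_cases h5 : p.1 = 0
    · exact Or.inl h5
    · exact Or.inr (by rw [eq_div_iff h5, mul_comm, h4])
  rw [Fin.sum_univ_four]
  omega

theorem lc_node (β : Bool) (p : F × F) : #{t : Gd F | nodeOf β t = p} ≤ Fintype.card F := by
  cases β
  · refine card_le_card_of_injOn (t := univ) (fun t => t.1.2.2) (fun _ _ => mem_univ _) ?_
    intro t ht t' ht' h
    simp only [coe_filter, mem_univ, true_and, Set.mem_ofPred_eq] at ht ht'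
    obtain ⟨h1, h2⟩ := Prod.mk.inj (ht.trans ht'.symm)
    exact Subtype.ext (Prod.ext h1 (Prod.ext h2 h))
  · refine card_le_card_of_injOn (t := univ) (fun t => t.1.1) (fun _ _ => mem_univ _) ?_
    intro t ht t' ht' h
    simp only [coe_filter, mem_univ, true_and, Set.mem_ofPred_eq] at ht ht'
    obtain ⟨h1, h2⟩ := Prod.mk.inj (ht.trans ht'.symm)
    have h3 : t.1.1 = t'.1.1 := h
    rw [h1, h3] at h2
    exact Subtype.ext (Prod.ext h3 (Prod.ext (add_right_cancel h2) h1))

/-- for each `(β, σ, σ')` at most two `(x, y)` (roots of a quadratic when `{σ, σ'} = {2, 3}`;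
`a ≠ b` excludes `σ = σ'` and `x = 0 = x y`) -/
theorem count_aa {a b : F} (hab : a ≠ b) :
    #{t : Bool × Fin 4 × Fin 4 × F × F | slot t.2.1 t.2.2.2.1 t.2.2.2.2 = a ∧
      slot t.2.2.1 t.2.2.2.1 t.2.2.2.2 = b} ≤ 64 := by
  refine (card_le_mul_card_image_of_maps_to (f := fun t => (t.1, t.2.1, t.2.2.1)) (t := univ)
    (fun _ _ => mem_univ _) 2 fun s _ => ?_).trans (by simp)
  obtain ⟨β, σ, σ'⟩ := s
  have key : ∀ x y x' y' : F, slot σ x y = a → slot σ' x y = b → slot σ x' y' = a →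
      slot σ' x' y' = b → (x' = x ∧ y' = y) ∨ (x' = y ∧ y' = x) := by
    intro x y x' y' h1 h2 h3 h4
    have e1 := h3.trans h1.symm
    have e2 := h4.trans h2.symm
    have e3 : slot σ x y ≠ slot σ' x y := by rw [h1, h2]; exact hab
    have q1 : x' + y' = x + y → x' * y' = x * y → (x' = x ∧ y' = y) ∨ (x' = y ∧ y' = x) := by
      intro f1 f2
      have : (x' - x) * (x' - y) = 0 := by linear_combination x' * f1 - f2
      rcases mul_eq_zero.1 this with h | h
      · exact Or.inl ⟨sub_eq_zero.1 h, by linear_combination f1 - h⟩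
      · exact Or.inr ⟨sub_eq_zero.1 h, by linear_combination f1 - h⟩
    have q2 : x' = x → x' * y' = x * y → x ≠ x * y → (x' = x ∧ y' = y) ∨ (x' = y ∧ y' = x) := by
      intro f1 f2 f3
      have : x ≠ 0 := fun h => f3 (by rw [h, zero_mul])
      exact Or.inl ⟨f1, mul_left_cancel₀ this (by rw [← f2, f1])⟩
    have q3 : y' = y → x' * y' = x * y → y ≠ x * y → (x' = x ∧ y' = y) ∨ (x' = y ∧ y' = x) := by
      intro f1 f2 f3
      have : y ≠ 0 := fun h => f3 (by rw [h, mul_zero])
      exact Or.inl ⟨mul_right_cancel₀ this (by rw [← f2, f1]), f1⟩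
    have q4 : x' = x → x' + y' = x + y → (x' = x ∧ y' = y) ∨ (x' = y ∧ y' = x) :=
      fun f1 f2 => Or.inl ⟨f1, by linear_combination f2 - f1⟩
    have q5 : y' = y → x' + y' = x + y → (x' = x ∧ y' = y) ∨ (x' = y ∧ y' = x) :=
      fun f1 f2 => Or.inl ⟨by linear_combination f2 - f1, f1⟩
    fin_cases σ <;> fin_cases σ'
    · exact absurd rfl e3
    · exact Or.inl ⟨e1, e2⟩
    · exact q4 e1 e2
    · exact q2 e1 e2 e3
    · exact Or.inl ⟨e2, e1⟩
    · exact absurd rfl e3
    · exact q5 e1 e2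
    · exact q3 e1 e2 e3
    · exact q4 e2 e1
    · exact q5 e2 e1
    · exact absurd rfl e3
    · exact q1 e1 e2
    · exact q2 e2 e1 e3.symm
    · exact q3 e2 e1 e3.symm
    · exact q1 e2 e1
    · exact absurd rfl e3
  rcases eq_empty_or_nonempty {t ∈ ({t : Bool × Fin 4 × Fin 4 × F × F |
      slot t.2.1 t.2.2.2.1 t.2.2.2.2 = a ∧ slot t.2.2.1 t.2.2.2.1 t.2.2.2.2 = b} : Finset _) |
      (t.1, t.2.1, t.2.2.1) = (β, σ, σ')} with h | ⟨⟨β₁, σ₁, σ₁', x, y⟩, ht⟩
  · rw [h]; simp
  · refine (card_le_card (t := {(β, σ, σ', x, y), (β, σ, σ', y, x)}) ?_).trans card_le_two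
    rintro ⟨β₂, σ₂, σ₂', x', y'⟩ ht'
    simp only [mem_filter, mem_univ, true_and, Prod.mk.injEq] at ht ht'
    obtain ⟨⟨h1, h2⟩, rfl, rfl, rfl⟩ := ht
    obtain ⟨⟨h3, h4⟩, rfl, rfl, rfl⟩ := ht'
    rcases key x y x' y' h1 h2 h3 h4 with ⟨rfl, rfl⟩ | ⟨rfl, rfl⟩ <;> simp

/-- for each `(β, σ ≠ σ')` at most `2 q` pairs `(x, y)` -/
theorem count_double :
    #{t : Bool × Fin 4 × Fin 4 × F × F | t.2.1 ≠ t.2.2.1 ∧
      slot t.2.1 t.2.2.2.1 t.2.2.2.2 = slot t.2.2.1 t.2.2.2.1 t.2.2.2.2} ≤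
      64 * Fintype.card F := by
  refine (card_le_mul_card_image_of_maps_to (f := fun t => (t.1, t.2.1, t.2.2.1)) (t := univ)
    (fun _ _ => mem_univ _) (2 * Fintype.card F) fun s _ => ?_).trans (by simp; omega)
  obtain ⟨β, σ, σ'⟩ := s
  have key : ∃ (c : F) (φ : F → F), ∀ x y : F, σ ≠ σ' → slot σ x y = slot σ' x y →
      x = c ∨ y = φ x := by
    have q1 : ∀ x y : F, x = x * y → x = 0 ∨ y = 1 := fun x y h => by
      rcases mul_eq_zero.1 (show x * (y - 1) = 0 by linear_combination -h) with h | h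
      · exact Or.inl h
      · exact Or.inr (sub_eq_zero.1 h)
    have q2 : ∀ x y : F, y = x * y → x = 1 ∨ y = 0 := fun x y h => by
      rcases mul_eq_zero.1 (show (x - 1) * y = 0 by linear_combination -h) with h | h
      · exact Or.inl (sub_eq_zero.1 h)
      · exact Or.inr h
    have q3 : ∀ x y : F, x + y = x * y → x = 1 ∨ y = x / (x - 1) := fun x y h => by
      by_cases h1 : x = 1
      · exact Or.inl h1
      · exact Or.inr (by rw [eq_div_iff (sub_ne_zero.2 h1)]; linear_combination -h)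
    have q4 : ∀ x y : F, x = x + y → x = 0 ∨ y = 0 := fun x y h =>
      Or.inr (by linear_combination -h)
    have q5 : ∀ x y : F, y = x + y → x = 0 ∨ y = 0 := fun x y h =>
      Or.inl (by linear_combination -h)
    fin_cases σ <;> fin_cases σ'
    · exact ⟨0, id, fun _ _ h _ => absurd rfl h⟩
    · exact ⟨0, id, fun _ _ _ h => Or.inr h.symm⟩
    · exact ⟨0, fun _ => 0, fun x y _ h => q4 x y h⟩
    · exact ⟨0, fun _ => 1, fun x y _ h => q1 x y h⟩
    · exact ⟨0, id, fun _ _ _ h => Or.inr h⟩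
    · exact ⟨0, id, fun _ _ h _ => absurd rfl h⟩
    · exact ⟨0, fun _ => 0, fun x y _ h => q5 x y h⟩
    · exact ⟨1, fun _ => 0, fun x y _ h => q2 x y h⟩
    · exact ⟨0, fun _ => 0, fun x y _ h => q4 x y h.symm⟩
    · exact ⟨0, fun _ => 0, fun x y _ h => q5 x y h.symm⟩
    · exact ⟨0, id, fun _ _ h _ => absurd rfl h⟩
    · exact ⟨1, fun x => x / (x - 1), fun x y _ h => q3 x y h⟩
    · exact ⟨0, fun _ => 1, fun x y _ h => q1 x y h.symm⟩
    · exact ⟨1, fun _ => 0, fun x y _ h => q2 x y h.symm⟩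
    · exact ⟨1, fun x => x / (x - 1), fun x y _ h => q3 x y h.symm⟩
    · exact ⟨0, id, fun _ _ h _ => absurd rfl h⟩
  obtain ⟨c, φ, key⟩ := key
  refine le_trans ?_ (lc_graph {p : F × F | p.1 = c ∨ p.2 = φ p.1} c φ
    fun p hp => (mem_filter.1 hp).2)
  refine card_le_card_of_injOn (fun t => t.2.2.2) ?_ ?_
  · rintro ⟨β₁, σ₁, σ₁', x, y⟩ ht
    simp only [coe_filter, mem_filter, mem_univ, true_and, Prod.mk.injEq, Set.mem_ofPred_eq] at ht ⊢
    obtain ⟨⟨h1, h2⟩, rfl, rfl, rfl⟩ := ht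
    exact key x y h1 h2
  · rintro ⟨β₁, σ₁, σ₁', p⟩ ht ⟨β₂, σ₂, σ₂', p'⟩ ht' h
    simp only [coe_filter, mem_filter, mem_univ, true_and, Prod.mk.injEq, Set.mem_ofPred_eq]
      at ht ht' h
    obtain ⟨-, rfl, rfl, rfl⟩ := ht
    obtain ⟨-, rfl, rfl, rfl⟩ := ht'
    rw [h]

/-- for each `σ` at most two good triples: one free parameter, subject to a linear or quadratic
equation whose leading coefficient is nonzero because `x, a ∉ {0, 1}` (and `-1 = 1`) -/
theorem count_an [CharP F 2] (a : F) (β : Bool) (p : F × F) :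
    #{t : Fin 4 × Gd F | nodeOf β t.2 = p ∧
      slot t.1 (nodeOf (!β) t.2).1 (nodeOf (!β) t.2).2 = a} ≤ 8 := by
  refine (card_le_mul_card_image_of_maps_to (f := Prod.fst) (t := univ)
    (fun _ _ => mem_univ _) 2 fun σ _ => ?_).trans (by simp)
  by_contra h
  rw [not_le, two_lt_card_iff] at h
  obtain ⟨⟨σ1, ⟨x1, y1, a1⟩, h1⟩, ⟨σ2, ⟨x2, y2, a2⟩, h2⟩, ⟨σ3, ⟨x3, y3, a3⟩, h3⟩, m1, m2, m3,
    n12, n13, n23⟩ := h
  simp only [mem_filter, mem_univ, true_and] at m1 m2 m3
  obtain ⟨⟨e1, s1⟩, rfl⟩ := m1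
  obtain ⟨⟨e2, s2⟩, rfl⟩ := m2
  obtain ⟨⟨e3, s3⟩, rfl⟩ := m3
  cases β
  · obtain ⟨rfl, rfl⟩ := Prod.mk.inj (e2.trans e1.symm)
    obtain ⟨rfl, rfl⟩ := Prod.mk.inj (e3.trans e1.symm)
    have d12 : a1 ≠ a2 := fun h => n12 (by subst h; rfl)
    have d13 : a1 ≠ a3 := fun h => n13 (by subst h; rfl)
    have d23 : a2 ≠ a3 := fun h => n23 (by subst h; rfl)
    have hx : 1 + x3 ≠ 0 := fun h => h1.2.1 (by
      have h2 : (2 : F) = 0 := CharTwo.two_eq_zero
      show x3 = 1
      linear_combination h - h2)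
    fin_cases σ3
    · exact d12 ((show a1 = a from s1).trans (show a2 = a from s2).symm)
    · exact lc_three (A := 0) (B := x3) (c := a - y3) (Or.inr h1.1)
        (by have e : y3 + a1 * x3 = a := s1; linear_combination e)
        (by have e : y3 + a2 * x3 = a := s2; linear_combination e)
        (by have e : y3 + a3 * x3 = a := s3; linear_combination e) d12 d13 d23
    · exact lc_three (A := 0) (B := 1 + x3) (c := a - y3) (Or.inr hx)
        (by have e : a1 + (y3 + a1 * x3) = a := s1; linear_combination e)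
        (by have e : a2 + (y3 + a2 * x3) = a := s2; linear_combination e)
        (by have e : a3 + (y3 + a3 * x3) = a := s3; linear_combination e) d12 d13 d23
    · exact lc_three (A := x3) (B := y3) (c := a) (Or.inl h1.1)
        (by have e : a1 * (y3 + a1 * x3) = a := s1; linear_combination e)
        (by have e : a2 * (y3 + a2 * x3) = a := s2; linear_combination e)
        (by have e : a3 * (y3 + a3 * x3) = a := s3; linear_combination e) d12 d13 d23
  · obtain ⟨rfl, f2⟩ := Prod.mk.inj (e2.trans e1.symm)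
    obtain ⟨rfl, f3⟩ := Prod.mk.inj (e3.trans e1.symm)
    have g2 : y2 + a3 * x2 = y1 + a3 * x1 := f2
    have g3 : y3 + a3 * x3 = y1 + a3 * x1 := f3
    have d12 : x1 ≠ x2 := fun h => n12 (by
      subst h; obtain rfl := add_right_cancel g2; rfl)
    have d13 : x1 ≠ x3 := fun h => n13 (by
      subst h; obtain rfl := add_right_cancel g3; rfl)
    have d23 : x2 ≠ x3 := fun h => n23 (by
      subst h; obtain rfl := add_right_cancel (g2.trans g3.symm); rfl)
    have ha : 1 - a3 ≠ 0 := fun h => h1.2.2.2 (sub_eq_zero.1 h).symm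
    have ha0 : -a3 ≠ 0 := neg_ne_zero.2 h1.2.2.1
    fin_cases σ3
    · exact d12 ((show x1 = a from s1).trans (show x2 = a from s2).symm)
    · exact lc_three (A := 0) (B := -a3) (c := a - (y1 + a3 * x1)) (Or.inr ha0)
        (by have e : y1 = a := s1; linear_combination e)
        (by have e : y2 = a := s2; linear_combination e - g2)
        (by have e : y3 = a := s3; linear_combination e - g3) d12 d13 d23
    · exact lc_three (A := 0) (B := 1 - a3) (c := a - (y1 + a3 * x1)) (Or.inr ha)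
        (by have e : x1 + y1 = a := s1; linear_combination e)
        (by have e : x2 + y2 = a := s2; linear_combination e - g2)
        (by have e : x3 + y3 = a := s3; linear_combination e - g3) d12 d13 d23
    · exact lc_three (A := -a3) (B := y1 + a3 * x1) (c := a) (Or.inl ha0)
        (by have e : x1 * y1 = a := s1; linear_combination e)
        (by have e : x2 * y2 = a := s2; linear_combination e - x2 * g2)
        (by have e : x3 * y3 = a := s3; linear_combination e - x3 * g3) d12 d13 d23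

/-- two linear equations -/
theorem count_nn (β : Bool) (p p' : F × F) :
    #{t : Gd F × Gd F | t.1 ≠ t.2 ∧ nodeOf β t.1 = p ∧ nodeOf β t.2 = p' ∧
      nodeOf (!β) t.1 = nodeOf (!β) t.2} ≤ 1 := by
  rw [card_le_one]
  rintro ⟨⟨⟨x1, y1, a1⟩, h1⟩, ⟨⟨x2, y2, a2⟩, h2⟩⟩ m ⟨⟨⟨x3, y3, a3⟩, h3⟩, ⟨⟨x4, y4, a4⟩, h4⟩⟩ m'
  simp only [mem_filter, mem_univ, true_and] at m m'
  obtain ⟨n, e1, e2, e3⟩ := m
  obtain ⟨-, f1, f2, f3⟩ := m'
  cases β
  · obtain ⟨rfl, rfl⟩ := Prod.mk.inj (f1.trans e1.symm)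
    obtain ⟨rfl, rfl⟩ := Prod.mk.inj (f2.trans e2.symm)
    obtain ⟨rfl, g1⟩ := Prod.mk.inj e3
    obtain ⟨rfl, g2⟩ := Prod.mk.inj f3
    have g1' : y3 + a1 * x3 = y4 + a1 * x4 := g1
    have g2' : y3 + a3 * x3 = y4 + a3 * x4 := g2
    have d : x3 ≠ x4 := fun h => n (by subst h; obtain rfl := add_right_cancel g1'; rfl)
    obtain rfl : a1 = a3 :=
      mul_right_cancel₀ (sub_ne_zero.2 d) (by linear_combination g1' - g2')
    rfl
  · obtain ⟨rfl, g1⟩ := Prod.mk.inj (f1.trans e1.symm)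
    obtain ⟨rfl, g2⟩ := Prod.mk.inj (f2.trans e2.symm)
    obtain ⟨rfl, rfl⟩ := Prod.mk.inj e3
    obtain ⟨rfl, rfl⟩ := Prod.mk.inj f3
    have g1' : y3 + a3 * x3 = y1 + a3 * x1 := g1
    have g2' : y3 + a4 * x3 = y1 + a4 * x1 := g2
    have d : a3 ≠ a4 := fun h => n (by subst h; rfl)
    obtain rfl : x3 = x1 :=
      mul_left_cancel₀ (sub_ne_zero.2 d) (by linear_combination g1' - g2')
    obtain rfl := add_right_cancel g1'
    rfl

/-- vertices: `1 + 1 + 2 + 1`.  Steps: root `q * q⁻¹`; atom `1 + (≤ 2 (3 q + 2 q)) q⁻¹`;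
node `4 + (≤ q) q⁻¹`; mid `≤ 2`. -/
theorem lvl_PF0 : (lvl F).PF0 (fun _ => Real.log (Fintype.card F))
    (fun v => ht v * Real.log (Fintype.card F)) 11 := by
  have hq : (0 : ℝ) < Fintype.card F := Nat.cast_pos.2 Fintype.card_pos
  have hE : ∀ (n : ℕ) (r : ℝ), r = -(n * Real.log (Fintype.card F)) →
      Real.exp r = ((Fintype.card F : ℝ) ^ n)⁻¹ := by
    rintro n r rfl
    rw [Real.exp_neg, Real.exp_nat_mul, Real.exp_log hq]
  constructor
  · simp only [Fintype.sum_sum_type, ht]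
    rw [hE 0 _ (by simp), hE 1 _ (by simp), hE 2 _ (by simp), hE 3 _ (by simp)]
    simp only [sum_const, card_univ, Fintype.card_prod, Fintype.card_bool, Fintype.card_unit,
      nsmul_eq_mul]
    push_cast
    field_simp
    norm_num
  · intro v
    rw [sum_filter]
    simp only [Fintype.sum_prod_type (α₁ := LEd F), Fintype.sum_bool, Fintype.sum_sum_type,
      Fintype.sum_prod_type (α₁ := Bool), Fintype.sum_prod_type (α₁ := Fin 4)]
    rcases v with _ | a | ⟨β, p⟩ | t
    · simp [Gr.st, Gr.en, rv, lvl, ht]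
      rw [hE 1 _ (by simp), pow_one, mul_inv_cancel₀ hq.ne']
      norm_num
    · simp [Gr.st, Gr.en, rv, lvl, ht]
      rw [hE 0 _ (by push_cast; ring), hE 1 _ (by push_cast; ring)]
      have h1 : ∑ σ : Fin 4, ∑ p : F × F,
          (if slot σ p.1 p.2 = a then ((Fintype.card F : ℝ) ^ 1)⁻¹ else 0) ≤ 5 := by
        simp only [← sum_filter, sum_const, nsmul_eq_mul, ← sum_mul, pow_one]
        rw [← div_eq_mul_inv, div_le_iff₀ hq]
        exact_mod_cast lc_slot a
      norm_num at h1 ⊢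
      linarith
    · have h1 : ∑ t : Gd F,
          (if nodeOf β t = p then ((Fintype.card F : ℝ) ^ 1)⁻¹ else 0) ≤ 1 := by
        simp only [← sum_filter, sum_const, nsmul_eq_mul, pow_one]
        rw [← div_eq_mul_inv, div_le_iff₀ hq, one_mul]
        exact_mod_cast lc_node β p
      cases β
      · simp [Gr.st, Gr.en, rv, lvl, ht]
        rw [hE 0 _ (by push_cast; ring), hE 1 _ (by push_cast; ring)]
        norm_num at h1 ⊢
        linarith
      · simp [Gr.st, Gr.en, rv, lvl, ht]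
        rw [hE 0 _ (by push_cast; ring), hE 1 _ (by push_cast; ring)]
        norm_num at h1 ⊢
        linarith
    · simp [Gr.st, Gr.en, rv, lvl, ht]
      rw [hE 0 _ (by push_cast; ring)]
      have h1 : ∑ x : Gd F, (if x.1 = t then ((Fintype.card F : ℝ) ^ 0)⁻¹ else 0) ≤ 1 := by
        simp only [← sum_filter, sum_const, nsmul_eq_mul, pow_zero, inv_one, mul_one]
        have : #{x : Gd F | x.1 = t} ≤ 1 := card_le_one.2 fun x hx y hy =>
          Subtype.ext ((mem_filter.1 hx).2.trans (mem_filter.1 hy).2.symm)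
        exact_mod_cast this
      linarith

end Crest.Agent.R196
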