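import Crest.Agent.R196.Defs

/-! Row 196: weighted counts of walks, lollipops and cycles. -/

set_option autoImplicit false

namespace Crest.Agent.R196

open Finset

namespace Gr

variable {E V : Type} (Γ : Gr E V)

/-- If `c i, c j` (`i < j`) have the same edge then `c j = c i` (so `i = j`) or `c j = rv (c i)`,
so `st (c j) = st (c (i + 1))`, `j = i + 1`: backtracking. -/
theorem IsWalk.edge_inj {Γ : Gr E V} {k : ℕ} {c : Fin (k + 1) → E × Bool} (h : Γ.IsWalk c)
    (hi : Function.Injective fun i => Γ.st (c i)) : Function.Injective fun i => (c i).1 := by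
  have key : ∀ i j : Fin (k + 1), i < j → (c i).1 = (c j).1 → False := by
    intro i j hij he
    by_cases hb : (c i).2 = (c j).2
    · have : c i = c j := Prod.ext he hb
      have h2 : i = j := hi (by simp only [this])
      exact absurd h2 hij.ne
    · have hrv : c j = rv (c i) := by
        refine Prod.ext he.symm ?_
        simp only [rv]
        revert hb
        cases (c i).2 <;> cases (c j).2 <;> simp
      have hik : i.1 < k := by have := j.2; have : i.1 < j.1 := hij; omega
      have h1 := h ⟨i.1, hik⟩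
      have e1 : (⟨i.1, hik⟩ : Fin k).castSucc = i := Fin.ext rfl
      rw [e1] at h1
      have h3 : (⟨i.1, hik⟩ : Fin k).succ = j := by
        apply hi
        show Γ.st _ = Γ.st (c j)
        rw [h1.1, hrv]; rfl
      rw [h3] at h1
      exact h1.2 hrv
  intro i j he
  rcases lt_trichotomy i j with hij | hij | hij
  · exact (key i j hij he).elim
  · exact hij
  · exact (key j i hij he.symm).elim

theorem pfw_sum_le {α β : Type} [Fintype β] (s : Finset α) (f : α → ℝ) (g : β → ℝ) (φ : α → β)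
    (hφ : Set.InjOn φ s) (hg : ∀ b, 0 ≤ g b) (hf : ∀ a ∈ s, f a ≤ g (φ a)) :
    ∑ a ∈ s, f a ≤ ∑ b, g b := by
  classical
  calc ∑ a ∈ s, f a ≤ ∑ a ∈ s, g (φ a) := sum_le_sum hf
    _ = ∑ b ∈ s.image φ, g b := (sum_image hφ).symm
    _ ≤ ∑ b, g b := sum_le_sum_of_subset_of_nonneg (subset_univ _) fun b _ _ => hg b

theorem pfw_rv_rv (h : E × Bool) : rv (rv h) = h := by
  simp [rv]

/-- chains of `n` half-edges from `v` to `w` -/
def pfw_Ch {n : ℕ} (v : V) (c : Fin n → E × Bool) (w : V) : Prop :=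
  ∃ u : ℕ → V, u 0 = v ∧ u n = w ∧ ∀ i : Fin n, Γ.st (c i) = u i ∧ Γ.en (c i) = u (i + 1)

open Classical in
/-- the weight of a chain -/
noncomputable def pfw_A (D : E → ℝ) {n : ℕ} (v : V) (c : Fin n → E × Bool) (w : V) : ℝ :=
  if Γ.pfw_Ch v c w then Real.exp (-∑ i, D (c i).1 / 2) else 0

theorem pfw_A_nonneg (D : E → ℝ) {n : ℕ} (v : V) (c : Fin n → E × Bool) (w : V) :
    0 ≤ Γ.pfw_A D v c w := by
  unfold pfw_A
  split_ifs
  · exact (Real.exp_pos _).le
  · exact le_rfl

theorem pfw_A_eq (D : E → ℝ) {n : ℕ} {v : V} {c : Fin n → E × Bool} {w : V}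
    (h : Γ.pfw_Ch v c w) : Γ.pfw_A D v c w = Real.exp (-∑ i, D (c i).1 / 2) := by
  unfold pfw_A
  rw [if_pos h]

open Classical in
theorem pfw_A_cons (D : E → ℝ) {n : ℕ} (v : V) (h : E × Bool) (c : Fin n → E × Bool) (w : V) :
    Γ.pfw_A D v (Fin.cons h c : Fin (n + 1) → E × Bool) w ≤
      (if Γ.st h = v then Real.exp (-(D h.1 / 2)) else 0) * Γ.pfw_A D (Γ.en h) c w := by
  by_cases hc : Γ.pfw_Ch v (Fin.cons h c : Fin (n + 1) → E × Bool) w
  · rw [Γ.pfw_A_eq D hc]
    obtain ⟨u, h0, hn, hu⟩ := hc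
    have h1 := hu 0
    simp only [Fin.cons_zero, Fin.val_zero, zero_add] at h1
    have h2 : Γ.pfw_Ch (Γ.en h) c w := by
      refine ⟨fun i => u (i + 1), h1.2.symm, hn, fun i => ?_⟩
      have := hu i.succ
      simpa only [Fin.cons_succ, Fin.val_succ] using this
    rw [Γ.pfw_A_eq D h2, if_pos (h1.1.trans h0), ← Real.exp_add, Fin.sum_univ_succ]
    simp only [Fin.cons_zero, Fin.cons_succ]
    apply le_of_eq
    congr 1
    ring
  · have : Γ.pfw_A D v (Fin.cons h c : Fin (n + 1) → E × Bool) w = 0 := by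
      unfold pfw_A
      rw [if_neg hc]
    rw [this]
    refine mul_nonneg ?_ (Γ.pfw_A_nonneg D _ _ _)
    split_ifs
    · exact (Real.exp_pos _).le
    · exact le_rfl

theorem pfw_basic [Fintype E] [Fintype V] {D : E → ℝ} {W : V → ℝ} {C : ℝ} (hC : 1 ≤ C)
    (h0 : Γ.PF0 D W C) (n : ℕ) (v : V) :
    ∑ c : Fin n → E × Bool, ∑ w, Γ.pfw_A D v c w * Real.exp (-(W w / 2)) ≤
      C ^ n * Real.exp (-(W v / 2)) := by
  classical
  induction n generalizing v with
  | zero =>
    rw [Fintype.sum_unique, pow_zero, one_mul]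
    rw [Finset.sum_eq_single v]
    · have : Γ.pfw_Ch v (default : Fin 0 → E × Bool) v :=
        ⟨fun _ => v, rfl, rfl, fun i => i.elim0⟩
      rw [Γ.pfw_A_eq D this]
      simp
    · intro w _ hw
      have : ¬ Γ.pfw_Ch v (default : Fin 0 → E × Bool) w := by
        rintro ⟨u, h1, h2, -⟩
        exact hw (h2.symm.trans h1)
      unfold pfw_A
      rw [if_neg this, zero_mul]
    · intro h; exact absurd (mem_univ _) h
  | succ n ih =>
    rw [← (Fin.consEquiv fun _ : Fin (n + 1) => E × Bool).sum_comp, Fintype.sum_prod_type]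
    have hCn : 0 ≤ C ^ n := by positivity
    calc ∑ h : E × Bool, ∑ c : Fin n → E × Bool, ∑ w,
          Γ.pfw_A D v ((Fin.consEquiv fun _ : Fin (n + 1) => E × Bool) (h, c)) w *
            Real.exp (-(W w / 2))
        ≤ ∑ h : E × Bool, (if Γ.st h = v then Real.exp (-(D h.1 / 2)) else 0) *
            (C ^ n * Real.exp (-(W (Γ.en h) / 2))) := by
          refine sum_le_sum fun h _ => ?_
          have hnn : 0 ≤ (if Γ.st h = v then Real.exp (-(D h.1 / 2)) else 0) := by
            split_ifs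
            · exact (Real.exp_pos _).le
            · exact le_rfl
          refine le_trans ?_ (mul_le_mul_of_nonneg_left (ih (Γ.en h)) hnn)
          rw [mul_sum]
          refine sum_le_sum fun c _ => ?_
          rw [mul_sum]
          refine sum_le_sum fun w _ => ?_
          rw [← mul_assoc]
          exact mul_le_mul_of_nonneg_right (Γ.pfw_A_cons D v h c w) (Real.exp_pos _).le
      _ = (C ^ n * Real.exp (-(W v / 2))) * ∑ h with Γ.st h = v,
            Real.exp (-(D h.1 / 2 + (W (Γ.en h) - W v) / 2)) := by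
          rw [sum_filter, mul_sum]
          refine sum_congr rfl fun h _ => ?_
          split_ifs
          · rw [mul_left_comm, mul_assoc, ← Real.exp_add, ← Real.exp_add]
            congr 2
            ring
          · simp
      _ ≤ (C ^ n * Real.exp (-(W v / 2))) * C := by
          refine mul_le_mul_of_nonneg_left ?_ (by positivity)
          convert h0.step v
      _ = C ^ (n + 1) * Real.exp (-(W v / 2)) := by ring

theorem pfw_tot [Fintype E] [Fintype V] {D : E → ℝ} {W : V → ℝ} {C : ℝ} (hC : 1 ≤ C)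
    (h0 : Γ.PF0 D W C) (n : ℕ) :
    ∑ v, ∑ c : Fin n → E × Bool, ∑ w,
      Real.exp (-(W v / 2)) * (Γ.pfw_A D v c w * Real.exp (-(W w / 2))) ≤ C ^ (n + 1) := by
  have hCn : 0 ≤ C ^ n := by positivity
  calc ∑ v, ∑ c : Fin n → E × Bool, ∑ w,
        Real.exp (-(W v / 2)) * (Γ.pfw_A D v c w * Real.exp (-(W w / 2)))
      ≤ ∑ v, C ^ n * Real.exp (-W v) := by
        refine sum_le_sum fun v _ => ?_
        simp only [← mul_sum]
        refine (mul_le_mul_of_nonneg_left (Γ.pfw_basic hC h0 n v) (Real.exp_pos _).le).trans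
          (le_of_eq ?_)
        rw [mul_left_comm, ← Real.exp_add]
        congr 2
        ring
    _ ≤ C ^ n * C := by
        rw [← mul_sum]
        exact mul_le_mul_of_nonneg_left h0.vtx hCn
    _ = C ^ (n + 1) := by ring

theorem pfw_walk_ch {k : ℕ} {c : Fin (k + 1) → E × Bool} (h : Γ.IsWalk c) :
    Γ.pfw_Ch (Γ.st (c 0)) c (Γ.en (c (Fin.last k))) := by
  refine ⟨fun i => if hi : i < k + 1 then Γ.st (c ⟨i, hi⟩) else Γ.en (c (Fin.last k)), ?_, ?_,
    fun i => ⟨?_, ?_⟩⟩
  · simp only [Nat.zero_lt_succ, dif_pos]; rfl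
  · simp only [lt_irrefl, dif_neg, not_false_eq_true]
  · simp only [i.2, dif_pos]
  · by_cases hi : i.1 + 1 < k + 1
    · simp only [hi, dif_pos]
      have := (h ⟨i.1, by omega⟩).1
      exact this.symm
    · simp only [hi, dif_neg, not_false_eq_true]
      have : i = Fin.last k := Fin.ext (by have := i.2; simp only [Fin.val_last]; omega)
      rw [this]

theorem pfw_lol_cyc {j m : ℕ} {c : Fin (j + m + 1) → E × Bool} (h : Γ.IsWalk c)
    (hi : Function.Injective fun i => Γ.st (c i))
    (he : Γ.en (c (Fin.last (j + m))) = Γ.st (c ⟨j, by omega⟩)) :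
    Γ.IsCyc (fun i : Fin (m + 1) => c (Fin.natAdd j i)) := by
  refine ⟨fun i => ?_, fun a b hab => ?_⟩
  · rcases Fin.eq_castSucc_or_eq_last i with ⟨i, rfl⟩ | rfl
    · rw [Fin.coeSucc_eq_succ]
      exact h ⟨j + i.1, by have := i.2; omega⟩
    · rw [Fin.last_add_one]
      have e1 : (Fin.natAdd j (0 : Fin (m + 1)) : Fin (j + m + 1)) = ⟨j, by omega⟩ :=
        Fin.ext (by simp)
      have e2 : (Fin.natAdd j (Fin.last m) : Fin (j + m + 1)) = Fin.last (j + m) :=
        Fin.ext (by simp)
      show Γ.st (c (Fin.natAdd j (0 : Fin (m + 1)))) = Γ.en (c (Fin.natAdd j (Fin.last m))) ∧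
        c (Fin.natAdd j (0 : Fin (m + 1))) ≠ rv (c (Fin.natAdd j (Fin.last m)))
      rw [e1, e2]
      refine ⟨he.symm, fun hh => ?_⟩
      have h1 : (⟨j, by omega⟩ : Fin (j + m + 1)) = Fin.last (j + m) :=
        h.edge_inj hi (by simp only [hh, rv])
      rw [h1] at hh
      have := congrArg Prod.snd hh
      simp [rv] at this
  · have := hi hab
    have h2 := congrArg Fin.val this
    simp only [Fin.val_natAdd] at h2
    exact Fin.ext (by omega)

theorem pfw_lol_ch {j m : ℕ} {c : Fin (j + m + 1) → E × Bool} (h : Γ.IsWalk c) :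
    Γ.pfw_Ch (Γ.st (c ⟨j, by omega⟩))
      (fun i : Fin j => rv (c (Fin.castAdd (m + 1) (Fin.rev i)))) (Γ.st (c 0)) := by
  refine ⟨fun i => Γ.st (c ⟨j - i, by omega⟩), rfl, ?_, fun i => ⟨?_, ?_⟩⟩
  · show Γ.st (c ⟨j - j, _⟩) = _
    congr 2
    exact Fin.ext (by simp)
  · have hi := i.2
    have h1 := (h ⟨j - (i.1 + 1), by omega⟩).1
    have e1 : (⟨j - (i.1 + 1), by omega⟩ : Fin (j + m)).succ = ⟨j - i.1, by omega⟩ :=
      Fin.ext (by simp only [Fin.val_succ]; omega)
    rw [e1] at h1
    exact h1.symm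
  · show Γ.st (rv (rv _)) = _
    rw [pfw_rv_rv]
    rfl

variable [Fintype E] [Fintype V] {D : E → ℝ} {W : V → ℝ} {C : ℝ}

/-- Basic bound (induction on `n`, `step`): the sum over chains of `n` half-edges from `v` of
`exp (-(∑ D / 2 + (W (end) - W v) / 2))` is at most `C ^ n` (the `W` terms telescope).
`path`: multiply by `exp (-W v)`, sum with `vtx`.  `lol`: `c j, …, c (last k)` is an `IsCyc` with
`k - j + 1` edges (cyclic non-backtracking: `c j = rv (c last)` forces `j + 1 = k` by injectivity,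
contradicting `IsWalk`), and the reversed stem `rv (c (j - 1)), …, rv (c 0)` is a chain of `j`
half-edges from `st (c j)` to `st (c 0)`. -/
theorem PF2_of (hC : 1 ≤ C) (h0 : Γ.PF0 D W C) (hc : Γ.PFc D C) : Γ.PF2 D W C := by
  classical
  have hC0 : 0 ≤ C := by linarith
  refine ⟨fun k => ?_, fun k j => ?_⟩
  · refine le_trans ?_ (Γ.pfw_tot hC h0 (k + 1))
    simp only [← Fintype.sum_prod_type']
    refine pfw_sum_le _ _ _ (fun c => (Γ.st (c 0), c, Γ.en (c (Fin.last k)))) ?_ ?_ ?_
    · intro a _ b _ hab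
      exact congrArg (fun x => x.2.1) hab
    · intro b
      have := Γ.pfw_A_nonneg D b.1 b.2.1 b.2.2
      positivity
    · intro c hc
      have hw : Γ.IsWalk c := (mem_filter.1 hc).2
      simp only
      rw [Γ.pfw_A_eq D (Γ.pfw_walk_ch hw), ← Real.exp_add, ← Real.exp_add]
      apply le_of_eq
      congr 1
      ring
  · obtain ⟨j, hj⟩ := j
    obtain ⟨m, rfl⟩ : ∃ m, k = j + m := ⟨k - j, by omega⟩
    have hb : ∑ d : Fin (m + 1) → E × Bool, ∑ e : Fin j → E × Bool, ∑ w,
        (if Γ.IsCyc d then Real.exp (-∑ i, D (d i).1 / 2) else 0) *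
          (Real.exp (W (Γ.st (d 0)) / 2) *
            (Γ.pfw_A D (Γ.st (d 0)) e w * Real.exp (-(W w / 2)))) ≤ C ^ (j + m + 2) := by
      calc _ ≤ ∑ d : Fin (m + 1) → E × Bool,
            (if Γ.IsCyc d then Real.exp (-∑ i, D (d i).1 / 2) else 0) * C ^ j := by
            refine sum_le_sum fun d _ => ?_
            simp only [← mul_sum]
            refine mul_le_mul_of_nonneg_left ?_ ?_
            · refine (mul_le_mul_of_nonneg_left (Γ.pfw_basic hC h0 j _)
                (Real.exp_pos _).le).trans (le_of_eq ?_)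
              rw [mul_left_comm, ← Real.exp_add]
              simp
            · split_ifs
              · exact (Real.exp_pos _).le
              · exact le_rfl
        _ ≤ C ^ (m + 2) * C ^ j := by
            rw [← sum_mul, ← sum_filter]
            refine mul_le_mul_of_nonneg_right ?_ (by positivity)
            convert hc m
        _ = C ^ (j + m + 2) := by ring
    refine le_trans ?_ hb
    simp only [← Fintype.sum_prod_type']
    refine pfw_sum_le _ _ _ (fun c => ((fun i : Fin (m + 1) => c (Fin.natAdd j i)),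
      (fun i : Fin j => rv (c (Fin.castAdd (m + 1) (Fin.rev i)))), Γ.st (c 0))) ?_ ?_ ?_
    · intro a _ b _ hab
      have h1 := congrArg (fun x => x.1) hab
      have h2 := congrArg (fun x => x.2.1) hab
      funext i
      refine Fin.addCases (m := j) (n := m + 1) (fun i => ?_) (fun i => ?_) i
      · have := congrArg rv (congrFun h2 (Fin.rev i))
        simpa only [pfw_rv_rv, Fin.rev_rev] using this
      · exact congrFun h1 i
    · intro b
      have := Γ.pfw_A_nonneg D (Γ.st (b.1 0)) b.2.1 b.2.2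
      refine mul_nonneg ?_ (by positivity)
      split_ifs
      · exact (Real.exp_pos _).le
      · exact le_rfl
    · intro c hc
      obtain ⟨hw, hi, he⟩ := (mem_filter.1 hc).2
      have e1 : (Fin.natAdd j (0 : Fin (m + 1)) : Fin (j + m + 1)) = ⟨j, hj⟩ :=
        Fin.ext (by simp)
      simp only
      rw [if_pos (Γ.pfw_lol_cyc hw hi he), e1, Γ.pfw_A_eq D (Γ.pfw_lol_ch hw), ← Real.exp_add,
        ← Real.exp_add, ← Real.exp_add]
      apply le_of_eq
      congr 1
      have s1 : ∑ i : Fin (j + m + 1), D (c i).1 / 2 =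
          ∑ i : Fin j, D (c (Fin.castAdd (m + 1) i)).1 / 2 +
            ∑ i : Fin (m + 1), D (c (Fin.natAdd j i)).1 / 2 :=
        Fin.sum_univ_add (a := j) (b := m + 1) fun i => D (c i).1 / 2
      have s2 : ∑ i : Fin j, D (rv (c (Fin.castAdd (m + 1) (Fin.rev i)))).1 / 2 =
          ∑ i : Fin j, D (c (Fin.castAdd (m + 1) i)).1 / 2 :=
        Equiv.sum_comp Fin.revPerm fun i : Fin j => D (c (Fin.castAdd (m + 1) i)).1 / 2
      rw [s1, s2]
      ring

theorem pfw_ofNat_succ (k i : ℕ) : Fin.ofNat (k + 1) (i + 1) = Fin.ofNat (k + 1) i + 1 := by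
  apply Fin.ext
  simp [Fin.val_add]

open Classical in
theorem pfw_gadget (hC : 1 ≤ C) (h0 : Γ.PF0 D W C) {g : ℕ} (Gad : (Fin g → E × Bool) → V → V → Prop)
    (hG : ∀ a b, ∑ p : Fin g → E × Bool with Gad p a b,
      Real.exp (-∑ i, D (p i).1 / 2) ≤ C * Real.exp (-((W a + W b) / 2))) (k : ℕ)
    (r : Fin (k + 1)) (hg : g ≤ k + 1) :
    ∑ c : Fin (k + 1) → E × Bool with (Γ.IsCyc c ∧
        Gad (fun i => c (r + Fin.ofNat (k + 1) i)) (Γ.st (c r))
          (Γ.st (c (r + Fin.ofNat (k + 1) g)))),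
      Real.exp (-∑ i, D (c i).1 / 2) ≤ C ^ (k + 3) := by
  have hC0 : 0 ≤ C := by linarith
  obtain ⟨n, hn⟩ : ∃ n, k + 1 = g + n := ⟨k + 1 - g, by omega⟩
  have hb : ∑ b : V, ∑ e : Fin n → E × Bool, ∑ a : V, ∑ p : Fin g → E × Bool,
      (if Gad p a b then Real.exp (-∑ i, D (p i).1 / 2) else 0) * Γ.pfw_A D b e a ≤
        C ^ (k + 3) := by
    calc _ ≤ ∑ b : V, ∑ e : Fin n → E × Bool, ∑ a : V,
          C * (Real.exp (-(W b / 2)) * (Γ.pfw_A D b e a * Real.exp (-(W a / 2)))) := by
          refine sum_le_sum fun b _ => sum_le_sum fun e _ => sum_le_sum fun a _ => ?_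
          rw [← sum_mul, ← sum_filter]
          refine (mul_le_mul_of_nonneg_right (hG a b) (Γ.pfw_A_nonneg D b e a)).trans
            (le_of_eq ?_)
          have : Real.exp (-((W a + W b) / 2)) = Real.exp (-(W b / 2)) * Real.exp (-(W a / 2)) := by
            rw [← Real.exp_add]
            congr 1
            ring
          rw [this]
          ring
      _ ≤ C * C ^ (n + 1) := by
          simp only [← mul_sum (a := C)]
          exact mul_le_mul_of_nonneg_left (Γ.pfw_tot hC h0 n) hC0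
      _ = C ^ (n + 2) := by ring
      _ ≤ C ^ (k + 3) := pow_le_pow_right₀ hC (by omega)
  refine le_trans ?_ hb
  simp only [← Fintype.sum_prod_type']
  refine pfw_sum_le _ _ _ (fun c => (Γ.st (c (r + Fin.ofNat (k + 1) g)),
    (fun i : Fin n => c (r + Fin.ofNat (k + 1) (g + i))), Γ.st (c r),
    (fun i : Fin g => c (r + Fin.ofNat (k + 1) i)))) ?_ ?_ ?_
  · intro a _ b _ hab
    have h1 := congrArg (fun x => x.2.1) hab
    have h2 := congrArg (fun x => x.2.2.2) hab
    have h3 : ∀ i : ℕ, i < k + 1 → a (r + Fin.ofNat (k + 1) i) = b (r + Fin.ofNat (k + 1) i) := by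
      intro i hi
      by_cases hig : i < g
      · exact congrFun h2 ⟨i, hig⟩
      · obtain ⟨t, rfl⟩ : ∃ t, i = g + t := ⟨i - g, by omega⟩
        exact congrFun h1 ⟨t, by omega⟩
    funext i
    have := h3 (i - r).1 (i - r).2
    rwa [Fin.ofNat_val_eq_self, add_sub_cancel] at this
  · intro b
    refine mul_nonneg ?_ (Γ.pfw_A_nonneg D _ _ _)
    split_ifs
    · exact (Real.exp_pos _).le
    · exact le_rfl
  · intro c hc
    obtain ⟨hw, hg⟩ := (mem_filter.1 hc).2
    have hch : Γ.pfw_Ch (Γ.st (c (r + Fin.ofNat (k + 1) g)))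
        (fun i : Fin n => c (r + Fin.ofNat (k + 1) (g + i))) (Γ.st (c r)) := by
      refine ⟨fun i => Γ.st (c (r + Fin.ofNat (k + 1) (g + i))), rfl, ?_, fun i => ⟨rfl, ?_⟩⟩
      · show Γ.st (c (r + Fin.ofNat (k + 1) (g + n))) = _
        rw [← hn, Fin.ofNat_self, add_zero]
      · show _ = Γ.st (c (r + Fin.ofNat (k + 1) (g + i + 1)))
        rw [pfw_ofNat_succ, ← add_assoc]
        exact (hw.1 _).1.symm
    simp only
    rw [if_pos hg, Γ.pfw_A_eq D hch, ← Real.exp_add]
    apply le_of_eq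
    congr 1
    have s1 : ∑ i : Fin (k + 1), D (c i).1 / 2 =
        ∑ i : Fin (k + 1), D (c (r + Fin.ofNat (k + 1) i)).1 / 2 := by
      simp only [Fin.ofNat_val_eq_self]
      exact (Equiv.sum_comp (Equiv.addLeft r) fun i => D (c i).1 / 2).symm
    rw [s1, Fin.sum_univ_eq_sum_range (fun i => D (c (r + Fin.ofNat (k + 1) i)).1 / 2),
      Fin.sum_univ_eq_sum_range (fun i => D (c (r + Fin.ofNat (k + 1) i)).1 / 2) g,
      Fin.sum_univ_eq_sum_range (fun i => D (c (r + Fin.ofNat (k + 1) (g + i))).1 / 2) n]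
    have s2 := Finset.sum_range_add (fun i => D (c (r + Fin.ofNat (k + 1) i)).1 / 2) g n
    rw [← hn] at s2
    rw [s2]
    ring

open Classical in
/-- Fix `r, g` (at most `5 (k + 1)` choices).  The cycle is determined by the gadget
`p i = c (r + i)` and the remaining chain of `n = k + 1 - g` half-edges from `b = st (c (r + g))`
to `a = st (c r)`.  Sum over `p` first with `hG`; what remains is the sum over `b` and chains from
`b` of `C exp (-(∑ D / 2 + (W a + W b) / 2)) ≤ C * C ^ (n + 1)` (basic bound above and `vtx`;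
`n = 0` is allowed). -/
theorem gadget (hC : 1 ≤ C) (h0 : Γ.PF0 D W C) (Gad : ∀ g : ℕ, (Fin g → E × Bool) → V → V → Prop)
    (hG : ∀ g ≤ 4, ∀ a b, ∑ p : Fin g → E × Bool with Gad g p a b,
      Real.exp (-∑ i, D (p i).1 / 2) ≤ C * Real.exp (-((W a + W b) / 2))) (k : ℕ) :
    ∑ c : Fin (k + 1) → E × Bool with (Γ.IsCyc c ∧ ∃ (r : Fin (k + 1)) (g : ℕ), g ≤ 4 ∧ g ≤ k + 1 ∧
        Gad g (fun i => c (r + Fin.ofNat (k + 1) i)) (Γ.st (c r))
          (Γ.st (c (r + Fin.ofNat (k + 1) g)))),
      Real.exp (-∑ i, D (c i).1 / 2) ≤ 5 * (k + 1) * C ^ (k + 3) := by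
  calc _ ≤ ∑ c : Fin (k + 1) → E × Bool, ∑ r : Fin (k + 1), ∑ g ∈ range 5,
        if g ≤ k + 1 ∧ Γ.IsCyc c ∧ Gad g (fun i => c (r + Fin.ofNat (k + 1) i)) (Γ.st (c r))
          (Γ.st (c (r + Fin.ofNat (k + 1) g))) then Real.exp (-∑ i, D (c i).1 / 2) else 0 := by
        rw [sum_filter]
        refine sum_le_sum fun c _ => ?_
        have hnn : ∀ (r : Fin (k + 1)) (g : ℕ), 0 ≤ (if g ≤ k + 1 ∧ Γ.IsCyc c ∧
            Gad g (fun i => c (r + Fin.ofNat (k + 1) i)) (Γ.st (c r))
              (Γ.st (c (r + Fin.ofNat (k + 1) g))) then Real.exp (-∑ i, D (c i).1 / 2)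
              else 0) := by
          intro r g
          split_ifs
          · exact (Real.exp_pos _).le
          · exact le_rfl
        split_ifs with hc
        · obtain ⟨hw, r, g, h4, hk, hg⟩ := hc
          refine le_trans ?_ (single_le_sum (fun r _ => sum_nonneg fun g _ => hnn r g)
            (mem_univ r))
          refine le_trans ?_ (single_le_sum (fun g _ => hnn r g)
            (mem_range.2 (by omega : g < 5)))
          rw [if_pos ⟨hk, hw, hg⟩]
        · exact sum_nonneg fun r _ => sum_nonneg fun g _ => hnn r g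
    _ ≤ ∑ _r : Fin (k + 1), ∑ _g ∈ range 5, C ^ (k + 3) := by
        rw [sum_comm]
        refine sum_le_sum fun r _ => ?_
        rw [sum_comm]
        refine sum_le_sum fun g hg => ?_
        by_cases hk : g ≤ k + 1
        · have := Γ.pfw_gadget hC h0 (Gad g) (hG g (by have := mem_range.1 hg; omega)) k r hk
          rw [sum_filter] at this
          simpa only [hk, true_and] using this
        · simp only [hk, false_and, if_false, sum_const_zero]
          have : 0 ≤ C := by linarith
          positivity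
    _ = 5 * (k + 1) * C ^ (k + 3) := by
        simp only [sum_const, card_range, card_univ, Fintype.card_fin, nsmul_eq_mul]
        push_cast
        ring

end Gr

end Crest.Agent.R196
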