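import Crest.Agent.R196.LvlCount
import Crest.Agent.R196.PFwalk

/-! Row 196: simple cycles in the graph of a level. -/

set_option autoImplicit false

namespace Crest.Agent.R196

open Finset

section aux

variable {F : Type} [Field F]

/-- atom-node edge -/
abbrev lcAn (β : Bool) (σ : Fin 4) (n : F × F) : LEd F := .inr (.inl (β, σ, n))
/-- mid-node edge -/
abbrev lcMn (β : Bool) (t : Gd F) : LEd F := .inr (.inr (β, t))
/-- root -/
abbrev lcRoot {F : Type} : LV F := .inl ()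
/-- atom -/
abbrev lcAtom {F : Type} (x : F) : LV F := .inr (.inl x)
/-- node -/
abbrev lcNode {F : Type} (β : Bool) (n : F × F) : LV F := .inr (.inr (.inl (β, n)))
/-- mid -/
abbrev lcMid {F : Type} (t : F × F × F) : LV F := .inr (.inr (.inr t))

theorem lc_st_an_t (β : Bool) (σ : Fin 4) (n : F × F) :
    (lvl F).st (lcAn β σ n, true) = lcAtom (slot σ n.1 n.2) := rfl
theorem lc_st_an_f (β : Bool) (σ : Fin 4) (n : F × F) :
    (lvl F).st (lcAn β σ n, false) = lcNode β n := rfl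
theorem lc_st_mn_t (β : Bool) (t : Gd F) : (lvl F).st (lcMn β t, true) = lcMid t.1 := rfl
theorem lc_st_mn_f (β : Bool) (t : Gd F) :
    (lvl F).st (lcMn β t, false) = lcNode β (nodeOf β t) := rfl
theorem lc_en_an_f (β : Bool) (σ : Fin 4) (n : F × F) :
    (lvl F).en (lcAn β σ n, false) = lcAtom (slot σ n.1 n.2) := rfl
theorem lc_en_mn_f (β : Bool) (t : Gd F) : (lvl F).en (lcMn β t, false) = lcMid t.1 := rfl
theorem lc_en_mn_t (β : Bool) (t : Gd F) :
    (lvl F).en (lcMn β t, true) = lcNode β (nodeOf β t) := rfl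

theorem lc_st_node {h : LEd F × Bool} {β : Bool} {n : F × F} (hh : (lvl F).st h = lcNode β n) :
    (∃ σ, h = (lcAn β σ n, false)) ∨ ∃ t, nodeOf β t = n ∧ h = (lcMn β t, false) := by
  rcases h with ⟨x | ⟨β', σ, n'⟩ | ⟨β', t⟩, _ | _⟩ <;> simp [Gr.st, lvl] at hh
  · obtain ⟨rfl, rfl⟩ := hh
    exact Or.inl ⟨σ, rfl⟩
  · obtain ⟨rfl, rfl⟩ := hh
    exact Or.inr ⟨t, rfl, rfl⟩

theorem lc_en_node {h : LEd F × Bool} {β : Bool} {n : F × F} (hh : (lvl F).en h = lcNode β n) :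
    (∃ σ, h = (lcAn β σ n, true)) ∨ ∃ t, nodeOf β t = n ∧ h = (lcMn β t, true) := by
  rcases h with ⟨x | ⟨β', σ, n'⟩ | ⟨β', t⟩, _ | _⟩ <;> simp [Gr.en, rv, Gr.st, lvl] at hh
  · obtain ⟨rfl, rfl⟩ := hh
    exact Or.inl ⟨σ, rfl⟩
  · obtain ⟨rfl, rfl⟩ := hh
    exact Or.inr ⟨t, rfl, rfl⟩

theorem lc_st_mid {h : LEd F × Bool} {t : Gd F} {β : Bool} (hh : (lvl F).st h = lcMid t.1)
    (hb : h ≠ rv (lcMn β t, false)) : h = (lcMn (!β) t, true) := by
  rcases h with ⟨x | ⟨β', σ, n'⟩ | ⟨β', t'⟩, _ | _⟩ <;> simp [Gr.st, lvl] at hh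
  obtain rfl : t' = t := Subtype.ext hh
  cases β <;> cases β' <;> first | rfl | exact absurd rfl hb

theorem lc_en_mid {h : LEd F × Bool} {t : Gd F} {β : Bool} (hh : (lvl F).en h = lcMid t.1)
    (hb : (lcMn β t, true) ≠ rv h) : h = (lcMn (!β) t, false) := by
  rcases h with ⟨x | ⟨β', σ, n'⟩ | ⟨β', t'⟩, _ | _⟩ <;> simp [Gr.en, rv, Gr.st, lvl] at hh
  obtain rfl : t' = t := Subtype.ext hh
  cases β <;> cases β' <;> first | rfl | exact absurd rfl hb

theorem lc_root_or_node (h : LEd F × Bool) :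
    ((lvl F).st h = lcRoot ∨ ∃ β n, (lvl F).st h = lcNode β n) ∨
      ((lvl F).en h = lcRoot ∨ ∃ β n, (lvl F).en h = lcNode β n) := by
  rcases h with ⟨x | ⟨β', σ, n'⟩ | ⟨β', t'⟩, _ | _⟩
  · exact Or.inr (Or.inl rfl)
  · exact Or.inl (Or.inl rfl)
  · exact Or.inl (Or.inr ⟨_, _, rfl⟩)
  · exact Or.inr (Or.inr ⟨_, _, rfl⟩)
  · exact Or.inl (Or.inr ⟨_, _, rfl⟩)
  · exact Or.inr (Or.inr ⟨_, _, rfl⟩)

variable [Fintype F] [DecidableEq F]

/-- atom-node-atom -/
def lcT2 (a b : LV F) : Finset (Bool × Fin 4 × Fin 4 × F × F) :=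
  {t | a = lcAtom (slot t.2.1 t.2.2.2.1 t.2.2.2.2) ∧ b = lcAtom (slot t.2.2.1 t.2.2.2.1 t.2.2.2.2) ∧
    a ≠ b}

/-- atom-node-mid-node -/
def lcT3 (a b : LV F) : Finset (Bool × Fin 4 × Gd F) :=
  {t | a = lcAtom (slot t.2.1 (nodeOf (!t.1) t.2.2).1 (nodeOf (!t.1) t.2.2).2) ∧
    b = lcNode t.1 (nodeOf t.1 t.2.2)}

/-- node-mid-node-mid-node -/
def lcT4 (a b : LV F) : Finset (Bool × Gd F × Gd F) :=
  {t | a = lcNode t.1 (nodeOf t.1 t.2.1) ∧ b = lcNode t.1 (nodeOf t.1 t.2.2) ∧ t.2.1 ≠ t.2.2 ∧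
    nodeOf (!t.1) t.2.1 = nodeOf (!t.1) t.2.2}

/-- double edges -/
def lcTd (F : Type) [Field F] [Fintype F] [DecidableEq F] :
    Finset (Bool × Fin 4 × Fin 4 × F × F) :=
  {t | t.2.1 ≠ t.2.2.1 ∧ slot t.2.1 t.2.2.2.1 t.2.2.2.2 = slot t.2.2.1 t.2.2.2.1 t.2.2.2.2}

theorem lcT2_card (a b : LV F) : #(lcT2 a b) ≤ 64 := by
  rcases (lcT2 a b).eq_empty_or_nonempty with h | ⟨t₀, h⟩
  · simp [h]
  · simp only [lcT2, mem_filter, mem_univ, true_and] at h
    obtain ⟨rfl, rfl, hab⟩ := h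
    refine le_trans (card_le_card fun t ht => ?_)
      (count_aa (a := slot t₀.2.1 t₀.2.2.2.1 t₀.2.2.2.2) (b := slot t₀.2.2.1 t₀.2.2.2.1 t₀.2.2.2.2)
        fun h => hab (by rw [h]))
    simp only [lcT2, mem_filter, mem_univ, true_and, Sum.inr.injEq, Sum.inl.injEq] at ht ⊢
    exact ⟨ht.1.symm, ht.2.1.symm⟩

theorem lcT3_card [CharP F 2] (a b : LV F) : #(lcT3 a b) ≤ 8 := by
  rcases (lcT3 a b).eq_empty_or_nonempty with h | ⟨t₀, h⟩
  · simp [h]
  · simp only [lcT3, mem_filter, mem_univ, true_and] at h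
    obtain ⟨rfl, rfl⟩ := h
    refine le_trans (card_le_card_of_injOn (fun t => t.2) (fun t ht => ?_) fun t ht t' ht' h => ?_)
      (count_an (slot t₀.2.1 (nodeOf (!t₀.1) t₀.2.2).1 (nodeOf (!t₀.1) t₀.2.2).2) t₀.1
        (nodeOf t₀.1 t₀.2.2))
    · simp only [lcT3, coe_filter, mem_univ, true_and, Sum.inr.injEq, Sum.inl.injEq,
        Set.mem_ofPred_eq, Prod.mk.injEq] at ht ⊢
      obtain ⟨h1, h2, h3⟩ := ht
      exact ⟨by rw [h3, h2], by rw [h1, h2]⟩
    · simp only [lcT3, coe_filter, mem_univ, true_and, Sum.inr.injEq, Sum.inl.injEq,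
        Set.mem_ofPred_eq, Prod.mk.injEq] at ht ht'
      exact Prod.ext (ht.2.1.symm.trans ht'.2.1) h

theorem lcT4_card (a b : LV F) : #(lcT4 a b) ≤ 1 := by
  rcases (lcT4 a b).eq_empty_or_nonempty with h | ⟨t₀, h⟩
  · simp [h]
  · simp only [lcT4, mem_filter, mem_univ, true_and] at h
    obtain ⟨rfl, rfl, -⟩ := h
    refine le_trans (card_le_card_of_injOn (fun t => t.2) (fun t ht => ?_) fun t ht t' ht' h => ?_)
      (count_nn t₀.1 (nodeOf t₀.1 t₀.2.1) (nodeOf t₀.1 t₀.2.2))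
    · simp only [lcT4, coe_filter, mem_univ, true_and, Sum.inr.injEq, Sum.inl.injEq,
        Set.mem_ofPred_eq, Prod.mk.injEq] at ht ⊢
      obtain ⟨⟨h1, h2⟩, ⟨-, h3⟩, h4, h5⟩ := ht
      exact ⟨h4, by rw [h2, h1], by rw [h3, h1], by rw [h1, h5]⟩
    · simp only [lcT4, coe_filter, mem_univ, true_and, Sum.inr.injEq, Sum.inl.injEq,
        Set.mem_ofPred_eq, Prod.mk.injEq] at ht ht'
      exact Prod.ext (ht.1.1.symm.trans ht'.1.1) h

/-- all the gadgets from `a` to `b` -/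
def lcS (a b : LV F) : Finset (List (LEd F × Bool)) :=
  insert [] ((lcT2 a b).image
      (fun t => [(lcAn t.1 t.2.1 t.2.2.2, true), (lcAn t.1 t.2.2.1 t.2.2.2, false)]) ∪
    (lcT3 a b).image (fun t => [(lcAn (!t.1) t.2.1 (nodeOf (!t.1) t.2.2), true),
      (lcMn (!t.1) t.2.2, false), (lcMn t.1 t.2.2, true)]) ∪
    (lcT3 b a).image (fun t => [(lcMn t.1 t.2.2, false), (lcMn (!t.1) t.2.2, true),
      (lcAn (!t.1) t.2.1 (nodeOf (!t.1) t.2.2), false)]) ∪
    (lcT4 a b).image (fun t => [(lcMn t.1 t.2.1, false), (lcMn (!t.1) t.2.1, true),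
      (lcMn (!t.1) t.2.2, false), (lcMn t.1 t.2.2, true)]))

theorem lcS_card [CharP F 2] (a b : LV F) : #(lcS a b) ≤ 100 := by
  have h2 := lcT2_card a b
  have h3 := lcT3_card a b
  have h3' := lcT3_card b a
  have h4 := lcT4_card a b
  unfold lcS
  refine (card_insert_le _ _).trans ?_
  refine (Nat.add_le_add_right ((card_union_le _ _).trans (Nat.add_le_add
    ((card_union_le _ _).trans (Nat.add_le_add ((card_union_le _ _).trans
      (Nat.add_le_add card_image_le card_image_le)) card_image_le)) card_image_le)) 1).trans ?_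
  omega

/-- the two-cycles -/
def lcSd (F : Type) [Field F] [Fintype F] [DecidableEq F] : Finset (List (LEd F × Bool)) :=
  (lcTd F).image (fun t => [(lcAn t.1 t.2.1 t.2.2.2, true), (lcAn t.1 t.2.2.1 t.2.2.2, false)]) ∪
    (lcTd F).image (fun t => [(lcAn t.1 t.2.2.1 t.2.2.2, false), (lcAn t.1 t.2.1 t.2.2.2, true)])

theorem lcSd_card : #(lcSd F) ≤ 128 * Fintype.card F := by
  have h : #(lcTd F) ≤ 64 * Fintype.card F := count_double
  unfold lcSd
  refine ((card_union_le _ _).trans (Nat.add_le_add card_image_le card_image_le)).trans ?_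
  omega

/-- The case analysis, for a periodic sequence of half-edges. -/
theorem lc_cases {e : ℕ → LEd F × Bool} {K : ℕ} (hK : 0 < K)
    (hs : ∀ n, (lvl F).st (e (n + 1)) = (lvl F).en (e n)) (hb : ∀ n, e (n + 1) ≠ rv (e n))
    (hper : ∀ n, e (n + K) = e n)
    (hinj : ∀ n m, (lvl F).st (e n) = (lvl F).st (e m) → n ≡ m [MOD K]) :
    (∃ n g, g ≤ 4 ∧ g ≤ K ∧
      List.ofFn (fun i : Fin g => e (n + i)) ∈ lcS ((lvl F).st (e n)) ((lvl F).st (e (n + g))) ∧
      ht ((lvl F).st (e n)) + ht ((lvl F).st (e (n + g))) = g) ∨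
    (K = 2 ∧ ∃ n, ∃ t ∈ lcTd F, e n = (lcAn t.1 t.2.1 t.2.2.2, true) ∧
      e (n + 1) = (lcAn t.1 t.2.2.1 t.2.2.2, false)) := by
  have hex : ∃ m, (lvl F).st (e m) = lcRoot ∨ ∃ β n, (lvl F).st (e m) = lcNode β n := by
    rcases lc_root_or_node (e 0) with h | h
    · exact ⟨0, h⟩
    · exact ⟨1, by rwa [hs 0]⟩
  obtain ⟨m, hm | ⟨β, z, hm⟩⟩ := hex
  · refine Or.inl ⟨m, 0, by norm_num, hK.le, ?_, ?_⟩
    · simp [lcS]
    · simp [hm, ht]
  obtain ⟨n, hn⟩ : ∃ n, e (n + 2) = e m :=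
    ⟨m + K + K - 2, by rw [show m + K + K - 2 + 2 = m + K + K by omega, hper, hper]⟩
  rw [← hn] at hm
  have hm1 : (lvl F).en (e (n + 1)) = lcNode β z := by rw [← hs, hm]
  have hne : ∀ i j, (lvl F).st (e i) ≠ (lvl F).st (e (i + j)) → K ≠ j := by
    rintro i j h rfl
    exact h (by rw [hper])
  rcases lc_en_node hm1 with ⟨σ, h1⟩ | ⟨t, ht1, h1⟩ <;>
    rcases lc_st_node hm with ⟨σ', h2⟩ | ⟨t', ht2, h2⟩
  · have h3 : (lvl F).st (e (n + 1 + 2)) = lcAtom (slot σ' z.1 z.2) := by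
      rw [show n + 1 + 2 = n + 2 + 1 by ring, hs, h2, lc_en_an_f]
    have k1 : K ≠ 1 := hne (n + 1) 1 (by rw [h1, hm, lc_st_an_t]; simp)
    by_cases hab : slot σ z.1 z.2 = slot σ' z.1 z.2
    · have h4 := hinj (n + 1) (n + 1 + 2) (by rw [h3, h1, lc_st_an_t, hab])
      have h5 : K ∣ 2 := by
        have := (Nat.modEq_iff_dvd' (by omega)).1 h4
        rwa [show n + 1 + 2 - (n + 1) = 2 by omega] at this
      have h6 := Nat.le_of_dvd (by norm_num) h5
      refine Or.inr ⟨by omega, n + 1, (β, σ, σ', z), ?_, h1, h2⟩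
      simp only [lcTd, mem_filter, mem_univ, true_and]
      refine ⟨?_, hab⟩
      rintro rfl
      exact hb (n + 1) (by rw [h1, h2]; rfl)
    · refine Or.inl ⟨n + 1, 2, by norm_num, by omega, ?_, ?_⟩
      · rw [h3, h1, lc_st_an_t]
        refine mem_insert_of_mem (mem_union_left _ (mem_union_left _ (mem_union_left _
          (mem_image.2 ⟨(β, σ, σ', z), ?_, ?_⟩))))
        · simpa [lcT2] using hab
        · simp [List.ofFn_succ, h1, h2, add_assoc]
      · rw [h3, h1, lc_st_an_t]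
        norm_num [ht]
  · subst ht2
    have h3 : e (n + 3) = (lcMn (!β) t', true) :=
      lc_st_mid (by rw [hs, h2, lc_en_mn_f]) (by rw [← h2]; exact hb (n + 2))
    have h4 : (lvl F).st (e (n + 1 + 3)) = lcNode (!β) (nodeOf (!β) t') := by
      rw [show n + 1 + 3 = n + 3 + 1 by ring, hs, h3, lc_en_mn_t]
    have k1 : K ≠ 1 := hne (n + 1) 1 (by rw [h1, hm, lc_st_an_t]; simp)
    have k2 : K ≠ 2 := hne (n + 1) 2 (by rw [h1, h3, lc_st_an_t, lc_st_mn_t]; simp)
    refine Or.inl ⟨n + 1, 3, by norm_num, by omega, ?_, ?_⟩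
    · rw [h4, h1, lc_st_an_t]
      refine mem_insert_of_mem (mem_union_left _ (mem_union_left _ (mem_union_right _
        (mem_image.2 ⟨(!β, σ, t'), ?_, ?_⟩))))
      · simp [lcT3]
      · simp [List.ofFn_succ, h1, h2, h3, add_assoc]
    · rw [h4, h1, lc_st_an_t]
      norm_num [ht]
  · subst ht1
    have h0 : e n = (lcMn (!β) t, false) :=
      lc_en_mid (by rw [← hs, h1, lc_st_mn_t]) (by rw [← h1]; exact hb n)
    have h3 : (lvl F).st (e (n + 3)) = lcAtom (slot σ' (nodeOf β t).1 (nodeOf β t).2) := by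
      rw [hs, h2, lc_en_an_f]
    have k1 : K ≠ 1 := hne n 1 (by rw [h0, h1, lc_st_mn_f, lc_st_mn_t]; simp)
    have k2 : K ≠ 2 := hne n 2 (by rw [h0, hm, lc_st_mn_f]; simp)
    refine Or.inl ⟨n, 3, by norm_num, by omega, ?_, ?_⟩
    · rw [h3, h0, lc_st_mn_f]
      refine mem_insert_of_mem (mem_union_left _ (mem_union_right _
        (mem_image.2 ⟨(!β, σ', t), ?_, ?_⟩)))
      · simp [lcT3]
      · simp [List.ofFn_succ, h0, h1, h2]
    · rw [h3, h0, lc_st_mn_f]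
      norm_num [ht]
  · have h0 : e n = (lcMn (!β) t, false) :=
      lc_en_mid (by rw [← hs, h1, lc_st_mn_t]) (by rw [← h1]; exact hb n)
    have h3 : e (n + 3) = (lcMn (!β) t', true) :=
      lc_st_mid (by rw [hs, h2, lc_en_mn_f]) (by rw [← h2]; exact hb (n + 2))
    have h4 : (lvl F).st (e (n + 4)) = lcNode (!β) (nodeOf (!β) t') := by
      rw [hs, h3, lc_en_mn_t]
    have htt : t ≠ t' := by
      rintro rfl
      exact hb (n + 1) (by rw [h1, h2]; rfl)
    have k1 : K ≠ 1 := hne n 1 (by rw [h0, h1, lc_st_mn_f, lc_st_mn_t]; simp)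
    have k2 : K ≠ 2 := hne n 2 (by rw [h0, hm, lc_st_mn_f]; simp)
    have k3 : K ≠ 3 := hne n 3 (by rw [h0, h3, lc_st_mn_f, lc_st_mn_t]; simp)
    refine Or.inl ⟨n, 4, by norm_num, by omega, ?_, ?_⟩
    · rw [h4, h0, lc_st_mn_f]
      refine mem_insert_of_mem (mem_union_right _ (mem_image.2 ⟨(!β, t, t'), ?_, ?_⟩))
      · simp [lcT4, htt, ht1, ht2]
      · simp [List.ofFn_succ, h0, h1, h2, h3]
    · rw [h4, h0, lc_st_mn_f]
      norm_num [ht]

omit [Field F] [Fintype F] [DecidableEq F] in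
theorem lc_sum_split {α : Type} [Fintype α] {P Q R : α → Prop} {_ : DecidablePred P}
    {_ : DecidablePred Q} {_ : DecidablePred R} {w : α → ℝ} (hw : ∀ a, 0 ≤ w a)
    (h : ∀ a, P a → Q a ∨ R a) : ∑ a with P a, w a ≤ ∑ a with Q a, w a + ∑ a with R a, w a := by
  simp only [sum_filter]
  rw [← sum_add_distrib]
  refine sum_le_sum fun a _ => ?_
  have := hw a
  have := h a
  split_ifs <;> first | linarith | tauto

omit [Field F] [Fintype F] [DecidableEq F] in
theorem lc_sum_le {H : Type} [Fintype H] {g : ℕ} {P : (Fin g → H) → Prop} {_ : DecidablePred P}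
    {w : (Fin g → H) → ℝ} {S : Finset (List H)} {B : ℝ} (hB : 0 ≤ B)
    (h : ∀ p, P p → List.ofFn p ∈ S ∧ w p ≤ B) : ∑ p with P p, w p ≤ #S * B := by
  refine (sum_le_card_nsmul _ _ B fun p hp => (h p (mem_filter.1 hp).2).2).trans ?_
  rw [nsmul_eq_mul]
  refine mul_le_mul_of_nonneg_right ?_ hB
  exact_mod_cast card_le_card_of_injOn List.ofFn (fun p hp => (h p (mem_filter.1 hp).2).1)
    List.ofFn_injective.injOn

theorem lc_cyc {k : ℕ} {c : Fin (k + 1) → LEd F × Bool} (hc : (lvl F).IsCyc c) :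
    (∃ (r : Fin (k + 1)) (g : ℕ), g ≤ 4 ∧ g ≤ k + 1 ∧
      List.ofFn (fun i : Fin g => c (r + Fin.ofNat (k + 1) i)) ∈
        lcS ((lvl F).st (c r)) ((lvl F).st (c (r + Fin.ofNat (k + 1) g))) ∧
      ht ((lvl F).st (c r)) + ht ((lvl F).st (c (r + Fin.ofNat (k + 1) g))) = g) ∨
    (k = 1 ∧ List.ofFn c ∈ lcSd F) := by
  have hadd : ∀ n m : ℕ, Fin.ofNat (k + 1) (n + m) = Fin.ofNat (k + 1) n + Fin.ofNat (k + 1) m :=
    fun n m => Fin.ext (by simp [Fin.val_add])
  have hone : ∀ n : ℕ, Fin.ofNat (k + 1) (n + 1) = Fin.ofNat (k + 1) n + 1 := fun n => hadd n 1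
  rcases lc_cases (e := fun n => c (Fin.ofNat (k + 1) n)) (K := k + 1) (Nat.succ_pos k)
    (fun n => by rw [hone]; exact (hc.1 _).1) (fun n => by rw [hone]; exact (hc.1 _).2)
    (fun n => congrArg c (Fin.ext (by simp))) (fun n m h => congrArg Fin.val (hc.2 h)) with
    ⟨n, g, h1, h2, h3, h4⟩ | ⟨hk, n, t, ht, h1, h2⟩
  · simp only [hadd] at h3 h4
    exact Or.inl ⟨Fin.ofNat (k + 1) n, g, h1, h2, h3, h4⟩
  · obtain rfl : k = 1 := by omega
    refine Or.inr ⟨rfl, ?_⟩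
    simp only [hone] at h2
    generalize Fin.ofNat (1 + 1) n = r at h1 h2
    have hl : List.ofFn c = [c 0, c 1] := by simp [List.ofFn_succ]
    rw [hl]
    fin_cases r
    · exact mem_union_left _ (mem_image.2 ⟨t, ht, by rw [← h1, ← h2]; rfl⟩)
    · exact mem_union_right _ (mem_image.2 ⟨t, ht, by rw [← h1, ← h2]; rfl⟩)

end aux

/-- Use `Gr.gadget` with constant `64` and the gadgets (`p` a chain from `a` to `b`):
`g = 0`: `a = b = root`; `g = 2`: atom-node-atom with `a ≠ b` (`count_aa`, weight `q⁻¹`);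
`g = 3`: atom-node-mid-node, or node-mid-node-atom (`count_an`, weight `q ^ (-3/2)`);
`g = 4`: node-mid-node-mid-node with distinct mids (`count_nn`, weight `q⁻²`).
A simple cycle avoiding the root has a node `z = st (c i)` (atoms and mids are only joined to the
root and to nodes); look at the two neighbours `st (c (i - 1))`, `st (c (i + 1))`; a mid has just
two half-edges, to `(false, nodeOf false t)` and `(true, nodeOf true t)`, so non-backtracking
determines the continuation; injectivity of `st ∘ c` gives the lower bounds on `k + 1`.  The only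
cycles left have `k = 1`, atom-node-atom along two parallel edges: at most `2 * 64 q` of weight
`q⁻¹` (`count_double`).  Finally `5 (k + 1) 64 ^ (k + 3) + 128 ≤ C ^ (k + 2)`. -/
theorem lvl_PFc : ∃ C : ℝ, 1 ≤ C ∧ ∀ (F : Type) [Field F] [Fintype F] [DecidableEq F] [CharP F 2],
    (lvl F).PFc (fun _ => Real.log (Fintype.card F)) C := by
  refine ⟨3000, by norm_num, fun F _ _ _ _ k => ?_⟩
  have hq : (0 : ℝ) < Fintype.card F := by exact_mod_cast Fintype.card_pos
  have h0 : (lvl F).PF0 (fun _ => Real.log (Fintype.card F))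
      (fun v => ht v * Real.log (Fintype.card F)) 100 :=
    ⟨lvl_PF0.vtx.trans (by norm_num), fun v => (lvl_PF0.step v).trans (by norm_num)⟩
  have hg := (lvl F).gadget (by norm_num) h0
    (fun g p a b => List.ofFn p ∈ lcS a b ∧ ht a + ht b = g) (fun g _ a b => by
      refine (lc_sum_le (S := lcS a b) (Real.exp_pos _).le fun p hp => ⟨hp.1, le_of_eq ?_⟩).trans
        (mul_le_mul_of_nonneg_right (by exact_mod_cast lcS_card a b) (Real.exp_pos _).le)
      rw [← add_mul, hp.2]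
      simp only [sum_const, card_univ, Fintype.card_fin, nsmul_eq_mul]
      rw [mul_div_assoc]) k
  have hd : ∑ c : Fin (k + 1) → LEd F × Bool with (k = 1 ∧ List.ofFn c ∈ lcSd F),
      Real.exp (-∑ _i : Fin (k + 1), Real.log (Fintype.card F) / 2) ≤ 128 := by
    refine (lc_sum_le (S := lcSd F) (B := (Fintype.card F : ℝ)⁻¹) (by positivity)
      fun p hp => ⟨hp.2, le_of_eq ?_⟩).trans ?_
    · obtain ⟨rfl, -⟩ := hp
      simp only [sum_const, card_univ, Fintype.card_fin, nsmul_eq_mul]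
      rw [Real.exp_neg, show ((1 + 1 : ℕ) : ℝ) * (Real.log (Fintype.card F) / 2) =
        Real.log (Fintype.card F) by push_cast; ring, Real.exp_log hq]
    · rw [← div_eq_mul_inv, div_le_iff₀ hq]
      exact_mod_cast lcSd_card
  refine ((lc_sum_split (fun _ => (Real.exp_pos _).le) fun c hc => ?_).trans
    (add_le_add hg hd)).trans ?_
  · exact (lc_cyc hc).imp_left fun h => ⟨hc, h⟩
  · have h1 : (k : ℝ) + 1 ≤ 2 ^ k := by exact_mod_cast Nat.lt_two_pow_self (n := k)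
    have h2 : (2 : ℝ) ^ k * 100 ^ k ≤ 3000 ^ k := by
      rw [← mul_pow]
      exact pow_le_pow_left₀ (by norm_num) (by norm_num) k
    have h3 : (1 : ℝ) ≤ 3000 ^ k := one_le_pow₀ (by norm_num)
    have h4 := mul_le_mul_of_nonneg_right h1 (show (0 : ℝ) ≤ 100 ^ k by positivity)
    rw [pow_add, pow_add]
    nlinarith

end Crest.Agent.R196
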