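import Crest.Agent.R196.Exist
import Crest.Agent.R196.Global
import Crest.Agent.R196.Extract
import Crest.Agent.R196.Chain
import Crest.Agent.R196.Bary
import Crest.Agent.R184.Core
import Crest.Agent.R184.Hyp

/-! Row 196: assembly. -/

set_option autoImplicit false

universe u

namespace Crest.Agent.R196

theorem big_of_large {ρ : ℝ} (hρ : 0 < ρ) (k Dd : ℕ) :
    ∃ N₀ : ℕ, ∀ N m : ℕ, N₀ ≤ N → 3 ≤ m → ∀ (F F' : Type) [Fintype F] [Fintype F'],
      Fintype.card F = N ^ m → Fintype.card F' = N ^ (m + 1) → Big F F' ρ k Dd := by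
  obtain ⟨N₁, hN₁⟩ := exists_nat_ge (3 * (4 * Dd + 1) / ρ)
  refine ⟨N₁ + k ^ 2 + 1, fun N m hN hm F F' _ _ h1 h2 => ⟨?_, ?_⟩⟩
  · rw [h1]
    exact le_trans (by omega) (Nat.le_self_pow (by omega) N)
  · rw [h1, h2]
    push_cast
    have hN1 : (1 : ℝ) ≤ N := by exact_mod_cast (by omega : 1 ≤ N)
    have h3 : 3 * (4 * (Dd : ℝ) + 1) ≤ ρ * N := by
      rw [div_le_iff₀ hρ] at hN₁
      have : (N₁ : ℝ) ≤ N := by exact_mod_cast (by omega : N₁ ≤ N)
      nlinarith
    have h4 : (N : ℝ) ^ m ≤ N ^ (m + 1) := pow_le_pow_right₀ hN1 (by omega)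
    have h5 : (N : ℝ) * N ^ (m + 1) ≤ (N ^ m) ^ 2 := by
      rw [← pow_succ', ← pow_mul]
      exact pow_le_pow_right₀ hN1 (by omega)
    have h6 : (0 : ℝ) ≤ N ^ (m + 1) := by positivity
    nlinarith [mul_le_mul_of_nonneg_right h3 h6, mul_le_mul_of_nonneg_left h5 hρ.le]

theorem main :
    ∃ (G : Type) (_ : Group G),
      Crest.GroupTheory.IsHyperbolicGroup G ∧ Crest.Topology.HasFiniteClassifyingComplex G 2 ∧
      ∀ (X : Type u) [MetricSpace X] [CompleteSpace X] [ProperSpace X] [Nonempty X] [MulAction G X],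
        Crest.Geometry.IsCAT0Space X → ¬ Crest.Geometry.IsGeometricAction G X := by
  classical
  obtain ⟨τ, ρ, k, L, hτ, hτ1, hρ, hL, hdisp⟩ := small_disp.{u}
  set M := L + k + 3 with hM
  obtain ⟨K, hK⟩ := good_of_piece (8 * (6 * M + 1))
  obtain ⟨N₀, h0⟩ := exists_labels hτ hτ1 k K hL (M := M) (by omega) (by omega) (by omega)
  obtain ⟨N₁, h1⟩ := big_of_large hρ k (4 * M + 2)
  set n := N₀ + N₁ + 1 with hn
  have hn2 : n ≤ 2 ^ n := Nat.lt_two_pow_self.le
  let F : ℕ → Type := fun i => GaloisField 2 (n * (M + i))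
  letI : ∀ i, Field (F i) := fun i => inferInstanceAs (Field (GaloisField 2 (n * (M + i))))
  haveI : ∀ i, Finite (F i) := fun i => inferInstanceAs (Finite (GaloisField 2 (n * (M + i))))
  letI : ∀ i, Fintype (F i) := fun i => Fintype.ofFinite _
  haveI : ∀ i, CharP (F i) 2 := fun i => inferInstanceAs (CharP (GaloisField 2 (n * (M + i))) 2)
  have hF : ∀ i, Fintype.card (F i) = (2 ^ n) ^ (M + i) := fun i => by
    rw [← pow_mul, ← Nat.card_eq_fintype_card]
    exact GaloisField.card 2 _ (Nat.mul_ne_zero (by omega) (by omega))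
  obtain ⟨ω, hp, he, hs⟩ := h0 (2 ^ n) (by omega) F hF
  obtain ⟨hA, hI⟩ := hK _ _ _ (uG F L) _ (uG_ne) hp
  refine ⟨uGrp ω, inferInstance, R184.TP.hyperbolic _ hI,
    R184.TP.classifying _ hA (u_gen_ne_one ω), fun X _ _ _ _ _ hX hG => ?_⟩
  obtain ⟨H, hD, hmin⟩ := exists_had X hX
  haveI := hG.1
  refine u_not_const ω hL ?_ hA fun x x' => ?_
  · rw [hF, hF, ← pow_mul (2 ^ n)]
    exact Nat.pow_le_pow_right (by positivity) (by omega)
  · have hfin := finOrder_of_disp hG ((uS ω 0 x')⁻¹ * uS ω 0 x) fun ε hε => by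
      obtain ⟨z, hz⟩ := hdisp (4 * M + 2) F (uLab ω) (uSeam ω)
        (fun i => h1 (2 ^ n) (M + i) (by omega) (by omega) _ _ (hF _) (hF _)) he hs (uGrp ω)
        (uS ω) (u_rel ω) (u_seam ω) X H (fun g a b => by rw [hD, hD, dist_smul]) hmin (ε ^ 2)
        (by positivity)
      refine ⟨z, ?_⟩
      have h2 := hz x x'
      rw [hD] at h2
      rw [← dist_smul (uS ω 0 x'), ← mul_smul, mul_inv_cancel_left]
      exact (pow_le_pow_iff_left₀ dist_nonneg hε.le two_ne_zero).1 h2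
    have := R184.TP.torsionFree _ hA _ hfin
    exact (inv_mul_eq_one.1 this).symm

end Crest.Agent.R196
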