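import Crest.Agent.R196.Defs
import Crest.Agent.Lib.FinEnt.Basic

/-! Row 196: polymatroids and multiplicities. -/

set_option autoImplicit false

namespace Crest.Agent.R196

open Finset

open Classical in
/-- the size of the class of `t` -/
noncomputable def plSz {I Y : Type} [Fintype I] (cl : I → Y) (t : I) : ℕ := #{s | cl s = cl t}

theorem pl_mem_thr {I Y : Type} [Fintype I] (cl : I → Y) (τ : ℕ) (t : I) :
    t ∈ thr cl τ ↔ τ < plSz cl t := by
  unfold thr plSz
  rw [mem_filter]
  simp

theorem plSz_le {I Y : Type} [Fintype I] (cl : I → Y) (t : I) : plSz cl t ≤ Fintype.card I :=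
  card_le_univ _

theorem plSz_pos {I Y : Type} [Fintype I] (cl : I → Y) (t : I) : 0 < plSz cl t := by
  unfold plSz
  exact card_pos.2 ⟨t, by simp⟩

theorem plSz_congr {I Y : Type} [Fintype I] (cl : I → Y) {t s : I} (h : cl t = cl s) :
    plSz cl t = plSz cl s := by
  unfold plSz
  rw [h]

theorem pl_sum_range {N k : ℕ} (h : k ≤ N) (x : ℝ) :
    ∑ τ ∈ range N, (if τ < k then x else 0) = k * x := by
  rw [← sum_filter]
  have : (range N).filter (fun τ => τ < k) = range k := by
    ext τ
    simp only [mem_filter, mem_range]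
    omega
  rw [this, sum_const, card_range, nsmul_eq_mul]

theorem pl_sum_thr {I Y : Type} [Fintype I] (cl : I → Y) (g : I → ℝ) :
    ∑ τ ∈ range (Fintype.card I), ∑ t ∈ thr cl τ, g t = ∑ t, (plSz cl t : ℝ) * g t := by
  have e : ∀ τ, ∑ t ∈ thr cl τ, g t = ∑ t, if τ < plSz cl t then g t else 0 := by
    intro τ
    rw [← sum_filter]
    refine sum_congr ?_ fun _ _ => rfl
    ext t
    simp [pl_mem_thr]
  simp only [e]
  rw [sum_comm]
  exact sum_congr rfl fun t _ => pl_sum_range (plSz_le cl t) _

theorem pl_exists_rank {I Y : Type} [Fintype I] (cl : I → Y) :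
    ∃ rk : I → ℕ, (∀ t s, rk t = rk s ↔ cl t = cl s) ∧
      ∀ τ, ∃ n, ∀ t, t ∈ thr cl τ ↔ rk t < n := by
  classical
  set N := Fintype.card I with hN
  let e : I ≃ Fin N := Fintype.equivFin I
  let idx : I → ℕ := fun t => (univ.filter fun s => cl s = cl t).sup fun s => (e s : ℕ)
  have hidx : ∀ t, ∃ s, cl s = cl t ∧ idx t = e s := by
    intro t
    obtain ⟨s, hs, h⟩ := exists_mem_eq_sup (univ.filter fun s => cl s = cl t) ⟨t, by simp⟩
      (fun s => (e s : ℕ))
    exact ⟨s, (mem_filter.1 hs).2, h⟩
  have hlt : ∀ t, idx t < N := by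
    intro t
    obtain ⟨s, -, h⟩ := hidx t
    rw [h]; exact (e s).2
  refine ⟨fun t => idx t + N * (N - plSz cl t), fun t s => ⟨fun h => ?_, fun h => ?_⟩,
    fun τ => ⟨N * (N - τ), fun t => ?_⟩⟩
  · have h1 := congrArg (· % N) h
    simp only [Nat.add_mul_mod_self_left, Nat.mod_eq_of_lt (hlt _)] at h1
    obtain ⟨t', ht', h2⟩ := hidx t
    obtain ⟨s', hs', h3⟩ := hidx s
    have h4 : t' = s' := e.injective (Fin.ext (by rw [← h2, ← h3, h1]))
    rw [← ht', ← hs', h4]
  · have h1 : idx t = idx s := by simp only [idx, h]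
    simp only [h1, plSz_congr cl h]
  · rw [pl_mem_thr]
    have h1 := plSz_le cl t
    have h2 := hlt t
    constructor
    · intro h
      have h3 : N - plSz cl t + 1 ≤ N - τ := by omega
      have h4 := Nat.mul_le_mul_left N h3
      rw [Nat.mul_add, Nat.mul_one] at h4
      show idx t + N * (N - plSz cl t) < N * (N - τ)
      omega
    · intro h
      by_contra h3
      have h4 : N - τ ≤ N - plSz cl t := by omega
      have h5 := Nat.mul_le_mul_left N h4
      have h6 : idx t + N * (N - plSz cl t) < N * (N - τ) := h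
      omega

/-- Choose `rk : I → ℕ` with `rk t = rk s ↔ cl t = cl s` and such that larger classes have smaller
rank; `bel t = {s | rk s < rk t}`, `c t = f (insert t (bel t)) - f (bel t)`.  First claim:
induction on `Λ`, removing the element of largest rank, with `sub`.  Second: each `thr cl τ` is an
initial segment for `rk`, so by telescoping over the classes (`hcl`)
`f (thr cl τ) = ∑ t ∈ thr cl τ, c t / (size of the class of t)` (`c` is constant on classes); and
`t` lies in `thr cl τ` for exactly (size of its class) values of `τ < card I`. -/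
theorem polym_rank {I Y : Type} [Fintype I] [DecidableEq I] {f : Finset I → ℝ} (hf : Polym f)
    (cl : I → Y) (hcl : ∀ U t s, s ∈ U → cl t = cl s → f (insert t U) = f U) :
    ∃ c : I → ℝ, (∀ Λ : Finset I, Set.InjOn cl Λ → ∑ t ∈ Λ, c t ≤ f Λ) ∧
      ∑ τ ∈ range (Fintype.card I), f (thr cl τ) ≤ ∑ t, c t := by
  classical
  obtain ⟨rk, hrk, hthr⟩ := pl_exists_rank cl
  let B : ℕ → Finset I := fun n => univ.filter fun s => rk s < n
  refine ⟨fun t => f (insert t (B (rk t))) - f (B (rk t)), fun Λ => ?_, ?_⟩
  · induction Λ using Finset.induction_on_max_value rk with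
    | empty => intro _; rw [sum_empty, hf.empty]
    | insert a s ha hmax ih =>
      intro hinj
      rw [sum_insert ha]
      have h1 := ih (hinj.mono (by simp))
      have h2 : s ⊆ B (rk a) := by
        intro x hx
        refine mem_filter.2 ⟨mem_univ _, lt_of_le_of_ne (hmax x hx) fun h => ha ?_⟩
        have h3 : x = a := hinj (by simp [hx]) (by simp) ((hrk x a).1 h)
        exact h3 ▸ hx
      have h3 := hf.sub s (B (rk a)) a h2
      linarith
  · have hU : ∀ (D U : Finset I) (s : I), s ∈ U → (∀ x ∈ D, cl x = cl s) → f (D ∪ U) = f U := by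
      intro D U s hs
      induction D using Finset.induction_on with
      | empty => intro _; rw [empty_union]
      | insert x D _ ih =>
        intro h
        rw [insert_union, hcl _ x s (mem_union_right _ hs) (h x (mem_insert_self _ _))]
        exact ih fun y hy => h y (mem_insert_of_mem hy)
    have key : ∀ n, f (B n) =
        ∑ t ∈ B n, (f (insert t (B (rk t))) - f (B (rk t))) / (plSz cl t : ℝ) := by
      intro n
      induction n with
      | zero =>
        have : B 0 = ∅ := by simp [B]
        rw [this, sum_empty, hf.empty]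
      | succ n ih =>
        set C : Finset I := univ.filter fun s => rk s = n with hC
        have e1 : B (n + 1) = C ∪ B n := by
          ext s
          simp only [B, hC, mem_filter, mem_union, mem_univ, true_and]
          omega
        have hd : Disjoint C (B n) := by
          rw [disjoint_left]
          intro s h1 h2
          have h3 := (mem_filter.1 h1).2
          have h4 := (mem_filter.1 h2).2
          omega
        rw [e1, sum_union hd, ← ih]
        rcases C.eq_empty_or_nonempty with h0 | h0
        · rw [h0]; simp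
        have e2 : ∀ t ∈ C, (f (insert t (B (rk t))) - f (B (rk t))) / (plSz cl t : ℝ) =
            (f (C ∪ B n) - f (B n)) / (#C : ℝ) := by
          intro t ht
          have h1 : rk t = n := (mem_filter.1 ht).2
          have h2 : ∀ x, x ∈ C ↔ cl x = cl t := by
            intro x
            rw [← hrk, h1, hC, mem_filter]
            simp
          have h3 : plSz cl t = #C := by
            unfold plSz
            congr 1
            ext x
            rw [h2, mem_filter]
            simp
          have h4 := hU C (insert t (B n)) t (mem_insert_self _ _) (fun x hx => (h2 x).1 hx)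
          rw [union_insert, insert_eq_of_mem (mem_union_left _ ht)] at h4
          rw [h1, h3, h4]
        have h5 : (#C : ℝ) ≠ 0 := by exact_mod_cast (card_pos.2 h0).ne'
        rw [sum_congr rfl e2, sum_const, nsmul_eq_mul, mul_div_cancel₀ _ h5]
        ring
    have e3 : ∀ τ, f (thr cl τ) =
        ∑ t ∈ thr cl τ, (f (insert t (B (rk t))) - f (B (rk t))) / (plSz cl t : ℝ) := by
      intro τ
      obtain ⟨n, hn⟩ := hthr τ
      have : thr cl τ = B n := by
        ext t
        rw [hn, mem_filter]
        simp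
      rw [this]
      exact key n
    simp only [e3]
    rw [pl_sum_thr]
    refine le_of_eq (sum_congr rfl fun t _ => ?_)
    have h5 : (plSz cl t : ℝ) ≠ 0 := by exact_mod_cast (plSz_pos cl t).ne'
    rw [mul_div_cancel₀ _ h5]

open Crest.Agent.Lib.FinEnt in
/-- `ent_const`, `ent_le_of_det`, `cent_le_of_det`, `ent_congr_det` -/
theorem ent_polym {Ω I α : Type} [Fintype Ω] [DecidableEq I] {w : Ω → ℝ} (hw : IsPMF w)
    (Y : Ω → I → α) :
    Polym (fun U : Finset I => ent w fun ω (t : U) => Y ω t) ∧
      ∀ (U : Finset I) t s, s ∈ U → (∀ ω, w ω ≠ 0 → Y ω t = Y ω s) →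
        (ent w fun ω (x : (insert t U : Finset I)) => Y ω x) = ent w fun ω (x : U) => Y ω x := by
  have hfun : ∀ (U : Finset I) (ω ω' : Ω),
      ((fun t : U => Y ω' t) = fun t : U => Y ω t) ↔ ∀ t ∈ U, Y ω' t = Y ω t := by
    intro U ω ω'
    rw [funext_iff]
    exact ⟨fun h t ht => h ⟨t, ht⟩, fun h t => h t t.2⟩
  have hins : ∀ (U : Finset I) (t : I),
      (ent w fun ω (x : (insert t U : Finset I)) => Y ω x) - (ent w fun ω (x : U) => Y ω x) =
        cent w (fun ω => Y ω t) (fun ω (x : U) => Y ω x) := by
    intro U t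
    unfold cent
    congr 1
    refine ent_congr_det fun ω ω' _ _ => ?_
    rw [Prod.mk.injEq, hfun, hfun, forall_mem_insert]
  refine ⟨⟨?_, fun U U' h => ?_, fun U U' t h => ?_⟩, fun U t s hs h => ?_⟩
  · rw [← ent_const hw ()]
    refine ent_congr_det fun ω ω' _ _ => ?_
    rw [hfun]
    simp
  · refine ent_le_of_det hw fun ω ω' _ _ => ?_
    rw [hfun, hfun]
    exact fun h1 t ht => h1 t (h ht)
  · rw [hins, hins]
    refine cent_le_of_det hw _ fun ω ω' _ _ => ?_
    rw [hfun, hfun]
    exact fun h1 t ht => h1 t (h ht)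
  · refine ent_congr_det fun ω ω' h1 h2 => ?_
    rw [hfun, hfun, forall_mem_insert]
    exact ⟨fun h3 => h3.2, fun h3 => ⟨by rw [h ω h1, h ω' h2, h3 s hs], h3⟩⟩

/-- The right side is `∑ blocks b, h b * (card b - largest class in b)` (blocks = `lt`-classes):
`t` lies in `thr cl τ` for (size of its class) values of `τ`, and a block meets `thr cl τ` for
(largest class size) values of `τ`.  In a block, `mu` injects the matched elements of a largest
class into the rest of the block, so the matched elements number at most twice the rest. -/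
theorem match_cost {I Y Z : Type} [Fintype I] [DecidableEq I] (cl : I → Y) (lt : I → Z)
    (hlt : ∀ t s, cl t = cl s → lt t = lt s) (mu : I → Option I)
    (hsymm : ∀ t s, mu t = some s → mu s = some t)
    (hmu : ∀ t s, mu t = some s → lt t = lt s ∧ cl t ≠ cl s) (h : I → ℝ) (h0 : ∀ t, 0 ≤ h t)
    (hh : ∀ t s, lt t = lt s → h t = h s) :
    ∑ t with mu t ≠ none, h t / 2 ≤
      ∑ τ ∈ range (Fintype.card I), costOf (thr cl τ) cl lt h := by
  classical
  set N := Fintype.card I with hN
  -- the second half of the cost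
  let G : ℕ → I → ℝ := fun τ t =>
    if t ∈ thr cl τ then h t / (#{s ∈ thr cl τ | lt s = lt t} : ℝ) else 0
  have e1 : ∀ τ, costOf (thr cl τ) cl lt h =
      ∑ t ∈ thr cl τ, h t / (plSz cl t : ℝ) - ∑ t, G τ t := by
    intro τ
    have e2 : ∑ t, G τ t = ∑ t ∈ thr cl τ, h t / (#{s ∈ thr cl τ | lt s = lt t} : ℝ) := by
      simp only [G]
      rw [← sum_filter]
      refine sum_congr ?_ fun _ _ => rfl
      ext t
      simp
    rw [e2, ← sum_sub_distrib]
    unfold costOf
    refine sum_congr rfl fun t ht => ?_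
    have e3 : #{s ∈ thr cl τ | cl s = cl t} = plSz cl t := by
      unfold plSz
      congr 1
      ext s
      simp only [mem_filter, mem_univ, true_and]
      refine ⟨fun h => h.2, fun h => ⟨?_, h⟩⟩
      rw [pl_mem_thr] at ht ⊢
      rwa [plSz_congr cl h]
    rw [e3]
    ring
  simp only [e1]
  rw [sum_sub_distrib, pl_sum_thr, sum_comm, le_sub_iff_add_le, sum_filter, ← sum_add_distrib]
  have e4 : ∑ t, (plSz cl t : ℝ) * (h t / (plSz cl t : ℝ)) = ∑ t, h t := by
    refine sum_congr rfl fun t _ => ?_
    have h5 : (plSz cl t : ℝ) ≠ 0 := by exact_mod_cast (plSz_pos cl t).ne'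
    rw [mul_div_cancel₀ _ h5]
  rw [e4, ← sum_fiberwise_of_maps_to (s := univ) (t := univ.image lt) (g := lt)
    (fun t ht => mem_image_of_mem _ ht),
    ← sum_fiberwise_of_maps_to (s := univ) (t := univ.image lt) (g := lt)
    (fun t ht => mem_image_of_mem _ ht) h]
  refine sum_le_sum fun z hz => ?_
  set Bz : Finset I := univ.filter fun t => lt t = z with hBz
  have hne : Bz.Nonempty := by
    obtain ⟨t, -, ht⟩ := mem_image.1 hz
    exact ⟨t, mem_filter.2 ⟨mem_univ _, ht⟩⟩
  obtain ⟨t0, ht0, hmax⟩ := exists_max_image Bz (plSz cl) hne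
  have hz0 : lt t0 = z := (mem_filter.1 ht0).2
  have hH : ∀ t ∈ Bz, h t = h t0 := fun t ht => hh t t0 ((mem_filter.1 ht).2.trans hz0.symm)
  set C : Finset I := univ.filter fun s => cl s = cl t0 with hC
  have hCB : C ⊆ Bz := fun s hs =>
    mem_filter.2 ⟨mem_univ _, (hlt s t0 (mem_filter.1 hs).2).trans hz0⟩
  have hCsz : plSz cl t0 = #C := rfl
  -- the matched elements
  have b1 : #(Bz.filter fun t => mu t ≠ none) ≤ 2 * #(Bz \ C) := by
    have h1 : (Bz.filter fun t => mu t ≠ none) ⊆ (C.filter fun t => mu t ≠ none) ∪ (Bz \ C) := by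
      intro t ht
      obtain ⟨h2, h3⟩ := mem_filter.1 ht
      by_cases h4 : t ∈ C
      · exact mem_union_left _ (mem_filter.2 ⟨h4, h3⟩)
      · exact mem_union_right _ (mem_sdiff.2 ⟨h2, h4⟩)
    have h2 : #(C.filter fun t => mu t ≠ none) ≤ #(Bz \ C) := by
      refine card_le_card_of_injOn (fun t => (mu t).getD t) ?_ ?_
      · intro t ht
        obtain ⟨h3, h4⟩ := mem_filter.1 (mem_coe.1 ht)
        obtain ⟨s, hs⟩ := Option.ne_none_iff_exists'.1 h4
        obtain ⟨h5, h6⟩ := hmu t s hs
        simp only [hs, Option.getD_some, mem_coe, mem_sdiff]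
        refine ⟨mem_filter.2 ⟨mem_univ _, h5.symm.trans (mem_filter.1 (hCB h3)).2⟩, fun h7 => h6 ?_⟩
        rw [(mem_filter.1 h3).2, (mem_filter.1 h7).2]
      · intro t ht t' ht' he
        obtain ⟨s, hs⟩ := Option.ne_none_iff_exists'.1 (mem_filter.1 (mem_coe.1 ht)).2
        obtain ⟨s', hs'⟩ := Option.ne_none_iff_exists'.1 (mem_filter.1 (mem_coe.1 ht')).2
        simp only [hs, hs', Option.getD_some] at he
        have h3 := hsymm t s hs
        have h4 := hsymm t' s' hs'
        rw [he, h4] at h3
        exact (Option.some.inj h3).symm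
    have h3 := (card_le_card h1).trans (card_union_le _ _)
    omega
  have b2 : ∑ t ∈ Bz, (if mu t ≠ none then h t / 2 else 0) ≤ (#Bz - #C : ℝ) * h t0 := by
    rw [← sum_filter, sum_congr rfl (fun t ht => by rw [hH t (mem_filter.1 ht).1]), sum_const,
      nsmul_eq_mul]
    have h1 : (#(Bz.filter fun t => mu t ≠ none) : ℝ) ≤ 2 * (#Bz - #C : ℝ) := by
      rw [card_sdiff_of_subset hCB] at b1
      rw [← Nat.cast_sub (card_le_card hCB)]
      exact_mod_cast b1
    nlinarith [h0 t0]
  have b3 : ∑ t ∈ Bz, ∑ τ ∈ range N, G τ t ≤ #C * h t0 := by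
    rw [sum_comm, ← hCsz, ← pl_sum_range (plSz_le cl t0)]
    refine sum_le_sum fun τ _ => ?_
    split_ifs with hτ
    · set S : Finset I := (thr cl τ).filter fun s => lt s = z with hS
      have h1 : ∑ t ∈ Bz, G τ t = ∑ _t ∈ S, h t0 / (#S : ℝ) := by
        simp only [G]
        rw [← sum_filter]
        refine sum_congr ?_ fun t ht => ?_
        · ext t
          simp only [hBz, hS, mem_filter, mem_univ, true_and]
          exact and_comm
        · have h2 : lt t = z := (mem_filter.1 ht).2
          rw [hH t (mem_filter.2 ⟨mem_univ _, h2⟩), h2]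
      rw [h1, sum_const, nsmul_eq_mul]
      rcases eq_or_ne (#S : ℝ) 0 with h2 | h2
      · rw [h2, zero_mul]; exact h0 t0
      · rw [mul_div_cancel₀ _ h2]
    · refine le_of_eq (sum_eq_zero fun t ht => ?_)
      refine if_neg fun h1 => hτ ?_
      exact lt_of_lt_of_le ((pl_mem_thr cl τ t).1 h1) (hmax t ht)
  rw [sum_add_distrib, sum_congr rfl hH, sum_const, nsmul_eq_mul]
  linarith

end Crest.Agent.R196
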