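import Crest.Agent.R196.Defs

/-! Row 196: cutting walks into lollipops. -/

set_option autoImplicit false

namespace Crest.Agent.R196

open Finset

/-- (1) Every `nx`-chain `p` has `∑ z (p i) ≤ (Wb (vs (p 0)) + Wb (ve (p last))) / 2 ≤ Wm`: strong
induction on the length; if the vertices `vs (p 0), …, vs (p last), ve (p last)` are distinct use
`hpath`, otherwise cut at the first repeated vertex: a lollipop (`hlol`) followed by a shorter
(possibly empty) chain starting at the junction vertex.  (2) Extend `nx` to a permutation `σ`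
(`Equiv.Perm.exists_extending_pair`, see `R184/GlobalAux.lean`).  By induction on `N`-windows,
`∑ i < N, z (σ^[i] t) ≤ Wm * (1 + #{i < N | nx (σ^[i] t) = none})`; sum over `t`:
`N ∑ z ≤ Wm (card I + N #{nx = none})`, and let `N → ∞`. -/
theorem seg_sum {I X : Type} [Fintype I] [DecidableEq I] (nx : I → Option I)
    (hinj : ∀ t t' s, nx t = some s → nx t' = some s → t = t') (vs ve : I → X)
    (hv : ∀ t s, nx t = some s → vs s = ve t) (Wb : X → ℝ) {Wm : ℝ} (h0 : ∀ x, 0 ≤ Wb x)
    (h1 : ∀ x, Wb x ≤ Wm) (z : I → ℝ)
    (hpath : ∀ (k : ℕ) (p : Fin (k + 1) → I), (∀ i : Fin k, nx (p i.castSucc) = some (p i.succ)) →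
      (Function.Injective fun i => vs (p i)) →
      ∑ i, z (p i) ≤ (Wb (vs (p 0)) + Wb (ve (p (Fin.last k)))) / 2)
    (hlol : ∀ (k : ℕ) (p : Fin (k + 1) → I) (j : Fin (k + 1)),
      (∀ i : Fin k, nx (p i.castSucc) = some (p i.succ)) →
      (Function.Injective fun i => vs (p i)) → ve (p (Fin.last k)) = vs (p j) →
      ∑ i, z (p i) ≤ (Wb (vs (p 0)) - Wb (vs (p j))) / 2) :
    ∑ t, z t ≤ Wm * #{t | nx t = none} := by
  classical
  have chain : ∀ (k : ℕ) (p : ℕ → I), (∀ i, i < k → nx (p i) = some (p (i + 1))) →
      ∑ i ∈ range (k + 1), z (p i) ≤ (Wb (vs (p 0)) + Wb (ve (p k))) / 2 := by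
    intro k
    induction k using Nat.strong_induction_on with
    | _ k ih =>
      intro p hp
      by_cases hex : ∃ b, b ≤ k ∧ ∃ a, a < b ∧ vs (p a) = vs (p b)
      · obtain ⟨hbk, a, hab, hvab⟩ := Nat.find_spec hex
        have hmin := fun m => Nat.find_min hex (m := m)
        generalize Nat.find hex = b at hbk hab hvab hmin
        obtain ⟨b', rfl⟩ : ∃ b', b = b' + 1 := ⟨b - 1, by omega⟩
        have hl := hlol b' (fun i => p i) ⟨a, hab⟩
          (fun i => by simpa using hp i (by omega))
          (fun i i' hii => by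
            by_contra hne
            have hne' : (i : ℕ) ≠ i' := fun h => hne (Fin.ext h)
            rcases lt_or_gt_of_ne hne' with h | h
            · exact hmin i' i'.2 ⟨by omega, i, h, hii⟩
            · exact hmin i i.2 ⟨by omega, i', h, hii.symm⟩)
          (by
            have := hv _ _ (hp b' (by omega))
            simp only [Fin.val_last]
            rw [← this, hvab])
        rw [Fin.sum_univ_eq_sum_range (fun i => z (p i)) (b' + 1)] at hl
        have hr := ih (k - (b' + 1)) (by omega) (fun i => p (b' + 1 + i))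
          (fun i hi => hp _ (by omega))
        have e1 : k + 1 = (b' + 1) + (k - (b' + 1) + 1) := by omega
        have e2 : b' + 1 + (k - (b' + 1)) = k := by omega
        rw [e1, sum_range_add]
        simp only [e2, add_zero, Fin.val_zero] at hr hl
        rw [hvab] at hl
        linarith
      · have hl := hpath k (fun i => p i) (fun i => by simpa using hp i i.2)
          (fun i i' hii => by
            by_contra hne
            have hne' : (i : ℕ) ≠ i' := fun h => hne (Fin.ext h)
            rcases lt_or_gt_of_ne hne' with h | h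
            · exact hex ⟨i', by omega, i, h, hii⟩
            · exact hex ⟨i, by omega, i', h, hii.symm⟩)
        rw [Fin.sum_univ_eq_sum_range (fun i => z (p i)) (k + 1)] at hl
        simpa using hl
  have chain' : ∀ (k : ℕ) (p : ℕ → I), (∀ i, i < k → nx (p i) = some (p (i + 1))) →
      ∑ i ∈ range (k + 1), z (p i) ≤ Wm := fun k p hp => by
    have := chain k p hp
    linarith [h1 (vs (p 0)), h1 (ve (p k))]
  set y : I → ℝ := fun t => z t - Wm * (if nx t = none then 1 else 0) with hy
  have win : ∀ (N : ℕ) (p : ℕ → I), (∀ i, nx (p i) = none ∨ nx (p i) = some (p (i + 1))) →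
      ∑ i ∈ range N, y (p i) ≤ Wm := by
    intro N
    induction N using Nat.strong_induction_on with
    | _ N ih =>
      intro p hp
      have hW : 0 ≤ Wm := (h0 (vs (p 0))).trans (h1 _)
      have hyz : ∀ t, y t ≤ z t := fun t => by
        simp only [hy]
        split_ifs <;> linarith
      by_cases hex : ∃ b, b < N ∧ nx (p b) = none
      · obtain ⟨hbN, hb⟩ := Nat.find_spec hex
        have hmin := fun m => Nat.find_min hex (m := m)
        generalize Nat.find hex = b at hbN hb hmin
        have hc := chain' b p (fun i hi => (hp i).resolve_left fun h => hmin i hi ⟨by omega, h⟩)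
        have hr := ih (N - (b + 1)) (by omega) (fun i => p (b + 1 + i)) (fun i => hp _)
        have e1 : N = (b + 1) + (N - (b + 1)) := by omega
        rw [e1, sum_range_add, sum_range_succ]
        rw [sum_range_succ] at hc
        have h2 : ∑ i ∈ range b, y (p i) ≤ ∑ i ∈ range b, z (p i) := sum_le_sum fun i _ => hyz _
        have h3 : y (p b) = z (p b) - Wm := by simp [hy, hb]
        linarith
      · rcases N with _ | k
        · simpa using hW
        · have hc := chain' k p (fun i hi => (hp i).resolve_left fun h => hex ⟨i, by omega, h⟩)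
          exact (sum_le_sum fun i _ => hyz _).trans hc
  obtain ⟨σ, hσ⟩ := Equiv.Perm.exists_extending_pair (α := {t : I // (nx t).isSome})
    (f := fun t => t.1) (g := fun t => (nx t.1).get t.2) Subtype.val_injective
    (fun a b hab => Subtype.ext (hinj a.1 b.1 ((nx a.1).get a.2) (by simp)
      (by simp only at hab; rw [hab]; simp)))
  have hσ' : ∀ t, nx t = none ∨ nx t = some (σ t) := by
    intro t
    rcases h : nx t with _ | s
    · exact Or.inl rfl
    · right
      have := hσ ⟨t, by simp [h]⟩
      simp only [h, Option.get_some] at this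
      rw [this]
  have hN : ∀ N : ℕ, (N : ℝ) * ∑ t, y t ≤ Fintype.card I * Wm := by
    intro N
    have h2 : ∑ t, ∑ i ∈ range N, y ((σ ^ i) t) ≤ ∑ _t : I, Wm :=
      sum_le_sum fun t _ => win N (fun i => (σ ^ i) t) (fun i => by
        rw [pow_succ', Equiv.Perm.mul_apply]; exact hσ' _)
    rw [sum_comm] at h2
    have h3 : ∀ i ∈ range N, ∑ t, y ((σ ^ i) t) = ∑ t, y t := fun i _ =>
      Equiv.sum_comp (σ ^ i) y
    rw [sum_congr rfl h3] at h2
    simpa using h2
  have hy0 : ∑ t, y t ≤ 0 := by
    by_contra hlt
    push Not at hlt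
    obtain ⟨N, hN'⟩ := exists_nat_gt (Fintype.card I * Wm / ∑ t, y t)
    rw [div_lt_iff₀ hlt] at hN'
    linarith [hN N]
  simp only [hy, sum_sub_distrib, ← mul_sum, sum_boole] at hy0
  linarith

end Crest.Agent.R196
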