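import Crest.Agent.R196.PFwalk
import Crest.Agent.R196.Poly
import Crest.Agent.R196.Walk
import Crest.Agent.R196.Cost

/-! Row 196: the entropy inequality for one pattern. -/

set_option autoImplicit false

namespace Crest.Agent.R196

open Finset

open Crest.Agent.R034 Crest.Agent.Lib

/-- the two ends of a half-edge -/
def Gr.ends {E V : Type} (Γ : Gr E V) (h : E × Bool) (b : Bool) : V :=
  if b then Γ.st h else Γ.en h

theorem pa_gibbs {Ω α : Type} [Fintype Ω] [Fintype α] {w : Ω → ℝ} (hw : FinEnt.IsPMF w) (X : Ω → α)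
    (S : Finset α) (φ : α → ℝ) {Z : ℝ} (hZ : 0 < Z) (hX : ∀ ω, w ω ≠ 0 → X ω ∈ S)
    (hS : ∑ a ∈ S, Real.exp (-φ a) ≤ Z) :
    FinEnt.ent w X ≤ FinEnt.ex w (fun ω => φ (X ω)) + Real.log Z := by
  classical
  have h := FinEnt.ent_le_of_kernel hw X (fun a => if a ∈ S then Real.exp (-φ a) / Z else 0)
    (fun a => by split_ifs <;> positivity)
    (by
      rw [Finset.sum_ite_mem, univ_inter, ← Finset.sum_div]
      exact (div_le_one hZ).2 hS)
    (fun ω h0 => by rw [if_pos (hX ω h0)]; positivity)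
  refine h.trans (le_of_eq ?_)
  rw [← FinEnt.ex_neg, ← FinEnt.ex_const hw (Real.log Z), ← FinEnt.ex_add]
  refine FinEnt.ex_congr fun ω h0 => ?_
  rw [if_pos (hX ω h0), Real.log_div (Real.exp_pos _).ne' hZ.ne', Real.log_exp]
  ring

/-- the uniform law on an event -/
noncomputable def paW {Ω : Type} [Fintype Ω] (𝔅 : Ω → Prop) (ω : Ω) : ℝ :=
  ind (𝔅 ω) / (Fintype.card Ω * pr 𝔅)

theorem pa_pr_pos {Ω : Type} [Fintype Ω] {𝔅 : Ω → Prop} (hne : ∃ ω, 𝔅 ω) : 0 < pr 𝔅 := by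
  obtain ⟨ω, h⟩ := hne
  have : Nonempty Ω := ⟨ω⟩
  unfold pr ex
  refine div_pos (lt_of_lt_of_le ?_ (single_le_sum (f := fun ω => ind (𝔅 ω))
    (fun _ _ => ind_nonneg _) (mem_univ ω))) (by exact_mod_cast Fintype.card_pos)
  rw [ind_pos h]; norm_num

theorem paW_mem {Ω : Type} [Fintype Ω] {𝔅 : Ω → Prop} {ω : Ω} (h : paW 𝔅 ω ≠ 0) : 𝔅 ω := by
  by_contra hc
  exact h (by rw [paW, ind_neg hc, zero_div])

theorem paW_ex {Ω : Type} [Fintype Ω] (𝔅 : Ω → Prop) (f : Ω → ℝ) :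
    FinEnt.ex (paW 𝔅) f = ex (fun ω => ind (𝔅 ω) * f ω) / pr 𝔅 := by
  unfold FinEnt.ex paW
  rw [ex, div_div, Finset.sum_div]
  exact sum_congr rfl fun ω _ => by ring

theorem paW_pmf {Ω : Type} [Fintype Ω] {𝔅 : Ω → Prop} (hne : ∃ ω, 𝔅 ω) :
    FinEnt.IsPMF (paW 𝔅) := by
  have h := pa_pr_pos hne
  refine ⟨fun ω => div_nonneg (ind_nonneg _) (by positivity), ?_⟩
  have := paW_ex 𝔅 fun _ => 1
  simp only [FinEnt.ex, mul_one] at this
  rw [this]
  exact div_self h.ne'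

theorem pa_lower {Ω α : Type} [Fintype Ω] {𝔅 : Ω → Prop} (hne : ∃ ω, 𝔅 ω) (Y : Ω → α)
    (cost : Ω → ℝ) (h : ∀ ω, 𝔅 ω → pr (fun ω' => 𝔅 ω' ∧ Y ω' = Y ω) ≤ Real.exp (-cost ω)) :
    FinEnt.ex (paW 𝔅) cost + Real.log (pr 𝔅) ≤ FinEnt.ent (paW 𝔅) Y := by
  have hw := paW_pmf hne
  have hp := pa_pr_pos hne
  rw [FinEnt.ent, ← FinEnt.ex_neg, ← FinEnt.ex_const hw (Real.log (pr 𝔅)), ← FinEnt.ex_add]
  refine FinEnt.ex_mono hw fun ω h0 => ?_
  have h1 := FinEnt.pr_pos hw Y h0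
  have h2 : FinEnt.pr (paW 𝔅) Y (Y ω) ≤ Real.exp (-cost ω) / pr 𝔅 := by
    rw [FinEnt.pr, paW_ex]
    refine div_le_div_of_nonneg_right (le_trans (le_of_eq ?_) (h ω (paW_mem h0))) hp.le
    unfold pr
    congr 1
    funext ω'
    rw [ind_and]
    rfl
  have h3 := Real.log_le_log h1 h2
  rw [Real.log_div (Real.exp_pos _).ne' hp.ne', Real.log_exp] at h3
  linarith

theorem pa_point {I : Type} [Fintype I] [DecidableEq I] (mu : I → Option I)
    (hs : ∀ t s, mu t = some s → mu s = some t) (det : I → Prop)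
    (hd : ∀ t s, mu t = some s → det t → ¬ det s) (h D : I → ℝ) {γ b : ℝ} (hγ : 0 ≤ γ)
    (h1 : ∀ t, D t ≤ h t) (h2 : ∀ t, ¬ det t → D t + γ ≤ h t) (h3 : ∀ t, D t ≤ b) :
    γ / 4 * Fintype.card I - (γ / 4 + b / 2) * #{t | mu t = none} ≤
      ∑ t with mu t ≠ none, h t / 2 - ∑ t, D t / 2 := by
  classical
  have c1 : #{t | mu t ≠ none ∧ det t} ≤ #{t | mu t ≠ none ∧ ¬ det t} := by
    refine card_le_card_of_injOn (fun t => (mu t).getD t) (fun t ht => ?_) fun t ht t' ht' e => ?_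
    · simp only [coe_filter, mem_univ, true_and, Set.mem_ofPred_eq] at ht ⊢
      obtain ⟨s, hs'⟩ := Option.ne_none_iff_exists'.1 ht.1
      rw [hs', Option.getD_some, hs t s hs']
      exact ⟨by simp, hd t s hs' ht.2⟩
    · simp only [coe_filter, mem_univ, true_and, Set.mem_ofPred_eq] at ht ht'
      obtain ⟨s, h4⟩ := Option.ne_none_iff_exists'.1 ht.1
      obtain ⟨s', h5⟩ := Option.ne_none_iff_exists'.1 ht'.1
      simp only [h4, h5, Option.getD_some] at e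
      subst e
      exact Option.some.inj ((hs _ _ h4).symm.trans (hs _ _ h5))
  have c1' : (#{t | mu t ≠ none ∧ det t} : ℝ) ≤ #{t | mu t ≠ none ∧ ¬ det t} := by
    exact_mod_cast c1
  simp only [card_filter, sum_filter] at c1' ⊢
  push_cast at c1' ⊢
  rw [← card_univ, card_eq_sum_ones]
  push_cast
  have key : ∑ t : I, (γ / 4 * 1 - (γ / 4 + b / 2) * (if mu t = none then (1 : ℝ) else 0) +
      γ / 4 * ((if mu t ≠ none ∧ ¬ det t then (1 : ℝ) else 0) -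
        (if mu t ≠ none ∧ det t then (1 : ℝ) else 0))) ≤
      ∑ t : I, ((if mu t ≠ none then h t / 2 else 0) - D t / 2) := by
    refine sum_le_sum fun t _ => ?_
    have := h1 t
    have := h3 t
    by_cases hm : mu t = none
    · simp [hm]; linarith
    · by_cases hdt : det t
      · simp [hm, hdt]; linarith
      · have := h2 t hdt
        simp [hm, hdt]; linarith
  simp only [sum_add_distrib, sum_sub_distrib, ← mul_sum] at key
  nlinarith

theorem pa_cost_congr {I Y Y' Z : Type} (U : Finset I) (cl : I → Y) (cl' : I → Y') (lt : I → Z)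
    (h : I → ℝ) (e : ∀ t s, cl s = cl t ↔ cl' s = cl' t) :
    costOf U cl lt h = costOf U cl' lt h := by
  classical
  unfold costOf
  refine sum_congr rfl fun t _ => ?_
  congr 5
  ext s
  simp only [mem_filter, e t s]

/-- `w` = uniform law on `𝔅` (as weights on `Ω`), `E` its mean, `Y ω t = (θ ω t).1`,
`f U = ent (Y on U)`, `ω₀ ∈ 𝔅`, `cl = Y ω₀`, `lt` = letters at `ω₀`; `c` from `polym_rank`.
Upper bound: `z t = c t - E D (Y t) / 2 - 2 log C`, `vs, ve` the ends at `ω₀`, and `Wb x` the mean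
of `W` at any end equal to `x` at `ω₀` (well defined by `hV`; `0` if none).  For a chain `p` with
injective `vs ∘ p`, `θ ω ∘ p` is an `IsWalk` with distinct starts for all `ω ∈ 𝔅`, `cl` is injective
on it (`edge_inj`), so `∑ c (p i) ≤ f (image p) ≤ ent (θ · ∘ p) ≤ E (exponent) + log C ^ (k + 2)`
(`ent_le_of_kernel` with `r = exp (-exponent) / C ^ (k + 2)` on the admissible set, `PF2`), and
`k + 2 ≤ 2 (k + 1)`.  So `seg_sum` gives `∑ c ≤ E ∑ D / 2 + 2 log C * card I + a γ nx0`.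
Lower bound: for `U = thr cl τ`, `ω ∈ 𝔅`: the `w`-probability that `Y = Y ω` on `U` is at most
`exp (-costOf U (Y ω) lt (hh ∘ Y ω)) / pr 𝔅` (`cost_prob`), so `f U ≥ E cost + log (pr 𝔅)`; with
`match_cost` (`costOf` only depends on the relation `cl t = cl s`):
`∑ c ≥ E ∑ matched, hh / 2 + card I * log (pr 𝔅)`.  Pointwise: `mu` injects the matched elements
with deterministic edge into the matched ones with random edge (`det_inj`, the two edges differ
by `mu_spec`), so `∑ matched, hh / 2 - ∑ D / 2 ≥ γ (card I - mu0) / 4 - a γ mu0 / 2`. -/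
theorem piece_one {E V S : Type} [Fintype E] [DecidableEq E] {B : E → Type} [∀ e, Fintype (B e)]
    [∀ e, Nonempty (B e)] (Γ : Gr E V) (A : Alph E S B) {D : E → ℝ} {W : V → ℝ} {C a γ : ℝ}
    (hC : 1 ≤ C) (ha : 0 ≤ a) (hγ : 0 ≤ γ) (hP : Γ.PF2 D W C) (hA : A.OK) (hW : A.Wt D W a γ)
    {I : Type} [Fintype I] [DecidableEq I] (nx mu : I → Option I) (𝔅 : (∀ e, B e) → Prop)
    (hne : ∃ ω, 𝔅 ω) (θ : (∀ e, B e) → I → E × Bool)
    (hθ : ∀ ω, 𝔅 ω → ∃ c : Piece (Γ.hes fun e => A.emb e (ω e)) rv I,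
      c.θ = θ ω ∧ c.nx = nx ∧ c.mu = mu)
    (hE : ∀ ω ω', 𝔅 ω → 𝔅 ω' → ∀ t s, (θ ω t).1 = (θ ω s).1 → (θ ω' t).1 = (θ ω' s).1)
    (hV : ∀ ω ω', 𝔅 ω → 𝔅 ω' → ∀ t s b b', Γ.ends (θ ω t) b = Γ.ends (θ ω s) b' →
      Γ.ends (θ ω' t) b = Γ.ends (θ ω' s) b')
    (hL : ∀ ω ω', 𝔅 ω → 𝔅 ω' → ∀ t s,
      A.emb (θ ω t).1 (ω _) = A.emb (θ ω s).1 (ω _) →
      A.emb (θ ω' t).1 (ω' _) = A.emb (θ ω' s).1 (ω' _)) :
    γ / 4 * Fintype.card I ≤ Fintype.card I * (2 * Real.log C - Real.log (pr 𝔅)) +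
      (a + 1) * γ * (#{t | nx t = none} + #{t | mu t = none}) := by
  classical
  obtain ⟨ω₀, h₀⟩ := id hne
  have hw := paW_pmf hne
  set w := paW 𝔅 with hwdef
  have hB : ∀ ω, w ω ≠ 0 → 𝔅 ω := fun ω h => paW_mem h
  obtain ⟨hf, hcl⟩ := ent_polym hw fun ω t => (θ ω t).1
  obtain ⟨c, hc1, hc2⟩ := polym_rank hf (fun t => (θ ω₀ t).1) fun U t s hs h =>
    hcl U t s hs fun ω hω => hE ω₀ ω h₀ (hB ω hω) t s h
  have hnx : ∀ ω, 𝔅 ω → ∀ t s, nx t = some s →
      Γ.st (θ ω s) = Γ.en (θ ω t) ∧ θ ω s ≠ rv (θ ω t) := fun ω hω t s h => by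
    obtain ⟨P, h1, h2, -⟩ := hθ ω hω
    have := P.nx_spec t s (h2 ▸ h)
    rwa [h1] at this
  have hmu : ∀ ω, 𝔅 ω → ∀ t s, mu t = some s →
      A.emb (θ ω t).1 (ω _) = A.emb (θ ω s).1 (ω _) ∧ (θ ω t).1 ≠ (θ ω s).1 := fun ω hω t s h => by
    obtain ⟨P, h1, -, h2⟩ := hθ ω hω
    have := P.mu_spec t s (h2 ▸ h)
    rw [h1] at this
    obtain ⟨h3, h4⟩ := this
    simp only [Gr.hes, R184.flp, Prod.mk.injEq] at h3
    exact ⟨h3.1.symm, fun e => h4 (Prod.ext e.symm h3.2)⟩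
  have hms : ∀ t s, mu t = some s → mu s = some t := by
    obtain ⟨P, -, -, h2⟩ := hθ ω₀ h₀
    exact h2 ▸ P.mu_symm
  have hni : ∀ t t' s, nx t = some s → nx t' = some s → t = t' := by
    obtain ⟨P, -, h2, -⟩ := hθ ω₀ h₀
    exact h2 ▸ P.nx_inj
  have hlC : 0 ≤ Real.log C := Real.log_nonneg hC
  -- upper bound
  let Wb : V → ℝ := fun x => if h : ∃ p : I × Bool, Γ.ends (θ ω₀ p.1) p.2 = x then
    FinEnt.ex w fun ω => W (Γ.ends (θ ω h.choose.1) h.choose.2) else 0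
  have hWb : ∀ t b, Wb (Γ.ends (θ ω₀ t) b) = FinEnt.ex w fun ω => W (Γ.ends (θ ω t) b) := by
    intro t b
    have h : ∃ p : I × Bool, Γ.ends (θ ω₀ p.1) p.2 = Γ.ends (θ ω₀ t) b := ⟨(t, b), rfl⟩
    simp only [Wb, dif_pos h]
    exact FinEnt.ex_congr fun ω hω => by rw [hV ω₀ ω h₀ (hB ω hω) _ _ _ _ h.choose_spec]
  have hWs : ∀ t, Wb (Γ.st (θ ω₀ t)) = FinEnt.ex w fun ω => W (Γ.st (θ ω t)) := fun t => hWb t true
  have hWe : ∀ t, Wb (Γ.en (θ ω₀ t)) = FinEnt.ex w fun ω => W (Γ.en (θ ω t)) := fun t => hWb t false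
  have chain : ∀ (k : ℕ) (p : Fin (k + 1) → I),
      (∀ i : Fin k, nx (p i.castSucc) = some (p i.succ)) →
      (Function.Injective fun i => Γ.st (θ ω₀ (p i))) →
      (∀ ω, 𝔅 ω → Γ.IsWalk (fun i => θ ω (p i)) ∧
        Function.Injective fun i => Γ.st (θ ω (p i))) ∧
      ∑ i, c (p i) ≤ FinEnt.ent w fun ω i => θ ω (p i) := by
    intro k p hp hi
    have h1 : ∀ ω, 𝔅 ω → Γ.IsWalk (fun i => θ ω (p i)) ∧
        Function.Injective fun i => Γ.st (θ ω (p i)) := fun ω hω =>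
      ⟨fun i => hnx ω hω _ _ (hp i), fun i j e => hi (hV ω ω₀ hω h₀ _ _ true true e)⟩
    refine ⟨h1, ?_⟩
    have h2 := (h1 ω₀ h₀).1.edge_inj hi
    have h3 : Function.Injective p := fun i j e => hi (by simp only [e])
    rw [← sum_image (s := univ) (g := p) (f := c) fun i _ j _ e => h3 e]
    refine (hc1 _ ?_).trans (FinEnt.ent_le_of_det hw fun ω ω' _ _ e => ?_)
    · intro t ht s hs e
      obtain ⟨i, -, rfl⟩ := mem_image.1 (mem_coe.1 ht)
      obtain ⟨j, -, rfl⟩ := mem_image.1 (mem_coe.1 hs)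
      rw [h2 e]
    · funext ⟨t, ht⟩
      obtain ⟨i, -, rfl⟩ := mem_image.1 ht
      exact congrArg Prod.fst (congrFun e i)
  have hz : ∀ (k : ℕ) (p : Fin (k + 1) → I) (r : (∀ e, B e) → ℝ),
      ∑ i, c (p i) ≤ FinEnt.ex w (fun ω => ∑ i, D (θ ω (p i)).1 / 2 + r ω) +
        Real.log (C ^ (k + 2)) →
      ∑ i, (c (p i) - FinEnt.ex w (fun ω => D (θ ω (p i)).1 / 2) - 2 * Real.log C) ≤
        FinEnt.ex w r := by
    intro k p r h
    rw [FinEnt.ex_add, FinEnt.ex_sum, Real.log_pow] at h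
    simp only [sum_sub_distrib, sum_const, card_univ, Fintype.card_fin, nsmul_eq_mul]
    push_cast at h ⊢
    have : (0 : ℝ) ≤ k * Real.log C := by positivity
    linarith
  have up := seg_sum nx hni (fun t => Γ.st (θ ω₀ t)) (fun t => Γ.en (θ ω₀ t))
    (fun t s h => (hnx ω₀ h₀ t s h).1) Wb (Wm := a * γ)
    (fun x => by
      simp only [Wb]
      split_ifs
      · exact FinEnt.ex_nonneg hw fun _ _ => hW.W_nonneg _
      · exact le_rfl)
    (fun x => by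
      simp only [Wb]
      split_ifs
      · exact FinEnt.ex_le_const hw fun _ _ => hW.W_max _
      · positivity)
    (fun t => c t - FinEnt.ex w (fun ω => D (θ ω t).1 / 2) - 2 * Real.log C)
    (fun k p hp hi => by
      obtain ⟨h1, h2⟩ := chain k p hp hi
      refine (hz k p (fun ω => (W (Γ.st (θ ω (p 0))) + W (Γ.en (θ ω (p (Fin.last k))))) / 2)
        (h2.trans (pa_gibbs hw (fun ω i => θ ω (p i)) _ _ (by positivity) (fun ω hω => ?_)
          (hP.path k)))).trans (le_of_eq ?_)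
      · exact mem_filter.2 ⟨mem_univ _, (h1 ω (hB ω hω)).1⟩
      · simp only [hWs, hWe, div_eq_mul_inv]
        rw [FinEnt.ex_mul_const, FinEnt.ex_add])
    (fun k p j hp hi hj => by
      obtain ⟨h1, h2⟩ := chain k p hp hi
      refine (hz k p (fun ω => (W (Γ.st (θ ω (p 0))) - W (Γ.st (θ ω (p j)))) / 2)
        (h2.trans (pa_gibbs hw (fun ω i => θ ω (p i)) _ _ (by positivity) (fun ω hω => ?_)
          (hP.lol k j)))).trans (le_of_eq ?_)
      · exact mem_filter.2 ⟨mem_univ _, (h1 ω (hB ω hω)).1, (h1 ω (hB ω hω)).2,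
          hV ω₀ ω h₀ (hB ω hω) _ _ false true hj⟩
      · simp only [hWs, div_eq_mul_inv]
        rw [FinEnt.ex_mul_const, FinEnt.ex_sub])
  simp only [sum_sub_distrib, sum_const, card_univ, nsmul_eq_mul] at up
  rw [← FinEnt.ex_sum] at up
  -- lower bound
  let lt : I → S := fun t => A.emb (θ ω₀ t).1 (ω₀ _)
  have hlt : ∀ t s, (θ ω₀ t).1 = (θ ω₀ s).1 → lt t = lt s := fun t s e =>
    congrArg (fun x => A.emb x (ω₀ x)) e
  have low : ∀ U : Finset I,
      FinEnt.ex w (fun ω => costOf U (fun t => (θ ω₀ t).1) lt fun t => A.hh (θ ω t).1) +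
        Real.log (pr 𝔅) ≤ FinEnt.ent w fun ω (t : U) => (θ ω t).1 := by
    intro U
    refine pa_lower hne _ _ fun ω hω => ?_
    rw [pa_cost_congr U _ (fun t => (θ ω t).1) _ _
      fun t s => ⟨hE ω₀ ω h₀ hω s t, hE ω ω₀ hω h₀ s t⟩]
    refine le_trans (pr_mono fun ω' hω' t ht s hs e => ?_) (cost_prob A hA U (fun t => (θ ω t).1) lt
      fun t _ s _ e => hlt t s (hE ω ω₀ hω h₀ t s e))
    have e1 : (θ ω' t).1 = (θ ω t).1 := congrFun hω'.2 ⟨t, ht⟩
    have e2 : (θ ω' s).1 = (θ ω s).1 := congrFun hω'.2 ⟨s, hs⟩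
    exact ((congrArg (fun x => A.emb x (ω' x)) e1).symm.trans (hL ω₀ ω' h₀ hω'.1 t s e)).trans
      (congrArg (fun x => A.emb x (ω' x)) e2)
  have low2 := sum_le_sum fun τ (_ : τ ∈ range (Fintype.card I)) =>
    low (thr (fun t => (θ ω₀ t).1) τ)
  simp only [sum_add_distrib, sum_const, card_range, nsmul_eq_mul] at low2
  rw [← FinEnt.ex_sum] at low2
  have pt : γ / 4 * Fintype.card I - (γ / 4 + a * γ / 2) * #{t | mu t = none} ≤
      FinEnt.ex w (fun ω => ∑ τ ∈ range (Fintype.card I),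
        costOf (thr (fun t => (θ ω₀ t).1) τ) (fun t => (θ ω₀ t).1) lt fun t => A.hh (θ ω t).1) -
      FinEnt.ex w fun ω => ∑ t, D (θ ω t).1 / 2 := by
    rw [← FinEnt.ex_sub, ← FinEnt.ex_const hw (_ - _)]
    refine FinEnt.ex_mono hw fun ω hω => ?_
    have hω' := hB ω hω
    have h1 := match_cost (fun t => (θ ω₀ t).1) lt hlt mu hms (hmu ω₀ h₀)
      (fun t => A.hh (θ ω t).1) (fun t => hA.hh_nonneg _)
      fun t s e => hA.hh_eq _ _ _ _ (hL ω₀ ω h₀ hω' t s e)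
    have h2 := pa_point mu hms (fun t => A.det (θ ω t).1)
      (fun t s h d1 d2 => (hmu ω hω' t s h).2 (hA.det_inj _ _ _ _ d1 d2 (hmu ω hω' t s h).1))
      (fun t => A.hh (θ ω t).1) (fun t => D (θ ω t).1) hγ (fun t => hW.D_le _)
      (fun t => hW.D_gap _) fun t => hW.D_max _
    linarith
  have n1 : (0 : ℝ) ≤ #{t | nx t = none} := Nat.cast_nonneg _
  have n2 : (0 : ℝ) ≤ #{t | mu t = none} := Nat.cast_nonneg _
  have := mul_nonneg hγ n1
  have := mul_nonneg hγ n2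
  have := mul_nonneg (mul_nonneg ha hγ) n2
  linarith

end Crest.Agent.R196
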