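import Crest.Agent.R196.Star

/-! Row 196: energy inequalities of one level. -/

set_option autoImplicit false

universe u

namespace Crest.Agent.R196

open Finset

variable {G : Type} [Group G] {X : Type u} [MulAction G X] (H : Had X)
  {F F' : Type} [Field F] [Fintype F] [DecidableEq F] [Fintype F'] [Nonempty F']
  {τ : ℝ} {k Dd : ℕ} {ℓ : Lab F F'} {s : F → G} {s' : F' → G} {γ : Bool → F × F → G}

open Classical in
theorem qd_group {α β : Type} [Fintype α] [Fintype β] (l : α → β) (f : β → ℝ) (hf : ∀ b, 0 ≤ f b)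
    {c N : ℝ} (h : ∀ b, (#{p | l p = b} : ℝ) * N ≤ c) : (∑ p, f (l p)) * N ≤ c * ∑ b, f b := by
  rw [← Finset.sum_fiberwise (s := univ) (g := l), Finset.sum_mul, Finset.mul_sum]
  refine Finset.sum_le_sum fun b _ => ?_
  rw [Finset.sum_congr rfl (g := fun _ => f b) (fun p hp => by rw [(Finset.mem_filter.1 hp).2]),
    Finset.sum_const, nsmul_eq_mul, mul_right_comm]
  exact mul_le_mul_of_nonneg_right (h b) (hf b)

theorem qd_en {V : Type u} (H : Had V) {ι : Type} [Fintype ι] [Nonempty ι] (p : V) (A : ι → V) :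
    ∑ i, H.D p (A i) = Fintype.card ι * H.en p A := by
  have : (0 : ℝ) < Fintype.card ι := Nat.cast_pos.2 Fintype.card_pos
  rw [Had.en]
  field_simp

theorem qd_en_nonneg {V : Type u} (H : Had V) {ι : Type} [Fintype ι] (p : V) (A : ι → V) :
    0 ≤ H.en p A :=
  div_nonneg (Finset.sum_nonneg fun _ _ => H.D_nonneg _ _) (Nat.cast_nonneg _)

omit [Fintype F] [DecidableEq F] [Fintype F'] [Nonempty F'] in
theorem qd_slot (hiso : ∀ (g : G) x y, H.D (g • x) (g • y) = H.D x y) (hr : LevRel s s' ℓ γ)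
    (p₁ p₂ : X) (β : Bool) (σ : Fin 4) (p : F × F) :
    H.D (γ β p • p₂) (s (slot σ p.1 p.2) • p₁) = H.D p₁ (s' (ℓ (.inl (β, σ, p))) • p₂) := by
  rw [hr.r1 β σ p, mul_smul, hiso, H.D_symm]

/-- `H.D (γ β p • p₂) (s (slot σ p) • p₁) = H.D (s' (ℓ ..) • p₂) p₁`; group by the label, `e1u`. -/
theorem slot_bound (hiso : ∀ (g : G) x y, H.D (g • x) (g • y) = H.D x y) (he : Equi τ k Dd ℓ)
    (hr : LevRel s s' ℓ γ) (p₁ p₂ : X) (β : Bool) (σ : Fin 4) :
    ∑ p : F × F, H.D (γ β p • p₂) (s (slot σ p.1 p.2) • p₁) ≤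
      (1 + τ) * H.en p₁ (fun l => s' l • p₂) * (Fintype.card F : ℝ) ^ 2 := by
  have hq' : (0 : ℝ) < Fintype.card F' := Nat.cast_pos.2 Fintype.card_pos
  simp only [qd_slot H hiso hr]
  have := qd_group (fun p : F × F => ℓ (.inl (β, σ, p))) (fun l => H.D p₁ (s' l • p₂))
    (fun _ => H.D_nonneg _ _) (fun l => by convert he.e1u β σ l)
  rw [qd_en H p₁ fun l => s' l • p₂] at this
  refine le_of_mul_le_mul_right (this.trans (le_of_eq ?_)) hq'
  ring

/-- `r2`, `hiso` and `e4`. -/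
theorem flag_bound (hiso : ∀ (g : G) x y, H.D (g • x) (g • y) = H.D x y) (he : Equi τ k Dd ℓ)
    (hr : LevRel s s' ℓ γ) (p₂ : X) :
    (∑ t : Gd F, H.D (γ false (nodeOf false t) • p₂) (γ true (nodeOf true t) • p₂)) *
        (Fintype.card F' : ℝ) ^ 2 ≤
      (1 + τ) * (Fintype.card F : ℝ) ^ 3 * ∑ l : F' × F', H.D (s' l.1 • p₂) (s' l.2 • p₂) := by
  have e1 : ∀ t : Gd F, H.D (γ false (nodeOf false t) • p₂) (γ true (nodeOf true t) • p₂) =
      H.D (s' (ℓ (.inr (false, t))) • p₂) (s' (ℓ (.inr (true, t))) • p₂) := by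
    intro t
    rw [hr.r2 t, mul_assoc, mul_smul, hiso, ← hiso (s' (ℓ (.inr (false, t)))), smul_smul,
      mul_inv_cancel_left]
  simp only [e1]
  exact qd_group (fun t : Gd F => (ℓ (.inr (false, t)), ℓ (.inr (true, t))))
    (fun l : F' × F' => H.D (s' l.1 • p₂) (s' l.2 • p₂)) (fun _ => H.D_nonneg _ _)
    (fun l => by
      have := he.e4 l.1 l.2
      convert this using 4
      ext t
      simp only [Finset.mem_filter, Prod.ext_iff])

/-- `H.D p₀ (A x) ≤ 3 (H.D (A x) (P x y) + H.D (P x y) (A y) + H.D (A y) p₀)` (`tri'`), summed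
over `y`, with `e2` for `σ = 0` and `σ = 1`. -/
theorem sup_bound (hiso : ∀ (g : G) x y, H.D (g • x) (g • y) = H.D x y) (he : Equi τ k Dd ℓ)
    (hr : LevRel s s' ℓ γ) (p₀ p₁ p₂ : X) (x : F) :
    H.D p₀ (s x • p₁) * Fintype.card F ≤
      3 * (2 * Dd * Fintype.card F' * H.en p₁ (fun l => s' l • p₂) +
        Fintype.card F * H.en p₀ (fun x => s x • p₁)) := by
  have hσ : ∀ σ : Fin 4, ∑ y : F, H.D (γ false (x, y) • p₂) (s (slot σ x y) • p₁) ≤
      Dd * (Fintype.card F' * H.en p₁ (fun l => s' l • p₂)) := by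
    intro σ
    have e1 := fun y => qd_slot H hiso hr p₁ p₂ false σ (x, y)
    simp only at e1
    simp only [e1]
    have := qd_group (fun y : F => ℓ (.inl (false, σ, x, y))) (fun l => H.D p₁ (s' l • p₂))
      (fun _ => H.D_nonneg _ _) (N := 1) (c := Dd) (fun l => by
        rw [mul_one]
        have := he.e2 false σ x l
        exact_mod_cast (by convert this))
    rwa [qd_en H p₁ fun l => s' l • p₂, mul_one] at this
  have h0 := hσ 0
  have h1 := hσ 1
  simp only [slot, Matrix.cons_val_zero, Matrix.cons_val_one] at h0 h1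
  have h2 : ∑ _y : F, H.D p₀ (s x • p₁) ≤ ∑ y : F, 3 * (H.D (γ false (x, y) • p₂) (s x • p₁) +
      H.D (γ false (x, y) • p₂) (s y • p₁) + H.D p₀ (s y • p₁)) := by
    refine Finset.sum_le_sum fun y _ => ?_
    have a1 := H.tri' p₀ (s y • p₁) (s x • p₁) (ε := 2) two_pos
    have a2 := H.two (s y • p₁) (γ false (x, y) • p₂) (s x • p₁)
    rw [H.D_symm (s y • p₁) (γ false (x, y) • p₂)] at a2
    linarith
  rw [← Finset.mul_sum, Finset.sum_add_distrib, Finset.sum_add_distrib,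
    qd_en H p₀ fun x => s x • p₁, Finset.sum_const, Finset.card_univ, nsmul_eq_mul] at h2
  linarith

/-- `quad` for `p₀, A x, P x y, A y`, `slot_bound` for `σ = 0, 1` and `star`. -/
theorem quad_up (hiso : ∀ (g : G) x y, H.D (g • x) (g • y) = H.D x y) (hτ : 0 < τ)
    (hk : 2 ≤ k * τ ^ 2) (hq : k ^ 2 ≤ Fintype.card F) (he : Equi τ k Dd ℓ)
    (hr : LevRel s s' ℓ γ) (p₀ p₁ p₂ : X) (h1 : H.IsMin p₁ fun l => s' l • p₂) :
    ∑ p : F × F, H.D (s p.1 • p₁) (s p.2 • p₁) ≤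
      ((1 + τ) * H.en p₀ (fun x => s x • p₁) + (1 + 5 * τ) * H.en p₁ (fun l => s' l • p₂)) *
        (Fintype.card F : ℝ) ^ 2 := by
  have h0 := slot_bound H hiso he hr p₁ p₂ false 0
  have h2 := slot_bound H hiso he hr p₁ p₂ false 1
  have h3 := star H hiso hτ hk hq he hr p₀ p₁ p₂ h1 false
  simp only [slot, Matrix.cons_val_zero, Matrix.cons_val_one] at h0 h2
  have h4 : ∑ p : F × F, (H.D p₀ (γ false p • p₂) + H.D (s p.1 • p₁) (s p.2 • p₁)) ≤
      ∑ p : F × F, (H.D p₀ (s p.1 • p₁) + H.D (γ false p • p₂) (s p.1 • p₁) +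
        H.D (γ false p • p₂) (s p.2 • p₁) + H.D p₀ (s p.2 • p₁)) := by
    refine Finset.sum_le_sum fun p _ => ?_
    have := H.quad p₀ (s p.1 • p₁) (γ false p • p₂) (s p.2 • p₁)
    rwa [H.D_symm (s p.1 • p₁) (γ false p • p₂), H.D_symm (s p.2 • p₁) p₀] at this
  have h5 : ∑ p : F × F, H.D p₀ (s p.1 • p₁) =
      (Fintype.card F : ℝ) ^ 2 * H.en p₀ (fun x => s x • p₁) := by
    rw [Fintype.sum_prod_type]
    simp only [Finset.sum_const, Finset.card_univ, nsmul_eq_mul]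
    rw [← Finset.mul_sum, qd_en H p₀ fun x => s x • p₁]
    ring
  have h6 : ∑ p : F × F, H.D p₀ (s p.2 • p₁) =
      (Fintype.card F : ℝ) ^ 2 * H.en p₀ (fun x => s x • p₁) := by
    rw [Fintype.sum_prod_type]
    simp only
    rw [qd_en H p₀ fun x => s x • p₁]
    simp only [Finset.sum_const, Finset.card_univ, nsmul_eq_mul]
    ring
  simp only [Finset.sum_add_distrib] at h4
  linarith

/-- In the tangent cone at `p₀`: `∑ p, H.D (A p.1) (A p.2) ≥ ∑ p, C.D .. ≥ 2 q² a₀` by `cen`;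
compare with `quad_up`. -/
theorem quad_mono (hiso : ∀ (g : G) x y, H.D (g • x) (g • y) = H.D x y) (hτ : 0 < τ)
    (hk : 2 ≤ k * τ ^ 2) (hq : k ^ 2 ≤ Fintype.card F) (he : Equi τ k Dd ℓ)
    (hr : LevRel s s' ℓ γ) (p₀ p₁ p₂ : X) (h0 : H.IsMin p₀ fun x => s x • p₁)
    (h1 : H.IsMin p₁ fun l => s' l • p₂) :
    (1 - τ) * H.en p₀ (fun x => s x • p₁) ≤ (1 + 5 * τ) * H.en p₁ (fun l => s' l • p₂) := by
  have hq0 : (0 : ℝ) < Fintype.card F := Nat.cast_pos.2 Fintype.card_pos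
  have h2 := quad_up H hiso hτ hk hq he hr p₀ p₁ p₂ h1
  obtain ⟨T, C, lg, hT⟩ := H.exists_tangent p₀
  have h3 : ∀ x : F, Fintype.card F * H.D p₀ (s x • p₁) +
      Fintype.card F * H.en p₀ (fun x => s x • p₁) ≤ ∑ y, H.D (s x • p₁) (s y • p₁) := by
    intro x
    have a1 := hT.cen F (fun x => s x • p₁) h0 (lg (s x • p₁))
    have a2 : ∑ y, (H.D p₀ (s x • p₁) + H.D p₀ (s y • p₁) -
        2 * C.ip (lg (s x • p₁)) (lg (s y • p₁))) ≤ ∑ y, H.D (s x • p₁) (s y • p₁) := by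
      refine Finset.sum_le_sum fun y _ => ?_
      have := hT.le (s x • p₁) (s y • p₁)
      rwa [C.D_eq, hT.nrm, hT.nrm] at this
    rw [Finset.sum_sub_distrib, Finset.sum_add_distrib, ← Finset.mul_sum,
      qd_en H p₀ fun x => s x • p₁, Finset.sum_const, Finset.card_univ, nsmul_eq_mul] at a2
    linarith
  have h4 := Finset.sum_le_sum fun x (_ : x ∈ (univ : Finset F)) => h3 x
  rw [Finset.sum_add_distrib, ← Finset.mul_sum, qd_en H p₀ fun x => s x • p₁, Finset.sum_const,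
    Finset.card_univ, nsmul_eq_mul] at h4
  rw [Fintype.sum_prod_type] at h2
  refine le_of_mul_le_mul_right ?_ (pow_pos hq0 2)
  linarith

end Crest.Agent.R196
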