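import Crest.Agent.R196.Tangent

/-! Row 196: the star inequality. -/

set_option autoImplicit false

universe u

namespace Crest.Agent.R196

open Finset

/-- iterated sum in a cone -/
def starS {T : Type u} (C : Cone T) {A : Type} (ζ : A → T) : (k : ℕ) → (Fin k → A) → T
  | 0, _ => C.o
  | k + 1, Λ => C.add (ζ (Λ 0)) (starS C ζ k (Fin.tail Λ))

theorem star_ip_le {T : Type u} (C : Cone T) {A : Type} (ζ : A → T) (g : T) (k : ℕ)
    (Λ : Fin k → A) : ∑ j, C.ip g (ζ (Λ j)) ≤ C.ip g (starS C ζ k Λ) := by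
  induction k with
  | zero => simp [starS, C.ip_o]
  | succ k ih =>
    rw [Fin.sum_univ_succ, starS]
    have h1 := ih (Fin.tail Λ)
    have h2 := C.ip_add g (ζ (Λ 0)) (starS C ζ k (Fin.tail Λ))
    simp only [Fin.tail] at h1
    linarith

theorem star_nrm_le {T : Type u} (C : Cone T) {A : Type} [Fintype A] (ζ : A → T) {a : ℝ}
    (ha : ∑ l, C.nrm (ζ l) = Fintype.card A * a) (cen : ∀ g, ∑ l, C.ip g (ζ l) ≤ 0) (k : ℕ) :
    ∑ Λ : Fin k → A, C.nrm (starS C ζ k Λ) ≤ k * (Fintype.card A : ℝ) ^ k * a := by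
  induction k with
  | zero => simp [starS, C.nrm_o]
  | succ k ih =>
    rw [← (Fin.consEquiv fun _ : Fin (k + 1) => A).sum_comp, Fintype.sum_prod_type_right]
    have h1 : ∀ Λ : Fin k → A, ∑ l : A, C.nrm (starS C ζ (k + 1)
        ((Fin.consEquiv fun _ : Fin (k + 1) => A) (l, Λ))) ≤
        Fintype.card A * a + Fintype.card A * C.nrm (starS C ζ k Λ) := by
      intro Λ
      have h2 : ∀ l : A, C.nrm (starS C ζ (k + 1)
          ((Fin.consEquiv fun _ : Fin (k + 1) => A) (l, Λ))) =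
          C.nrm (ζ l) + C.nrm (starS C ζ k Λ) + 2 * C.ip (starS C ζ k Λ) (ζ l) := by
        intro l
        rw [C.ip_symm, ← C.nrm_add]
        rfl
      simp only [h2, sum_add_distrib, ← mul_sum, ha, sum_const, card_univ, nsmul_eq_mul]
      linarith [cen (starS C ζ k Λ)]
    refine (sum_le_sum fun Λ _ => h1 Λ).trans ?_
    simp only [sum_add_distrib, ← mul_sum, sum_const, card_univ, nsmul_eq_mul, Fintype.card_fun,
      Fintype.card_fin]
    have h3 := mul_le_mul_of_nonneg_left ih (Nat.cast_nonneg (α := ℝ) (Fintype.card A))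
    push_cast
    calc _ ≤ (Fintype.card A : ℝ) ^ k * (Fintype.card A * a) +
          Fintype.card A * (k * (Fintype.card A : ℝ) ^ k * a) := by linarith
      _ = _ := by ring

theorem star_desc (q : ℕ) : ∀ j : ℕ, j ≤ q →
    (q : ℝ) ^ j * (2 * q - (j : ℝ) ^ 2) ≤ 2 * q * (q.descFactorial j : ℝ)
  | 0, _ => by simp
  | j + 1, hj => by
    have ih := star_desc q j (by omega)
    have h1 : (j : ℝ) + 1 ≤ q := by exact_mod_cast hj
    have h0 : (0 : ℝ) ≤ j := Nat.cast_nonneg j
    rw [Nat.descFactorial_succ, Nat.cast_mul, Nat.cast_sub (by omega)]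
    have h2 := mul_le_mul_of_nonneg_left ih (show (0 : ℝ) ≤ q - j by linarith)
    have h3 : (0 : ℝ) ≤ (q : ℝ) ^ j * ((j : ℝ) ^ 3 + q) := by positivity
    push_cast
    rw [pow_succ]
    nlinarith

open Classical in
theorem star_card {F : Type} [Fintype F] [Nonempty F] {k : ℕ} (hq : k ^ 2 ≤ Fintype.card F) :
    (Fintype.card F : ℝ) ^ k ≤ 2 * #{y : Fin k → F | Function.Injective y} := by
  have h1 : #{y : Fin k → F | Function.Injective y} = (Fintype.card F).descFactorial k := by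
    rw [← Fintype.card_subtype,
      Fintype.card_congr (Equiv.subtypeInjectiveEquivEmbedding (Fin k) F),
      Fintype.card_embedding_eq, Fintype.card_fin]
  have h2 := star_desc (Fintype.card F) k (le_trans (Nat.le_self_pow two_ne_zero k) hq)
  have h3 : (0 : ℝ) < Fintype.card F := by exact_mod_cast Fintype.card_pos
  have h4 : (k : ℝ) ^ 2 ≤ Fintype.card F := by exact_mod_cast hq
  have h5 : (0 : ℝ) ≤ (Fintype.card F : ℝ) ^ k := by positivity
  rw [h1]
  refine le_of_mul_le_mul_left ?_ h3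
  nlinarith

open Classical in
theorem star_equi {F : Type} [Field F] [Fintype F] {k : ℕ} (j : Fin k) (φ : F → ℝ) :
    Fintype.card F * ∑ y : Fin k → F with Function.Injective y, φ (y j) =
      #{y : Fin k → F | Function.Injective y} * ∑ t, φ t := by
  have h1 : ∀ t : F, ∑ y : Fin k → F with Function.Injective y, φ (y j) =
      ∑ y : Fin k → F with Function.Injective y, φ (y j + t) := by
    intro t
    refine (sum_bij' (fun y _ i => y i + t) (fun y _ i => y i - t) ?_ ?_ ?_ ?_ ?_).symm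
    · intro y hy
      simp only [mem_filter, mem_univ, true_and] at hy ⊢
      exact (add_left_injective t).comp hy
    · intro y hy
      simp only [mem_filter, mem_univ, true_and] at hy ⊢
      exact (sub_left_injective (b := t)).comp hy
    · intro y _
      funext i
      simp
    · intro y _
      funext i
      simp
    · intro y _
      rfl
  calc Fintype.card F * ∑ y : Fin k → F with Function.Injective y, φ (y j)
      = ∑ t : F, ∑ y : Fin k → F with Function.Injective y, φ (y j + t) := by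
        simp only [← h1, sum_const, card_univ, nsmul_eq_mul]
    _ = ∑ y : Fin k → F with Function.Injective y, ∑ t, φ t := by
        rw [sum_comm]
        exact sum_congr rfl fun y _ => Equiv.sum_comp (Equiv.addLeft (y j)) φ
    _ = _ := by rw [sum_const, nsmul_eq_mul]

open Classical in
theorem star_core {T : Type u} (C : Cone T) {F A : Type} [Field F] [Fintype F] [Fintype A]
    [Nonempty A] {τ a : ℝ} {k : ℕ} (hτ : 0 < τ) (hk : 2 ≤ k * τ ^ 2) (hq : k ^ 2 ≤ Fintype.card F)
    (ξ : F → T) (ζ : A → T) (lab : F → F → A)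
    (ha : ∑ l, C.nrm (ζ l) = Fintype.card A * a) (cen : ∀ g, ∑ l, C.ip g (ζ l) ≤ 0)
    (e3 : ∀ Λ : Fin k → A, (#{p : F × (Fin k → F) | Function.Injective p.2 ∧
      ∀ j, lab p.1 (p.2 j) = Λ j} : ℝ) * (Fintype.card A : ℝ) ^ k ≤
      2 * (Fintype.card F : ℝ) ^ (k + 1)) :
    2 * ∑ x, ∑ y, C.ip (ξ x) (ζ (lab x y)) ≤
      Fintype.card F * τ * ∑ x, C.nrm (ξ x) + 2 * τ * (Fintype.card F : ℝ) ^ 2 * a := by
  set q : ℝ := (Fintype.card F : ℝ) with hqd
  set P : ℝ := (#{y : Fin k → F | Function.Injective y} : ℝ) with hPd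
  have hq0 : 0 < q := by rw [hqd]; exact_mod_cast Fintype.card_pos
  have hA0 : (0 : ℝ) < Fintype.card A := by exact_mod_cast Fintype.card_pos
  have hk0 : (0 : ℝ) < k := by
    rcases (Nat.cast_nonneg (α := ℝ) k).eq_or_lt with h | h
    · rw [← h] at hk; norm_num at hk
    · exact h
  have hP : q ^ k ≤ 2 * P := star_card hq
  have hP0 : 0 < P := by have := pow_pos hq0 k; linarith
  have ha0 : 0 ≤ a := by
    have h1 : 0 ≤ ∑ l, C.nrm (ζ l) := sum_nonneg fun l _ => C.nrm_nonneg _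
    rw [ha] at h1
    exact le_of_mul_le_mul_left (by rwa [mul_zero]) hA0
  set Tt : ℝ := ∑ x, ∑ y : Fin k → F with Function.Injective y,
    C.nrm (starS C ζ k fun j => lab x (y j)) with hT
  have hTle : Tt ≤ 2 * q ^ (k + 1) * (k * a) := by
    have h1 : Tt = ∑ p : F × (Fin k → F) with Function.Injective p.2,
        C.nrm (starS C ζ k fun j => lab p.1 (p.2 j)) := by
      rw [hT, sum_filter, Fintype.sum_prod_type]
      exact sum_congr rfl fun x _ => sum_filter _ _
    have h2 := sum_fiberwise' (univ.filter fun p : F × (Fin k → F) => Function.Injective p.2)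
      (fun p : F × (Fin k → F) => fun j => lab p.1 (p.2 j)) (fun Λ => C.nrm (starS C ζ k Λ))
    have hAk : (0 : ℝ) < (Fintype.card A : ℝ) ^ k := pow_pos hA0 k
    refine le_of_mul_le_mul_right ?_ hAk
    rw [h1, ← h2, sum_mul]
    calc _ ≤ ∑ Λ : Fin k → A, 2 * q ^ (k + 1) * C.nrm (starS C ζ k Λ) := by
          refine sum_le_sum fun Λ _ => ?_
          rw [sum_const, nsmul_eq_mul, mul_right_comm]
          refine mul_le_mul_of_nonneg_right (le_trans (le_of_eq ?_) (e3 Λ)) (C.nrm_nonneg _)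
          congr 3
          ext p
          simp only [mem_filter, mem_univ, true_and, funext_iff]
      _ ≤ 2 * q ^ (k + 1) * (k * (Fintype.card A : ℝ) ^ k * a) := by
          rw [← mul_sum]
          exact mul_le_mul_of_nonneg_left (star_nrm_le C ζ ha cen k) (by positivity)
      _ = _ := by ring
  have hx : ∀ x, k * P * ∑ y, C.ip (ξ x) (ζ (lab x y)) ≤
      q * ((τ * k) * P * C.nrm (ξ x) + (∑ y : Fin k → F with Function.Injective y,
        C.nrm (starS C ζ k fun j => lab x (y j))) / (τ * k)) / 2 := by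
    intro x
    calc k * P * ∑ y, C.ip (ξ x) (ζ (lab x y))
        = ∑ j : Fin k, q * ∑ y : Fin k → F with Function.Injective y,
            C.ip (ξ x) (ζ (lab x (y j))) := by
          rw [sum_congr rfl fun j _ => star_equi j fun y => C.ip (ξ x) (ζ (lab x y)), sum_const,
            card_univ, Fintype.card_fin, nsmul_eq_mul, mul_assoc]
      _ = q * ∑ y : Fin k → F with Function.Injective y, ∑ j : Fin k,
            C.ip (ξ x) (ζ (lab x (y j))) := by rw [← mul_sum, sum_comm]
      _ ≤ q * ∑ y : Fin k → F with Function.Injective y, ((τ * k) * C.nrm (ξ x) +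
            C.nrm (starS C ζ k fun j => lab x (y j)) / (τ * k)) / 2 := by
          refine mul_le_mul_of_nonneg_left (sum_le_sum fun y _ => ?_) hq0.le
          exact (star_ip_le C ζ (ξ x) k fun j => lab x (y j)).trans
            ((le_abs_self _).trans (C.abs_ip_le _ _ (by positivity)))
      _ = _ := by
          rw [← sum_div, sum_add_distrib, sum_const, nsmul_eq_mul, ← sum_div]
          ring
  have hsum := sum_le_sum fun x (_ : x ∈ univ) => hx x
  rw [← mul_sum, ← sum_div, ← mul_sum, sum_add_distrib, ← mul_sum, ← sum_div, ← hT] at hsum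
  have h5 : Tt / (τ * k) ≤ 2 * τ * q * a * (k * P) := by
    rw [div_le_iff₀ (by positivity)]
    calc Tt ≤ 2 * q ^ (k + 1) * (k * a) := hTle
      _ = q ^ k * 2 * (q * k * a) := by ring
      _ ≤ (2 * P) * (k * τ ^ 2) * (q * k * a) := by gcongr
      _ = _ := by ring
  have h6 := mul_le_mul_of_nonneg_left h5 hq0.le
  refine le_of_mul_le_mul_left ?_ (mul_pos hk0 hP0)
  nlinarith

variable {G : Type} [Group G] {X : Type u} [MulAction G X] (H : Had X)
  {F F' : Type} [Field F] [Fintype F] [DecidableEq F] [Fintype F'] [Nonempty F']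
  {τ : ℝ} {k Dd : ℕ} {ℓ : Lab F F'} {s : F → G} {s' : F' → G} {γ : Bool → F × F → G}

/-- Write `q = card F`, `a₀, a₁` for the two energies.  In the tangent cone at `p₁` let
`ξ x = lg ((s x)⁻¹ • p₀)`, `ζ l = lg (s' l • p₂)`; `∑ nrm (ξ x) = q a₀`, `ζ` is centred (`cen`).  By
`r1` with `σ = 0` and `hiso`, `H.D p₀ (γ β (x, y) • p₂) ≥ C.D (ξ x) (ζ (ℓ x y))
= nrm + nrm - 2 ip`; `e1l` bounds `∑ nrm (ζ (ℓ x y)) ≥ (1 - τ) q² a₁`.  For `Λ : Fin k → F'` let
`S Λ` be the iterated `add` of the `ζ (Λ j)` (recursion on `k`, e.g. `Fin.snoc`/lists):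
`∑ j, ip g (ζ (Λ j)) ≤ ip g (S Λ)` (`ip_add`), and the mean of `nrm (S Λ)` over all `Λ` is at
most `k a₁` (`nrm_add`, centring).  Let `P ≥ q ^ k / 2` be the number of injective
`y : Fin k → F` (`k ^ 2 ≤ q`; `Nat.descFactorial`); each coordinate of an injective tuple is
equidistributed (translate by `t : F`).  So
`k (P / q) ∑ y, ip (ξ x) (ζ (ℓ x y)) ≤ ∑ tuples, ip (ξ x) (S ..) ≤ ∑ (τ k nrm (ξ x) + nrm S / (τ k)) / 2`
(`abs_ip_le`), and `e3` gives `∑ x, ∑ tuples, nrm S ≤ 2 q ^ (k + 1) k a₁`.  Hence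
`2 ∑ x y, ip ≤ q² (τ a₀ + 4 a₁ / (k τ)) ≤ q² (τ a₀ + 2 τ a₁)`. -/
theorem star (hiso : ∀ (g : G) x y, H.D (g • x) (g • y) = H.D x y) (hτ : 0 < τ)
    (hk : 2 ≤ k * τ ^ 2) (hq : k ^ 2 ≤ Fintype.card F) (he : Equi τ k Dd ℓ)
    (hr : LevRel s s' ℓ γ) (p₀ p₁ p₂ : X) (h1 : H.IsMin p₁ fun l => s' l • p₂) (β : Bool) :
    ((1 - τ) * H.en p₀ (fun x => s x • p₁) + (1 - 3 * τ) * H.en p₁ (fun l => s' l • p₂)) *
      (Fintype.card F : ℝ) ^ 2 ≤ ∑ p : F × F, H.D p₀ (γ β p • p₂) := by
  classical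
  obtain ⟨T, C, lg, hT⟩ := H.exists_tangent p₁
  have hq0 : (0 : ℝ) < Fintype.card F := by exact_mod_cast Fintype.card_pos
  have hA0 : (0 : ℝ) < Fintype.card F' := by exact_mod_cast Fintype.card_pos
  set a₀ := H.en p₀ (fun x => s x • p₁) with ha₀
  set a₁ := H.en p₁ (fun l => s' l • p₂) with ha₁
  let ξ : F → T := fun x => lg ((s x)⁻¹ • p₀)
  let ζ : F' → T := fun l => lg (s' l • p₂)
  let lab : F → F → F' := fun x y => ℓ (.inl (β, 0, x, y))
  have hN : ∑ x, C.nrm (ξ x) = Fintype.card F * a₀ := by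
    rw [ha₀, Had.en, mul_div_cancel₀ _ hq0.ne']
    refine sum_congr rfl fun x _ => ?_
    rw [hT.nrm, ← hiso (s x), smul_inv_smul, H.D_symm]
  have ha : ∑ l, C.nrm (ζ l) = Fintype.card F' * a₁ := by
    rw [ha₁, Had.en, mul_div_cancel₀ _ hA0.ne']
    exact sum_congr rfl fun l _ => hT.nrm _
  have hc := star_core C hτ hk hq ξ ζ lab ha (hT.cen F' _ h1) fun Λ => by
    convert he.e3 β Λ
  have hlow : (1 - τ) * (Fintype.card F : ℝ) ^ 2 * a₁ ≤ ∑ p : F × F, C.nrm (ζ (lab p.1 p.2)) := by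
    have h2 := sum_fiberwise' (univ : Finset (F × F)) (fun p => lab p.1 p.2) fun l => C.nrm (ζ l)
    refine le_of_mul_le_mul_right ?_ hA0
    rw [← h2, sum_mul]
    calc (1 - τ) * (Fintype.card F : ℝ) ^ 2 * a₁ * Fintype.card F'
        = ∑ l, (1 - τ) * (Fintype.card F : ℝ) ^ 2 * C.nrm (ζ l) := by
          rw [← mul_sum, ha]; ring
      _ ≤ _ := by
          refine sum_le_sum fun l _ => ?_
          rw [sum_const, nsmul_eq_mul, mul_right_comm _ _ (Fintype.card F' : ℝ)]
          refine mul_le_mul_of_nonneg_right ?_ (C.nrm_nonneg _)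
          convert he.e1l β 0 l
  have hD : ∀ p : F × F, C.nrm (ξ p.1) + C.nrm (ζ (lab p.1 p.2)) -
      2 * C.ip (ξ p.1) (ζ (lab p.1 p.2)) ≤ H.D p₀ (γ β p • p₂) := by
    intro p
    rw [← C.D_eq, hr.r1 β 0 p, mul_smul, ← hiso (s (slot 0 p.1 p.2))⁻¹, inv_smul_smul]
    exact hT.le _ _
  refine le_trans ?_ (sum_le_sum fun p _ => hD p)
  rw [sum_sub_distrib, sum_add_distrib, ← mul_sum]
  have h3 : ∑ p : F × F, C.nrm (ξ p.1) = Fintype.card F * (Fintype.card F * a₀) := by
    rw [Fintype.sum_prod_type_right, sum_congr rfl fun _ _ => hN, sum_const, card_univ,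
      nsmul_eq_mul]
  rw [h3, Fintype.sum_prod_type (f := fun p : F × F => C.ip (ξ p.1) (ζ (lab p.1 p.2)))]
  rw [hN] at hc
  nlinarith

end Crest.Agent.R196
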