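import Crest.Agent.R196.Cone

/-! Row 196: the tangent pre-cone. -/

set_option autoImplicit false

universe u

namespace Crest.Agent.R196

open Finset Filter Topology

/-- inner product of a pre-cone -/
noncomputable def PH.ip {V : Type u} (P : PH V) (x y : V) : ℝ :=
  (P.D P.o x + P.D P.o y - P.D x y) / 2

namespace Had

variable {V : Type u} (H : Had V) (p : V)

theorem tp_Q (e f g m : V) (t : ℝ) (h0 : 0 ≤ t) (h1 : t ≤ 1) :
    H.D e f / 4 + t * (1 - t) * H.D g m ≤
      t * (H.D e g + H.D f g) / 2 + (1 - t) * (H.D e m + H.D f m) / 2 := by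
  have a1 := mul_le_mul_of_nonneg_left (H.CN g e f) h0
  have a2 := mul_le_mul_of_nonneg_left (H.CN m e f) (sub_nonneg.2 h1)
  have a3 := H.tri g (H.mid e f) m (1 - t) (sub_nonneg.2 h1) (by linarith)
  rw [H.D_symm (H.mid e f) m] at a3
  rw [H.D_symm e g, H.D_symm f g, H.D_symm e m, H.D_symm f m]
  nlinarith

theorem tp_D_iter (n : ℕ) (x : V) : 4 ^ n * H.D p ((H.mid p)^[n] x) = H.D p x := by
  induction n with
  | zero => simp
  | succ n ih => rw [Function.iterate_succ_apply', H.D_mid_left, ← ih]; ring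

/-- the rescaled point -/
def tpSc (n : ℕ) (a : V × ℕ) : V := (H.mid p)^[n - a.2] a.1

/-- the rescaled distances -/
def tpSeq (a b : V × ℕ) (n : ℕ) : ℝ := 4 ^ n * H.D (H.tpSc p n a) (H.tpSc p n b)

/-- the tangent distance -/
noncomputable def tpD (a b : V × ℕ) : ℝ := ⨅ j, H.tpSeq p a b (j + (a.2 + b.2))

theorem tpSc_self (n : ℕ) (x : V) : H.tpSc p n (x, n) = x := by simp [tpSc]

theorem tpSeq_nonneg (a b : V × ℕ) (n : ℕ) : 0 ≤ H.tpSeq p a b n :=
  mul_nonneg (by positivity) (H.D_nonneg _ _)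

theorem tpSeq_succ {a b : V × ℕ} {n : ℕ} (ha : a.2 ≤ n) (hb : b.2 ≤ n) :
    H.tpSeq p a b (n + 1) ≤ H.tpSeq p a b n := by
  unfold tpSeq tpSc
  rw [Nat.succ_sub ha, Nat.succ_sub hb, Function.iterate_succ_apply', Function.iterate_succ_apply']
  have := H.mid_lip p ((H.mid p)^[n - a.2] a.1) ((H.mid p)^[n - b.2] b.1)
  have h4 : (0 : ℝ) < 4 ^ n := by positivity
  rw [pow_succ]
  nlinarith

theorem tp_tendsto (a b : V × ℕ) : Tendsto (H.tpSeq p a b) atTop (𝓝 (H.tpD p a b)) := by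
  rw [← tendsto_add_atTop_iff_nat (a.2 + b.2)]
  refine tendsto_atTop_ciInf (antitone_nat_of_succ_le fun n => ?_)
    ⟨0, by rintro _ ⟨n, rfl⟩; exact H.tpSeq_nonneg p a b _⟩
  rw [show n + 1 + (a.2 + b.2) = n + (a.2 + b.2) + 1 by omega]
  exact H.tpSeq_succ p (by omega) (by omega)

theorem tpD_le {a b : V × ℕ} {n : ℕ} (ha : a.2 ≤ n) (hb : b.2 ≤ n) :
    H.tpD p a b ≤ H.tpSeq p a b n := by
  refine le_of_tendsto (H.tp_tendsto p a b) (eventually_atTop.2 ⟨n, fun m hm => ?_⟩)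
  induction m, hm using Nat.le_induction with
  | base => exact le_rfl
  | succ m hm ih => exact (H.tpSeq_succ p (ha.trans hm) (hb.trans hm)).trans ih

theorem tpD_nonneg (a b : V × ℕ) : 0 ≤ H.tpD p a b :=
  ge_of_tendsto' (H.tp_tendsto p a b) (H.tpSeq_nonneg p a b)

theorem tpD_o (a : V × ℕ) : H.tpD p (p, 0) a = 4 ^ a.2 * H.D p a.1 := by
  refine tendsto_nhds_unique (H.tp_tendsto p _ _) (tendsto_const_nhds.congr' ?_)
  filter_upwards [eventually_ge_atTop a.2] with n hn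
  have h0 : H.D ((H.mid p)^[n] p) p = 0 := by
    have := H.tp_D_iter p n p
    rw [H.D_self, mul_eq_zero] at this
    rw [H.D_symm]
    exact this.resolve_left (by positivity)
  unfold tpSeq tpSc
  obtain ⟨d, rfl⟩ := Nat.exists_eq_add_of_le hn
  simp only [Nat.sub_zero, Nat.add_sub_cancel_left]
  rw [H.congr_left h0, ← H.tp_D_iter p d a.1]
  ring

/-- the tangent pre-cone -/
noncomputable def tpPH : PH (V × ℕ) where
  D := H.tpD p
  o := (p, 0)
  hf a := (H.mid p a.1, a.2)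
  dbl a := (a.1, a.2 + 1)
  D_self a := le_antisymm ((H.tpD_le p le_rfl le_rfl).trans (by simp [tpSeq, H.D_self]))
    (H.tpD_nonneg p a a)
  D_symm a b := tendsto_nhds_unique (H.tp_tendsto p a b)
    ((H.tp_tendsto p b a).congr fun n => by unfold tpSeq; rw [H.D_symm])
  D_nonneg := H.tpD_nonneg p
  tri a b c t h0 h1 := by
    refine le_of_tendsto_of_tendsto' ((H.tp_tendsto p a c).const_mul _)
      (((H.tp_tendsto p a b).const_mul _).add ((H.tp_tendsto p b c).const_mul _)) fun n => ?_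
    have := mul_le_mul_of_nonneg_left (H.tri (H.tpSc p n a) (H.tpSc p n b) (H.tpSc p n c) t h0 h1)
      (by positivity : (0 : ℝ) ≤ 4 ^ n)
    unfold tpSeq
    linarith
  Q e f g m t h0 h1 := by
    refine le_of_tendsto_of_tendsto'
      (((H.tp_tendsto p e f).div_const _).add ((H.tp_tendsto p g m).const_mul _))
      (((((H.tp_tendsto p e g).add (H.tp_tendsto p f g)).const_mul _).div_const _).add
        ((((H.tp_tendsto p e m).add (H.tp_tendsto p f m)).const_mul _).div_const _)) fun n => ?_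
    have := mul_le_mul_of_nonneg_left
      (H.tp_Q (H.tpSc p n e) (H.tpSc p n f) (H.tpSc p n g) (H.tpSc p n m) t h0 h1)
      (by positivity : (0 : ℝ) ≤ 4 ^ n)
    unfold tpSeq
    linarith
  amid e f ε hε := by
    obtain ⟨n, h1, h2⟩ := (((H.tp_tendsto p e f).eventually
      (eventually_le_nhds (lt_add_of_pos_right _ hε))).and (eventually_ge_atTop (e.2 + f.2))).exists
    refine ⟨(H.mid (H.tpSc p n e) (H.tpSc p n f), n), ?_, ?_⟩
    · refine (H.tpD_le p (n := n) (by omega) le_rfl).trans ?_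
      unfold tpSeq at h1 ⊢
      rw [H.tpSc_self, H.D_mid_left]
      linarith
    · refine (H.tpD_le p (n := n) (by omega) le_rfl).trans ?_
      unfold tpSeq at h1 ⊢
      rw [H.tpSc_self, H.D_mid_right]
      linarith
  hf_o a := by rw [tpD_o, tpD_o, H.D_mid_left]; exact le_of_eq (by ring)
  hf_x a := by
    rw [tpD_o]
    refine (H.tpD_le p (b := (H.mid p a.1, a.2)) (n := a.2) le_rfl le_rfl).trans (le_of_eq ?_)
    simp only [tpSeq, tpSc, Nat.sub_self, Function.iterate_zero_apply]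
    rw [H.D_mid_right]; ring
  half a b := by
    refine tendsto_nhds_unique (H.tp_tendsto p _ _)
      ((((tendsto_add_atTop_iff_nat 1).2 (H.tp_tendsto p a b)).div_const 4).congr' ?_)
    filter_upwards [eventually_ge_atTop (a.2 + b.2)] with n hn
    unfold tpSeq tpSc
    rw [Nat.succ_sub (by omega : a.2 ≤ n), Nat.succ_sub (by omega : b.2 ≤ n),
      Function.iterate_succ_apply, Function.iterate_succ_apply]
    ring
  half_dbl a := by
    refine le_antisymm ((H.tpD_le p (n := a.2 + 1) le_rfl (Nat.le_succ _)).trans (le_of_eq ?_))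
      (H.tpD_nonneg p _ _)
    simp [tpSeq, tpSc, H.D_self]

/-- the comparison inner product -/
noncomputable def tpCmp (y a : V) : ℝ := (H.D p y + H.D p a - H.D y a) / 2

theorem tpCmp_iter (i : ℕ) (y a : V) : H.tpCmp p y a ≤ 2 ^ i * H.tpCmp p ((H.mid p)^[i] y) a := by
  induction i with
  | zero => simp
  | succ i ih =>
    refine ih.trans ?_
    rw [Function.iterate_succ_apply', pow_succ, mul_assoc]
    refine mul_le_mul_of_nonneg_left ?_ (by positivity)
    have := H.CN a p ((H.mid p)^[i] y)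
    unfold tpCmp
    rw [H.D_mid_left]
    linarith [H.D_symm a p, H.D_symm a ((H.mid p)^[i] y), H.D_symm a (H.mid p ((H.mid p)^[i] y))]

theorem tp_far (j : ℕ) (a : V) :
    H.D a ((H.mid p)^[j] a) ≤ (1 - (1 / 2) ^ j) ^ 2 * H.D p a := by
  induction j with
  | zero => simp [H.D_self]
  | succ j ih =>
    rw [Function.iterate_succ_apply']
    have h1 := H.CN a p ((H.mid p)^[j] a)
    have h2 : H.D p ((H.mid p)^[j] a) = ((1 / 2) ^ j) ^ 2 * H.D p a := by
      rw [← H.tp_D_iter p j a, ← mul_assoc, ← pow_mul, mul_comm j 2, pow_mul, ← mul_pow]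
      norm_num
    rw [h2, H.D_symm a p] at h1
    rw [pow_succ (1 / 2 : ℝ)]
    nlinarith

theorem tpCmp_right (j : ℕ) (z a : V) :
    H.tpCmp p z ((H.mid p)^[j] a) ≤ (1 / 2) ^ j * H.tpCmp p z a + H.D p z / 2 := by
  have h0 := H.D_nonneg p z
  rcases Nat.eq_zero_or_pos j with rfl | hj
  · simp only [Function.iterate_zero_apply, pow_zero, one_mul]; linarith
  have h2 : H.D p ((H.mid p)^[j] a) = ((1 / 2) ^ j) ^ 2 * H.D p a := by
    rw [← H.tp_D_iter p j a, ← mul_assoc, ← pow_mul, mul_comm j 2, pow_mul, ← mul_pow]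
    norm_num
  have h3 := H.tp_far p j a
  have t0 : (0 : ℝ) < (1 / 2) ^ j := by positivity
  have t1 : (1 / 2 : ℝ) ^ j < 1 := pow_lt_one₀ (by norm_num) (by norm_num) hj.ne'
  have h4 := H.tri z ((H.mid p)^[j] a) a _ t0.le t1.le
  rw [H.D_symm ((H.mid p)^[j] a) a] at h4
  unfold tpCmp
  rw [h2]
  generalize (1 / 2 : ℝ) ^ j = t at *
  have h5 : t * H.D z a ≤ H.D z ((H.mid p)^[j] a) + t * (1 - t) * H.D p a := by
    refine le_of_mul_le_mul_left ?_ (sub_pos.2 t1)
    nlinarith [mul_le_mul_of_nonneg_left h3 t0.le]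
  nlinarith [mul_nonneg t0.le h0]

theorem tp_cen {ι : Type} [Fintype ι] {A : ι → V} (h : H.IsMin p A) (j : ℕ) (y : V) :
    ∑ i, H.tpCmp p y ((H.mid p)^[j] (A i)) ≤ 0 := by
  have h1 : ∀ z, ∑ i, H.tpCmp p z ((H.mid p)^[j] (A i)) ≤ Fintype.card ι * H.D p z := by
    intro z
    refine (sum_le_sum fun i _ => H.tpCmp_right p j z (A i)).trans ?_
    have h2 : ∑ i, H.tpCmp p z (A i) ≤ Fintype.card ι * (H.D p z / 2) := by
      have := h z
      simp only [tpCmp, ← sum_div, sum_sub_distrib, sum_add_distrib, sum_const, card_univ,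
        nsmul_eq_mul]
      linarith
    have t0 : (0 : ℝ) < (1 / 2) ^ j := by positivity
    have t1 : (1 / 2 : ℝ) ^ j ≤ 1 := pow_le_one₀ (by norm_num) (by norm_num)
    have h3 : 0 ≤ Fintype.card ι * (H.D p z / 2) :=
      mul_nonneg (Nat.cast_nonneg _) (by linarith [H.D_nonneg p z])
    rw [sum_add_distrib, ← mul_sum, sum_const, card_univ, nsmul_eq_mul]
    nlinarith [mul_le_mul_of_nonneg_left h2 t0.le]
  have h2 : Tendsto (fun i : ℕ => (1 / 2 : ℝ) ^ i * (Fintype.card ι * H.D p y)) atTop (𝓝 0) := by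
    simpa using (tendsto_pow_atTop_nhds_zero_of_lt_one (r := (1 / 2 : ℝ)) (by norm_num)
      (by norm_num)).mul_const (Fintype.card ι * H.D p y)
  refine ge_of_tendsto' h2 fun i => ?_
  refine (sum_le_sum fun l _ => H.tpCmp_iter p i y _).trans ?_
  rw [← mul_sum]
  refine (mul_le_mul_of_nonneg_left (h1 _) (by positivity)).trans (le_of_eq ?_)
  rw [← H.tp_D_iter p i y, show (4 : ℝ) ^ i = 2 ^ i * 2 ^ i by rw [← mul_pow]; norm_num, one_div,
    inv_pow]
  field_simp

end Had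

/-- Let `h = H.mid p`; `(x, k)` stands for `2 ^ k log x`.  Put
`D (x, k) (y, l) = ⨅ j, 4 ^ (j + k + l) * H.D (h^[j + l] x) (h^[j + k] y)`; the sequence is
antitone (`mid_lip`) and nonnegative, so it converges to the infimum.  With
`sc n (x, k) = h^[n - k] x` one has `4 ^ n * H.D (sc n a) (sc n b) → D a b` as `n → ∞`, which
transports `tri`, and `Q` (true in `H`: `CN` for `g` and `m` at `mid e f`, then `tri`).
`o = (p, 0)`, `hf (x, k) = (h x, k)`, `dbl (x, k) = (x, k + 1)`; note `H.D p (h^[j] p) = 0` and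
`H.D p (h^[j] x) = H.D p x / 4 ^ j`, and `H.D (h^[n] x) (h^[n+1] x) = H.D p x / 4 ^ (n + 1)`.
Approximate midpoint of `a, b`: `(mid (sc n a) (sc n b), n)` for `n` large.
Centring: let `cmp y a = (H.D p y + H.D p a - H.D y a) / 2`.  `CN` gives `cmp y a ≤ 2 cmp (h y) a`.
Minimality gives `∑ i, cmp z (A i) ≤ card ι * H.D p z / 2` for all `z`.  With `t = 2⁻¹ ^ j`:
`H.D a (h^[j] a) ≤ (1 - t) ^ 2 H.D p a` (induction with `sqrt_tri`), hence by `tri`
`2 ^ j cmp z (h^[j] a) ≤ cmp z a + 2 ^ j / 2 * H.D p z`.  For `z = h^[i] y`, `i ≥ j`: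
`∑ 4 ^ j cmp (h^[j] y) (h^[j] (A i)) ≤ ∑ 2 ^ (i + j) cmp (h^[i] y) (h^[j] (A ·))
≤ card ι * 2 ^ j / 2 ^ i * H.D p y → 0`. -/
theorem Had.exists_PH {V : Type u} (H : Had V) (p : V) :
    ∃ P : PH (V × ℕ), P.o = (p, 0) ∧ (∀ y k, P.dbl (y, k) = (y, k + 1)) ∧
      (∀ y, P.D P.o (y, 0) = H.D p y) ∧ (∀ y z, P.D (y, 0) (z, 0) ≤ H.D y z) ∧
      ∀ (ι : Type) [Fintype ι] (A : ι → V), H.IsMin p A →
        ∀ y, ∑ i, P.ip (y, 0) (A i, 0) ≤ 0 := by
  refine ⟨H.tpPH p, rfl, fun _ _ => rfl, fun y => ?_, fun y z => ?_, fun ι _ A h y => ?_⟩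
  · simpa [Had.tpPH] using H.tpD_o p (y, 0)
  · simpa [Had.tpPH, Had.tpSeq, Had.tpSc] using
      H.tpD_le p (a := (y, 0)) (b := (z, 0)) (n := 0) le_rfl le_rfl
  · have e : ∀ i, (H.tpPH p).ip (y, 0) (A i, 0) =
        (H.D p y + H.D p (A i) - H.tpD p (y, 0) (A i, 0)) / 2 := fun i => by
      simp only [PH.ip, Had.tpPH, Had.tpD_o, pow_zero, one_mul]
    simp only [e]
    refine le_of_tendsto' (tendsto_finsetSum univ fun i _ =>
      ((H.tp_tendsto p (y, 0) (A i, 0)).const_sub _).div_const 2) fun j => ?_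
    have := mul_le_mul_of_nonneg_left (H.tp_cen p h j ((H.mid p)^[j] y))
      (by positivity : (0 : ℝ) ≤ 4 ^ j)
    rw [mul_zero, mul_sum] at this
    refine le_trans (le_of_eq (sum_congr rfl fun i _ => ?_)) this
    unfold Had.tpCmp Had.tpSeq Had.tpSc
    rw [← H.tp_D_iter p j y, ← H.tp_D_iter p j (A i)]
    simp only [Nat.sub_zero]
    rw [H.tp_D_iter p j y, H.tp_D_iter p j (A i), ← H.tp_D_iter p j y, ← H.tp_D_iter p j (A i)]
    ring

end Crest.Agent.R196
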