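import Crest.Agent.R196.Cone

/-! Row 196: ultralimits of pre-cones are cones. -/

set_option autoImplicit false

universe u

namespace Crest.Agent.R196

open Finset

open Filter Topology

namespace PH

variable {V : Type u} (P : PH V)

theorem two (x y z : V) : P.D x z ≤ 2 * P.D x y + 2 * P.D y z := by
  have := P.tri x y z (1 / 2) (by norm_num) (by norm_num)
  linarith

theorem congr_right (x : V) {y z : V} (h : P.D y z = 0) : P.D x y = P.D x z := by
  have key : ∀ y z, P.D y z = 0 → P.D x z ≤ P.D x y := by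
    intro y z h
    have h1 : ∀ t : ℝ, 0 < t → t < 1 → t * P.D x z ≤ P.D x y := fun t h0 h1 => by
      have := P.tri x y z t h0.le h1.le
      rw [h] at this
      exact le_of_mul_le_mul_left (by linarith) (sub_pos.2 h1)
    have h2 : Tendsto (fun t : ℝ => t * P.D x z) (𝓝[<] 1) (𝓝 (1 * P.D x z)) :=
      (tendsto_nhdsWithin_of_tendsto_nhds tendsto_id).mul_const _
    rw [one_mul] at h2
    refine le_of_tendsto h2 ?_
    filter_upwards [Ioo_mem_nhdsLT (zero_lt_one' ℝ)] with t ht using h1 t ht.1 ht.2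
  exact le_antisymm (key z y (by rw [P.D_symm, h])) (key y z h)

theorem D_dbl (x : V) : P.D P.o (P.dbl x) = 4 * P.D P.o x := by
  have h1 : P.D (P.hf P.o) P.o = 0 := by
    have := P.hf_o P.o
    rw [P.D_self] at this
    rw [P.D_symm]
    exact le_antisymm (by linarith) (P.D_nonneg _ _)
  have h2 := P.half P.o (P.dbl x)
  rw [P.congr_right _ (P.half_dbl x), P.D_symm, P.congr_right _ h1, P.D_symm] at h2
  linarith

end PH

theorem ul_lim (U : Ultrafilter ℕ) (f : ℕ → ℝ) (h0 : ∀ n, 0 ≤ f n) {B : ℝ} (h1 : ∀ n, f n ≤ B) :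
    ∃ r, Tendsto f U (𝓝 r) := by
  obtain ⟨r, -, hr⟩ := (isCompact_Icc (a := (0 : ℝ)) (b := B)).ultrafilter_le_nhds (U.map f)
    (le_principal_iff.2 (mem_map.2 (univ_mem' fun n => ⟨h0 n, h1 n⟩)))
  exact ⟨r, hr⟩

theorem ul_CN {a b : ℝ} (h : ∀ t : ℝ, 0 < t → t ≤ 1 → (1 - t) * a ≤ b) : a ≤ b := by
  have h2 : Tendsto (fun t : ℝ => (1 - t) * a) (𝓝[>] 0) (𝓝 ((1 - 0) * a)) :=
    ((tendsto_nhdsWithin_of_tendsto_nhds tendsto_id).const_sub _).mul_const _
  rw [sub_zero, one_mul] at h2
  refine le_of_tendsto h2 ?_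
  filter_upwards [Ioo_mem_nhdsGT (zero_lt_one' ℝ)] with t ht using h t ht.1 ht.2.le

/-- `U = hyperfilter ℕ` (or `Ultrafilter.of atTop`), `T` the subtype of bounded sequences,
`D x y` the limit along `U` of the bounded sequence (`isCompact_Icc.ultrafilter_le_nhds`; bounded
by `tri` with `t = 1 / 2`).  `mid x y` is a choice of `1 / (n + 1)`-approximate midpoints, so
`D x m, D y m ≤ D x y / 4`; `Q` passes to the limit and gives
`(1 - t) D g m ≤ (D e g + D f g) / 2 - D e f / 4` for `0 < t ≤ 1`, hence `CN`.  The pointwise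
`hf x` is a midpoint of `o, x`, so `CN` gives `D (hf x) (mid o x) = 0`; this yields `half` and
`half_dbl` (points at distance zero are interchangeable by `tri`).  Boundedness of `dbl x`:
`D o (dbl x) = 4 D (hf o) (hf (dbl x))`, `D o (hf o) = 0`. -/
theorem exists_ultra (V : ℕ → Type u) (P : ∀ n, PH (V n)) :
    ∃ (U : Ultrafilter ℕ) (T : Type u) (C : Cone T) (ev : T → ∀ n, V n), (U : Filter ℕ) ≤ atTop ∧
      (∀ f : ∀ n, V n, (∃ B, ∀ n, (P n).D (P n).o (f n) ≤ B) → ∃ x, ev x = f) ∧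
      (∀ x, ∃ B, ∀ n, (P n).D (P n).o (ev x n) ≤ B) ∧
      (∀ x y, Tendsto (fun n => (P n).D (ev x n) (ev y n)) U (𝓝 (C.D x y))) ∧
      (∀ n, ev C.o n = (P n).o) ∧ ∀ x n, ev (C.dbl x) n = (P n).dbl (ev x n) := by
  let U : Ultrafilter ℕ := Ultrafilter.of atTop
  have hU : (U : Filter ℕ) ≤ atTop := Ultrafilter.of_le _
  let T : Type u := {f : ∀ n, V n // ∃ B, ∀ n, (P n).D (P n).o (f n) ≤ B}
  have hD : ∀ x y : T, ∃ r, Tendsto (fun n => (P n).D (x.1 n) (y.1 n)) U (𝓝 r) := by
    rintro ⟨x, B, hx⟩ ⟨y, B', hy⟩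
    refine ul_lim U _ (fun n => (P n).D_nonneg _ _) (B := 2 * B + 2 * B') fun n => ?_
    have := (P n).two (x n) (P n).o (y n)
    rw [(P n).D_symm _ (P n).o] at this
    linarith [hx n, hy n]
  choose D hD using hD
  choose am ham using fun n (e f : V n) => (P n).amid e f (1 / ((n : ℝ) + 1)) (by positivity)
  have h1n : ∀ n : ℕ, 1 / ((n : ℝ) + 1) ≤ 1 := fun n =>
    (div_le_one (by positivity)).2 (by linarith [Nat.cast_nonneg (α := ℝ) n])
  let mid : T → T → T := fun x y => ⟨fun n => am n (x.1 n) (y.1 n), by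
    obtain ⟨B, hx⟩ := x.2
    obtain ⟨B', hy⟩ := y.2
    refine ⟨3 * B + B' + 2, fun n => ?_⟩
    have h1 := (P n).two (x.1 n) (P n).o (y.1 n)
    rw [(P n).D_symm _ (P n).o] at h1
    linarith [hx n, hy n, (P n).two (P n).o (x.1 n) (am n (x.1 n) (y.1 n)),
      (ham n (x.1 n) (y.1 n)).1, h1n n]⟩
  have h0 : Tendsto (fun n : ℕ => 1 / ((n : ℝ) + 1)) U (𝓝 0) :=
    tendsto_one_div_add_atTop_nhds_zero_nat.mono_left hU
  have m1 : ∀ x y, D x (mid x y) ≤ D x y / 4 := fun x y => by
    simpa using le_of_tendsto_of_tendsto' (hD x (mid x y)) (((hD x y).div_const 4).add h0)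
      fun n => (ham n _ _).1
  have m2 : ∀ x y, D y (mid x y) ≤ D x y / 4 := fun x y => by
    simpa using le_of_tendsto_of_tendsto' (hD y (mid x y)) (((hD x y).div_const 4).add h0)
      fun n => (ham n _ _).2
  have sy : ∀ x y, D x y = D y x := fun x y =>
    tendsto_nhds_unique (hD x y) ((hD y x).congr fun n => (P n).D_symm _ _)
  let H : Had T :=
    { D := D
      mid := mid
      D_self := fun x => tendsto_nhds_unique (hD x x)
        (tendsto_const_nhds.congr fun n => ((P n).D_self _).symm)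
      D_symm := sy
      D_nonneg := fun x y => ge_of_tendsto' (hD x y) fun n => (P n).D_nonneg _ _
      tri := fun x y z t h0 h1 => le_of_tendsto_of_tendsto' ((hD x z).const_mul _)
        (((hD x y).const_mul _).add ((hD y z).const_mul _)) fun n => (P n).tri _ _ _ t h0 h1
      CN := fun g e f => ul_CN fun t h0 h1 => by
        have := le_of_tendsto_of_tendsto'
          (((hD e f).div_const _).add ((hD g (mid e f)).const_mul _))
          (((((hD e g).add (hD f g)).const_mul _).div_const _).add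
            ((((hD e (mid e f)).add (hD f (mid e f))).const_mul _).div_const _))
          fun n => (P n).Q _ _ _ _ t h0.le h1
        rw [sy e g, sy f g] at this
        refine le_of_mul_le_mul_left ?_ h0
        nlinarith [mul_le_mul_of_nonneg_left (add_le_add (m1 e f) (m2 e f)) (sub_nonneg.2 h1)] }
  let o : T := ⟨fun n => (P n).o, 0, fun n => ((P n).D_self _).le⟩
  let hf : T → T := fun x => ⟨fun n => (P n).hf (x.1 n), by
    obtain ⟨B, hx⟩ := x.2
    exact ⟨B / 4, fun n => by linarith [hx n, (P n).hf_o (x.1 n)]⟩⟩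
  let dbl : T → T := fun x => ⟨fun n => (P n).dbl (x.1 n), by
    obtain ⟨B, hx⟩ := x.2
    exact ⟨4 * B, fun n => by linarith [hx n, (P n).D_dbl (x.1 n)]⟩⟩
  have hh : ∀ x, H.D (hf x) (H.mid o x) = 0 := fun x => H.mid_unique
    (le_of_tendsto_of_tendsto' (hD o (hf x)) ((hD o x).div_const 4) fun n => (P n).hf_o _)
    (le_of_tendsto_of_tendsto' (hD x (hf x)) ((hD o x).div_const 4) fun n => (P n).hf_x _)
  refine ⟨U, T, ⟨H, o, dbl, fun x y => ?_, fun x => ?_⟩, Subtype.val, hU,
    fun f h => ⟨⟨f, h⟩, rfl⟩, fun x => x.2, hD, fun _ => rfl, fun _ _ => rfl⟩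
  · rw [← H.congr_left (hh x), ← H.congr_right _ (hh y)]
    exact tendsto_nhds_unique (hD _ _) (((hD x y).div_const 4).congr fun n => ((P n).half _ _).symm)
  · rw [← H.congr_left (hh _)]
    exact tendsto_nhds_unique (hD _ _)
      (tendsto_const_nhds.congr fun n => ((P n).half_dbl _).symm)

end Crest.Agent.R196
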