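import Crest.Agent.R196.TanPH
import Crest.Agent.R196.Ultra

/-! Row 196: the tangent cone. -/

set_option autoImplicit false

universe u

namespace Crest.Agent.R196

open Finset Filter Topology

/-- Apply `exists_ultra` to the constant sequence `P` of `exists_PH`; for `a : V × ℕ` let `cst a`
be a point with `ev (cst a) = fun _ => a`, `lg y = cst (y, 0)`.  Then `C.D (cst a) (cst b) = P.D a b`,
`C.ip (cst a) (cst b) = P.ip a b`, `C.D (cst (P.dbl a)) (C.dbl (cst a)) = 0`, so
`P.ip (y, k) b = 2 ^ k * P.ip (y, 0) b` by `ip_dbl`, `ip_congr`; and `C.ip g (cst b)` is the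
`U`-limit of `P.ip (ev g n) b`.  This gives `cen` and `dens`. -/
theorem Had.exists_tangent {V : Type u} (H : Had V) (p : V) :
    ∃ (T : Type u) (C : Cone T) (lg : V → T), IsTan H p C lg := by
  obtain ⟨P, ho, hd, h1, h2, h3⟩ := H.exists_PH p
  obtain ⟨U, T, C, ev, -, g1, -, g3, g4, g5⟩ := exists_ultra (fun _ => V × ℕ) fun _ => P
  choose cst hc using fun a : V × ℕ => g1 (fun _ => a) ⟨_, fun _ => le_rfl⟩
  have lim : ∀ g a, Tendsto (fun n => P.ip (ev g n) a) U (𝓝 (C.ip g (cst a))) := fun g a => by
    have e1 := g3 C.o g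
    have e2 := g3 C.o (cst a)
    have e3 := g3 g (cst a)
    simp only [g4, hc] at e1 e2 e3
    exact ((e1.add e2).sub e3).div_const 2
  have cD : ∀ a b, C.D (cst a) (cst b) = P.D a b := fun a b => by
    have e := g3 (cst a) (cst b)
    simp only [hc] at e
    exact tendsto_nhds_unique e tendsto_const_nhds
  have cip : ∀ a b, C.ip (cst a) (cst b) = P.ip a b := fun a b => by
    have e := lim (cst a) b
    simp only [hc] at e
    exact tendsto_nhds_unique e tendsto_const_nhds
  have hom : ∀ y k b, P.ip (y, k) b = 2 ^ k * P.ip (y, 0) b := fun y k b => by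
    induction k with
    | zero => simp
    | succ k ih =>
      have e := g3 (cst (y, k + 1)) (C.dbl (cst (y, k)))
      simp only [g5, hc, hd, P.D_self] at e
      rw [← cip, C.ip_symm, C.ip_congr _ (tendsto_nhds_unique e tendsto_const_nhds), C.ip_dbl,
        C.ip_symm, cip, ih]
      ring
  refine ⟨T, C, fun y => cst (y, 0), fun y => ?_, fun y z => (cD _ _).trans_le (h2 y z),
    fun ι _ A hA g => ?_, fun y₁ y₂ h g => ?_⟩
  · have e := g3 C.o (cst (y, 0))
    simp only [g4, hc, h1] at e
    exact tendsto_nhds_unique e tendsto_const_nhds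
  · refine le_of_tendsto' (tendsto_finsetSum univ fun i _ => lim g (A i, 0)) fun n => ?_
    obtain ⟨y, k⟩ := ev g n
    simp only [hom y k, ← mul_sum]
    exact mul_nonpos_of_nonneg_of_nonpos (by positivity) (h3 ι A hA y)
  · refine ge_of_tendsto' ((lim g (y₁, 0)).add (lim g (y₂, 0))) fun n => ?_
    obtain ⟨y, k⟩ := ev g n
    have := h y
    rw [cip, cip] at this
    rw [hom y k, hom y k (y₂, 0), ← mul_add]
    positivity

end Crest.Agent.R196
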