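import Crest.Agent.R184.Defs

/-! Row 196: half-edge systems that need not be folded (copy of the row 184 definitions). -/

set_option autoImplicit false

namespace Crest.Agent.R196

open Crest.Agent.R184 (TP flp Dart Planar HasCliqueMinor)

/-- Half-edges `H`, each sitting at a vertex and carrying a letter. -/
structure HES (V S H : Type) where
  vert : H → V
  lett : H → S × Bool

namespace HES

variable {V S H : Type} (D : HES V S H)

/-- `rev` pairs the half-edges into edges. -/
structure IsConf (rev : H → H) : Prop where
  invol : ∀ h, rev (rev h) = h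
  lett_rev : ∀ h, D.lett (rev h) = flp (D.lett h)
  inj3 : ∀ h h', D.vert h = D.vert h' → D.lett h = D.lett h' →
    D.vert (rev h) = D.vert (rev h') → h = h'

/-- `p 0, …, p (k-1)` is a non-backtracking walk. -/
def NB (rev : H → H) (p : ℕ → H) (k : ℕ) : Prop :=
  ∀ i, i + 1 < k → D.vert (p (i + 1)) = D.vert (rev (p i)) ∧ p (i + 1) ≠ rev (p i)

/-- no non-empty closed non-backtracking walk of length at most `g` -/
def Girth (rev : H → H) (g : ℕ) : Prop :=
  ∀ (p : ℕ → H) (k : ℕ), k < g → D.NB rev p (k + 1) → D.vert (rev (p k)) ≠ D.vert (p 0)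

/-- the triangular presentation of a configuration -/
def tp (rev : H → H) : TP (V ⊕ S) {h : H // (D.lett h).2 = true} where
  a h := .inl (D.vert h.1)
  b h := .inr (D.lett h.1).1
  c h := .inl (D.vert (rev h.1))

/-- the three sides of the triangle of a half-edge -/
def side (rev : H → H) (h : H) : Fin 3 → (V ⊕ S) × Bool :=
  ![(.inl (D.vert h), true), (.inr (D.lett h).1, (D.lett h).2), (.inl (D.vert (rev h)), false)]

/-- the boundary word of the triangle of a half-edge -/
def tri (rev : H → H) (h : H) : List ((V ⊕ S) × Bool) :=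
  [D.side rev h 0, D.side rev h 1, D.side rev h 2]

/-- the 2-chain of the triangle of `h` based at `g` -/
noncomputable def term (rev : H → H) (g : (D.tp rev).Grp) (h : H) :
    (D.tp rev).Grp × {h : H // (D.lett h).2 = true} →₀ ℤ :=
  if hb : (D.lett h).2 = true then Finsupp.single (g, ⟨h, hb⟩) 1
  else if hb' : (D.lett (rev h)).2 = true then -Finsupp.single (g, ⟨rev h, hb'⟩) 1 else 0

end HES

/-- the label of a dart -/
def HES.lab {V S H : Type} (D : HES V S H) (rev : H → H) (w : List ((V ⊕ S) × Bool))
    {T : Type} (θ : T → H) : Dart T w.length → (V ⊕ S) × Bool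
  | .inl (t, i) => D.side rev (θ t) i
  | .inr k => flp (w.get k)

/-- A reduced planar diagram with boundary word `w`. -/
structure Diag {V S H : Type} (D : HES V S H) (rev : H → H) (w : List ((V ⊕ S) × Bool)) where
  T : Type
  [fT : Fintype T]
  [dT : DecidableEq T]
  θ : T → H
  α : Dart T w.length → Dart T w.length
  α_α : ∀ d, α (α d) = d
  α_lab : ∀ d, D.lab rev w θ (α d) = flp (D.lab rev w θ d)
  planar : Planar α
  reduced : ∀ t i t' i', α (.inl (t, i)) = .inl (t', i') → θ t' ≠ rev (θ t)

attribute [instance] Diag.fT Diag.dT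

namespace Diag

variable {V S H : Type} {D : HES V S H} {rev : H → H} {w : List ((V ⊕ S) × Bool)}
  (Δ : Diag D rev w)

/-- the triangle on the other side of side `i` -/
def across (i : Fin 3) (t : Δ.T) : Option Δ.T :=
  match Δ.α (.inl (t, i)) with
  | .inl (t', _) => some t'
  | .inr _ => none

/-- the next triangle around the cone vertex -/
def nx (t : Δ.T) : Option Δ.T := Δ.across 2 t

/-- the triangle across the letter side -/
def mu (t : Δ.T) : Option Δ.T := Δ.across 1 t

/-- the dual graph -/
def graph : SimpleGraph Δ.T :=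
  SimpleGraph.fromRel fun t s => Δ.nx t = some s ∨ Δ.mu t = some s

end Diag

end Crest.Agent.R196
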