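import Crest.Agent.R196.V3

/-! Van Kampen lemma: attaching a triangle. -/

set_option autoImplicit false

namespace Crest.Agent.R196

open Crest.Agent.R184 (TP flp Dart Planar HasCliqueMinor)

/-- update a function at a triangle and at three outer darts -/
def vkUp6 {X : Type} (t N : ℕ) (a b : Fin 3 → X) (f : VKD → X) : VKD → X
  | .inl (s, i) => if s = t then a i else f (.inl (s, i))
  | .inr k => if k = N then b 0 else if k = N + 1 then b 1 else if k = N + 2 then b 2
      else f (.inr k)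

lemma vkUp6_inl {X : Type} (t N : ℕ) (a b : Fin 3 → X) (f : VKD → X) (i : Fin 3) :
    vkUp6 t N a b f (.inl (t, i)) = a i := by simp [vkUp6]

lemma vkUp6_inr {X : Type} (t N : ℕ) (a b : Fin 3 → X) (f : VKD → X) (i : Fin 3) :
    vkUp6 t N a b f (.inr (N + i)) = b i := by
  fin_cases i <;> simp [vkUp6]

lemma vkUp6_inr0 {X : Type} (t N : ℕ) (a b : Fin 3 → X) (f : VKD → X) :
    vkUp6 t N a b f (.inr N) = b 0 := vkUp6_inr t N a b f 0

lemma vkUp6_inr1 {X : Type} (t N : ℕ) (a b : Fin 3 → X) (f : VKD → X) :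
    vkUp6 t N a b f (.inr (N + 1)) = b 1 := vkUp6_inr t N a b f 1

lemma vkUp6_inr2 {X : Type} (t N : ℕ) (a b : Fin 3 → X) (f : VKD → X) :
    vkUp6 t N a b f (.inr (N + 2)) = b 2 := vkUp6_inr t N a b f 2

/-- the gluing after attaching a triangle -/
def vkTriα (t N : ℕ) (α : VKD → VKD) : VKD → VKD :=
  vkUp6 t N (fun i => .inr (N + i)) (fun i => .inl (t, i)) α

section tri

variable {T : Finset ℕ} {oa ob : List ℕ} {t N : ℕ} {α : VKD → VKD}

lemma vkUp6_old {X : Type} (ht : t ∉ T) (hN : ∀ k ∈ oa ++ ob, k < N) (a b : Fin 3 → X)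
    (f : VKD → X) {y : VKD} (hy : vkAct T (oa ++ ob) y) : vkUp6 t N a b f y = f y := by
  rcases y with ⟨s, i⟩ | k
  · have : s ≠ t := by rintro rfl; exact ht hy
    simp [vkUp6, this]
  · have := hN k hy
    simp only [vkUp6]
    rw [if_neg (by omega), if_neg (by omega), if_neg (by omega)]

lemma vkTri_cases {y : VKD} (hy : vkAct (insert t T) (oa ++ N :: (N + 1) :: (N + 2) :: ob) y) :
    (∃ i, y = .inl (t, i)) ∨ (∃ i : Fin 3, y = .inr (N + i)) ∨ vkAct T (oa ++ ob) y := by
  rcases y with ⟨s, i⟩ | k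
  · simp only [vkAct_inl, Finset.mem_insert] at hy
    rcases hy with rfl | hy
    · exact Or.inl ⟨i, rfl⟩
    · exact Or.inr (Or.inr hy)
  · simp only [vkAct_inr, List.mem_append, List.mem_cons] at hy
    rcases hy with hy | rfl | rfl | rfl | hy
    · exact Or.inr (Or.inr (by simp [hy]))
    · exact Or.inr (Or.inl ⟨0, rfl⟩)
    · exact Or.inr (Or.inl ⟨1, rfl⟩)
    · exact Or.inr (Or.inl ⟨2, rfl⟩)
    · exact Or.inr (Or.inr (by simp [hy]))

lemma vkTri_act_old {y : VKD} (hy : vkAct T (oa ++ ob) y) :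
    vkAct (insert t T) (oa ++ N :: (N + 1) :: (N + 2) :: ob) y := by
  rcases y with ⟨s, i⟩ | k
  · exact Finset.mem_insert_of_mem hy
  · simp only [vkAct_inr, List.mem_append, List.mem_cons] at hy ⊢
    tauto

lemma vkTri_act_inr (i : Fin 3) :
    vkAct (insert t T) (oa ++ N :: (N + 1) :: (N + 2) :: ob) (.inr (N + i)) := by
  fin_cases i <;> simp

lemma vkTri_inv (ht : t ∉ T) (hN : ∀ k ∈ oa ++ ob, k < N) (h : VKInv T (oa ++ ob) α) :
    VKInv (insert t T) (oa ++ N :: (N + 1) :: (N + 2) :: ob) (vkTriα t N α) := by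
  refine ⟨fun y hy => ?_, fun y hy => ?_, fun y hy => ?_⟩
  all_goals
    unfold vkTriα
    rcases vkTri_cases hy with ⟨i, rfl⟩ | ⟨i, rfl⟩ | hy'
  · rw [vkUp6_inl]; exact vkTri_act_inr i
  · rw [vkUp6_inr]; simp
  · rw [vkUp6_old ht hN _ _ _ hy']
    exact vkTri_act_old (h.act y hy')
  · rw [vkUp6_inl, vkUp6_inr]
  · rw [vkUp6_inr, vkUp6_inl]
  · rw [vkUp6_old ht hN _ _ _ hy', vkUp6_old ht hN _ _ _ (h.act y hy'), h.inv y hy']
  · rw [vkUp6_inl]; simp
  · rw [vkUp6_inr]; simp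
  · rw [vkUp6_old ht hN _ _ _ hy']
    exact h.ne y hy'

lemma vkTri_pot {M : Type} [Group M] {val φ : VKD → M} {c : M}
    (ht : t ∉ T) (hN : ∀ k ∈ oa ++ ob, k < N) (h : VKInv T (oa ++ ob) α)
    (hp : VKPot T (oa ++ ob) α val φ c)
    (hv : ∀ i : Fin 3, val (.inr (N + i)) = (val (.inl (t, i)))⁻¹)
    (h3 : val (.inl (t, 0)) * val (.inl (t, 1)) * val (.inl (t, 2)) = 1) :
    ∃ a b, vkRun val φ c oa (a 0) ∧
      VKPot (insert t T) (oa ++ N :: (N + 1) :: (N + 2) :: ob) (vkTriα t N α) val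
        (vkUp6 t N a b φ) c := by
  obtain ⟨m, r1, r2⟩ := (vkRun_append _ _ _ _ _ _).1 hp.run
  set a : Fin 3 → M := ![m, m * val (.inl (t, 0)), m * val (.inl (t, 0)) * val (.inl (t, 1))]
    with ha
  have hab : ∀ i, a (i + 1) = a i * val (.inl (t, i)) := by
    intro i
    fin_cases i
    · rfl
    · rfl
    · show m = m * val (.inl (t, 0)) * val (.inl (t, 1)) * val (.inl (t, 2))
      rw [mul_assoc m, mul_assoc m, h3, mul_one]
  refine ⟨a, fun i => a (i + 1), r1, fun s hs i => ?_, fun y hy => ?_, ?_⟩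
  · rcases Finset.mem_insert.1 hs with rfl | hs
    · rw [vkUp6_inl, vkUp6_inl, hab]
    · rw [vkUp6_old ht hN _ _ _ (by simpa using hs), vkUp6_old ht hN _ _ _ (by simpa using hs)]
      exact hp.tri s hs i
  · unfold vkTriα
    rcases vkTri_cases hy with ⟨i, rfl⟩ | ⟨i, rfl⟩ | hy'
    · rw [vkUp6_inl, vkUp6_inl, vkUp6_inr, hab]
    · rw [vkUp6_inr, vkUp6_inl, vkUp6_inr, hab, hv]; group
    · rw [vkUp6_old ht hN _ _ _ hy', vkUp6_old ht hN _ _ _ hy',
        vkUp6_old ht hN _ _ _ (h.act y hy')]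
      exact hp.glue y hy'
  · rw [vkRun_append]
    refine ⟨m, vkRun_congr (fun _ _ => rfl)
      (fun j hj => vkUp6_old ht hN _ _ _ (by simp [hj])) r1, ?_⟩
    rw [vkRun_cons, vkRun_cons, vkRun_cons, vkUp6_inr0, vkUp6_inr1, vkUp6_inr2]
    have v0 : val (.inr N) = _ := hv 0
    have v1 : val (.inr (N + 1)) = _ := hv 1
    have v2 : val (.inr (N + 2)) = _ := hv 2
    refine ⟨?_, ?_, ?_, vkRun_congr (fun _ _ => rfl)
      (fun j hj => vkUp6_old ht hN _ _ _ (by simp [hj])) r2⟩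
    · rw [hab, v0, mul_inv_cancel_right]; rfl
    · rw [hab, v1, mul_inv_cancel_right]; rfl
    · rw [hab, v2, mul_inv_cancel_right]; rfl

lemma vkTri_planar (ht : t ∉ T) (hN : ∀ k ∈ oa ++ ob, k < N) (h : VKInv T (oa ++ ob) α)
    (hp : VKPlanar T (oa ++ ob) α) :
    VKPlanar (insert t T) (oa ++ N :: (N + 1) :: (N + 2) :: ob) (vkTriα t N α) := by
  intro z h1 h2 h3
  have e : ∀ i : Fin 3, z (.inr (N + i)) = z (.inl (t, i)) := by
    intro i
    have := h1 (.inl (t, i)) (by simp)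
    rwa [vkTriα, vkUp6_inl] at this
  have e3 := h2 t (by simp)
  suffices H : ∃ f c, VKPot T (oa ++ ob) α z f c by
    obtain ⟨f, c, hf⟩ := H
    obtain ⟨a, b, -, hab⟩ := vkTri_pot ht hN h hf (fun i => by rw [e, vkz_inv]) e3
    exact ⟨_, c, hab⟩
  refine hp z (fun y hy => ?_) (fun s hs => h2 s (Finset.mem_insert_of_mem hs)) ?_
  · have := h1 y (vkTri_act_old hy)
    rwa [vkTriα, vkUp6_old ht hN _ _ _ hy] at this
  · have e0 : z (.inr N) = _ := e 0
    have e1 : z (.inr (N + 1)) = _ := e 1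
    have e2 : z (.inr (N + 2)) = _ := e 2
    rw [List.map_append, List.prod_append, List.map_cons, List.map_cons, List.map_cons,
      List.prod_cons, List.prod_cons, List.prod_cons, e0, e1, e2, ← mul_assoc (z _),
      ← mul_assoc (z _ * z _), e3, one_mul] at h3
    rw [List.map_append, List.prod_append, h3]

end tri

variable {V S H : Type} {D : HES V S H} {rev : H → H}

lemma vkGl_true (D : HES V S H) (rev : H → H) (x : V ⊕ S) :
    vkGl D rev (x, true) = (D.tp rev).gen x := rfl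

lemma vkGl_false (D : HES V S H) (rev : H → H) (x : V ⊕ S) :
    vkGl D rev (x, false) = ((D.tp rev).gen x)⁻¹ := vkGl_flp D rev (x, true)

lemma vk_rel (h : H) (hb : (D.lett h).2 = true) :
    (D.tp rev).gen (.inl (D.vert h)) * (D.tp rev).gen (.inr (D.lett h).1) *
      ((D.tp rev).gen (.inl (D.vert (rev h))))⁻¹ = 1 := by
  have := PresentedGroup.one_of_mem (rels := Set.range (D.tp rev).rel) ⟨⟨h, hb⟩, rfl⟩
  rw [R184.TP.rel, map_mul, map_mul, map_inv] at this
  exact this

lemma vk_side_rel (hc : D.IsConf rev) (h : H) :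
    vkGl D rev (D.side rev h 0) * vkGl D rev (D.side rev h 1) * vkGl D rev (D.side rev h 2) = 1 := by
  show vkGl D rev (.inl (D.vert h), true) * vkGl D rev (.inr (D.lett h).1, (D.lett h).2) *
    vkGl D rev (.inl (D.vert (rev h)), false) = 1
  rw [vkGl_true, vkGl_false]
  cases hb : (D.lett h).2 with
  | true => rw [vkGl_true]; exact vk_rel h hb
  | false =>
    have := vk_rel (D := D) (rev := rev) (rev h) (by rw [hc.lett_rev, flp, hb]; rfl)
    rw [hc.invol, hc.lett_rev] at this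
    rw [vkGl_false, ← inv_inj, inv_one, ← this]
    simp only [flp]
    group

lemma vkTri (hc : D.IsConf rev) {a b : List ((V ⊕ S) × Bool)} (h : H)
    {ch : (D.tp rev).Grp × {h : H // (D.lett h).2 = true} →₀ ℤ}
    (Δ : VKDiag D rev (a ++ b) ch) :
    Nonempty (VKDiag D rev (a ++ D.tri rev h ++ b)
      (D.term rev ((D.tp rev).pr (FreeGroup.mk a)) h + ch)) := by
  obtain ⟨T, o, nodup, lab, hw, α, inv, α_lab, ψ, pot, planar, tm, cell, chain⟩ := Δ
  obtain ⟨oa, ob, rfl, ha, hb⟩ := List.map_eq_append_iff.1 hw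
  obtain ⟨N, hN⟩ := vk_fresh (oa ++ ob)
  obtain ⟨t, ht⟩ := Infinite.exists_notMem_finset T
  have hn : (oa ++ N :: (N + 1) :: (N + 2) :: ob).Nodup := by
    have hp : (oa ++ N :: (N + 1) :: (N + 2) :: ob).Perm (N :: (N + 1) :: (N + 2) :: (oa ++ ob)) :=
      List.perm_middle.trans ((List.perm_middle.trans (List.perm_middle.cons _)).cons _)
    rw [hp.nodup_iff, List.nodup_cons, List.nodup_cons, List.nodup_cons]
    refine ⟨fun h => ?_, fun h => ?_, fun h => ?_, nodup⟩
    · simp only [List.mem_cons] at h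
      rcases h with h | h | h
      · omega
      · omega
      · exact absurd (hN N h) (lt_irrefl _)
    · simp only [List.mem_cons] at h
      rcases h with h | h
      · omega
      · have := hN _ h
        omega
    · have := hN _ h
      omega
  set lab' := vkUp6 t N (D.side rev h) (fun i => flp (D.side rev h i)) lab with hlab'
  have pot' : VKPot T (oa ++ ob) α (fun d => vkGl D rev (lab' d)) ψ 1 :=
    pot.congr fun d hd => by rw [hlab', vkUp6_old ht hN _ _ _ hd]
  have ha' : (oa.map fun k => flp (lab' (.inr k))) = a := by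
    rw [← ha]
    exact List.map_congr_left fun j hj => by rw [hlab', vkUp6_old ht hN _ _ _ (by simp [hj])]
  have hb' : (ob.map fun k => flp (lab' (.inr k))) = b := by
    rw [← hb]
    exact List.map_congr_left fun j hj => by rw [hlab', vkUp6_old ht hN _ _ _ (by simp [hj])]
  obtain ⟨p, q, hp0, hpq⟩ := vkTri_pot ht hN inv pot' (fun i => by
    simp only [hlab']
    rw [vkUp6_inl, vkUp6_inr, vkGl_flp]) (by
    simp only [hlab']
    rw [vkUp6_inl, vkUp6_inl, vkUp6_inl, vk_side_rel hc])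
  have hp1 := vkRun_gl D rev lab' hp0
  rw [ha', one_mul] at hp1
  refine ⟨⟨insert t T, oa ++ N :: (N + 1) :: (N + 2) :: ob, hn, lab', ?_, _,
    vkTri_inv ht hN inv, fun y hy => ?_, _, hpq, vkTri_planar ht hN inv planar,
    Function.update tm t (D.term rev ((D.tp rev).pr (FreeGroup.mk a)) h), fun s hs => ?_, ?_⟩⟩
  · rw [List.map_append, List.map_cons, List.map_cons, List.map_cons, ha', hb', hlab', vkUp6_inr0,
      vkUp6_inr1, vkUp6_inr2, vk_flp_flp, vk_flp_flp, vk_flp_flp, HES.tri]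
    simp
  · rw [hlab', vkTriα]
    rcases vkTri_cases hy with ⟨i, rfl⟩ | ⟨i, rfl⟩ | hy'
    · rw [vkUp6_inl, vkUp6_inl, vkUp6_inr]
    · rw [vkUp6_inr, vkUp6_inl, vkUp6_inr, vk_flp_flp]
    · rw [vkUp6_old ht hN _ _ _ hy', vkUp6_old ht hN _ _ _ hy',
        vkUp6_old ht hN _ _ _ (inv.act y hy')]
      exact α_lab y hy'
  · rcases Finset.mem_insert.1 hs with rfl | hs
    · refine ⟨h, fun i => by rw [hlab', vkUp6_inl], ?_⟩
      rw [Function.update_self, vkUp6_inl, hp1]
    · obtain ⟨h', e1, e2⟩ := cell s hs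
      have hst : s ≠ t := fun e => ht (e ▸ hs)
      refine ⟨h', fun i => ?_, ?_⟩
      · rw [hlab', vkUp6_old ht hN _ _ _ (by simpa using hs), e1]
      · rw [vkUp6_old ht hN _ _ _ (by simpa using hs), Function.update_of_ne hst, e2]
  · rw [Finset.sum_insert ht, Function.update_self, ← chain]
    congr 1
    exact Finset.sum_congr rfl fun s hs =>
      Function.update_of_ne (fun e : s = t => ht (e ▸ hs)) _ _

/-- existence of a possibly non-reduced diagram -/
lemma vk_exists (hc : D.IsConf rev) (x0 : (V ⊕ S) × Bool) (l : List (FreeGroup (V ⊕ S) × H))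
    (w : List ((V ⊕ S) × Bool))
    (hw : (l.map fun x => x.1 * FreeGroup.mk (D.tri rev x.2) * x.1⁻¹).prod = FreeGroup.mk w) :
    Nonempty (VKDiag D rev w (l.map fun x => D.term rev ((D.tp rev).pr x.1) x.2).sum) := by
  classical
  induction l generalizing w with
  | nil => exact vk_of_mk_eq (w := []) hw ⟨vkEmpty D rev x0⟩
  | cons x l ih =>
    obtain ⟨u, h⟩ := x
    set g := (l.map fun x => x.1 * FreeGroup.mk (D.tri rev x.2) * x.1⁻¹).prod with hg
    have h1 := ih g.toWord FreeGroup.mk_toWord.symm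
    obtain ⟨Δ⟩ := vk_of_mk_eq (w' := u.toWord ++ (u⁻¹ * g).toWord) (by
      rw [← FreeGroup.mul_mk, FreeGroup.mk_toWord, FreeGroup.mk_toWord, FreeGroup.mk_toWord]
      group) h1
    have h2 := vkTri hc h Δ
    rw [FreeGroup.mk_toWord] at h2
    refine vk_of_mk_eq ?_ h2
    rw [← hw, ← FreeGroup.mul_mk, ← FreeGroup.mul_mk, FreeGroup.mk_toWord, FreeGroup.mk_toWord,
      List.map_cons, List.prod_cons, ← hg]
    group

end Crest.Agent.R196
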