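import Crest.Agent.R196.V5

/-! Van Kampen lemma: transport to `Diag`. -/

set_option autoImplicit false

namespace Crest.Agent.R196

open Crest.Agent.R184 (TP flp Dart Planar HasCliqueMinor)

/-- the embedding of darts -/
def vkι (T : Finset ℕ) (o : List ℕ) {m : ℕ} (hm : m = o.length) : Dart T m → VKD
  | .inl (t, i) => .inl (t.1, i)
  | .inr k => .inr (o[k.1]'(hm ▸ k.2))

section

variable {T : Finset ℕ} {o : List ℕ} {m : ℕ} (hm : m = o.length)

lemma vkι_inj (hn : o.Nodup) : Function.Injective (vkι T o hm) := by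
  rintro (⟨t, i⟩ | k) (⟨t', i'⟩ | k') h
  · simp only [vkι, Sum.inl.injEq, Prod.mk.injEq] at h
    rw [Subtype.ext h.1, h.2]
  · simp [vkι] at h
  · simp [vkι] at h
  · simp only [vkι, Sum.inr.injEq] at h
    rw [Fin.ext ((hn.getElem_inj_iff).1 h)]

lemma vkι_act (d : Dart T m) : vkAct T o (vkι T o hm d) := by
  rcases d with ⟨t, i⟩ | k
  · exact t.2
  · exact List.getElem_mem _

lemma vkι_surj {y : VKD} (hy : vkAct T o y) : ∃ d, vkι T o hm d = y := by
  rcases y with ⟨t, i⟩ | k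
  · exact ⟨.inl (⟨t, hy⟩, i), rfl⟩
  · obtain ⟨j, hj, rfl⟩ := List.getElem_of_mem hy
    exact ⟨.inr ⟨j, hm ▸ hj⟩, rfl⟩

lemma vk_finRotate (j : Fin m) :
    ((finRotate m j : Fin m) : ℕ) = j + 1 ∨ (((finRotate m j : Fin m) : ℕ) = 0 ∧ j + 1 = m) := by
  cases m with
  | zero => exact j.elim0
  | succ n =>
    rw [coe_finRotate]
    split_ifs with h
    · exact Or.inr ⟨rfl, by rw [h]; rfl⟩
    · exact Or.inl rfl

lemma vkPot_nxt {M : Type} [Group M] {α val φ} {c : M} (hp : VKPot T o α val φ c) (d : Dart T m) :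
    φ (vkι T o hm d.nxt) = φ (vkι T o hm d) * val (vkι T o hm d) := by
  rcases d with ⟨t, i⟩ | k
  · exact hp.tri t.1 t.2 i
  · obtain ⟨j, rfl⟩ := (finRotate m).surjective k
    simp only [R184.Dart.nxt, Equiv.symm_apply_apply, vkι]
    obtain ⟨g1, g2, g3⟩ := vkRun_get hp.run
    rcases vk_finRotate j with h | ⟨h, h'⟩
    · simp only [h]
      exact (g2 _ _).symm
    · simp only [h]
      rw [g1, g3 j (hm ▸ h')]

lemma vkPlanar_transport (hn : o.Nodup) {α : VKD → VKD} (hp : VKPlanar T o α)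
    {β : Dart T m → Dart T m} (hβ : ∀ d, vkι T o hm (β d) = α (vkι T o hm d)) : Planar β := by
  intro z h1 h2 h3
  set z' : VKD → VKZ := Function.extend (vkι T o hm) (fun d => Multiplicative.ofAdd (z d)) 1
    with hz'
  have hz : ∀ d, z' (vkι T o hm d) = Multiplicative.ofAdd (z d) := fun d =>
    (vkι_inj hm hn).extend_apply _ _ d
  suffices H : ∃ f c, VKPot T o α z' f c by
    obtain ⟨f, c, hf⟩ := H
    have e : ∀ d : Dart T m, (f (vkι T o hm d.nxt)).toAdd = (f (vkι T o hm d)).toAdd + z d :=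
      fun d => by rw [vkPot_nxt hm hf, hz, toAdd_mul, toAdd_ofAdd]
    refine ⟨fun d => (f (vkι T o hm d)).toAdd, e, fun d => ?_⟩
    dsimp only
    rw [e, hβ, hf.glue _ (vkι_act hm d), hz, toAdd_mul, toAdd_ofAdd]
  refine hp z' (fun y hy => ?_) (fun t ht => ?_) ?_
  · obtain ⟨d, rfl⟩ := vkι_surj hm hy
    rw [← hβ, hz, hz, h1]
  · have e : ∀ i, z' (.inl (t, i)) = Multiplicative.ofAdd (z (.inl (⟨t, ht⟩, i))) := fun i =>
      hz (.inl (⟨t, ht⟩, i))
    rw [e, e, e, ← ofAdd_add, ← ofAdd_add, h2, ofAdd_zero]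
  · subst hm
    rw [← Fin.prod_univ_fun_getElem o fun k => z' (.inr k)]
    have e : ∀ k : Fin o.length, z' (.inr o[k.1]) = Multiplicative.ofAdd (z (.inr k)) := fun k =>
      hz (.inr k)
    simp only [e]
    rw [← ofAdd_sum, h3, ofAdd_zero]

end

variable {V S H : Type} {D : HES V S H} {rev : H → H}

lemma vk_transport {w : List ((V ⊕ S) × Bool)}
    {ch : (D.tp rev).Grp × {h : H // (D.lett h).2 = true} →₀ ℤ} (Δ : VKDiag D rev w ch)
    (hΔ : Δ.Red) : ∃ (Δ' : Diag D rev w) (base : Δ'.T → (D.tp rev).Grp),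
      ∑ t, D.term rev (base t) (Δ'.θ t) = ch := by
  unfold VKDiag.Red at hΔ
  obtain ⟨T, o, nodup, lab, hw, α, inv, α_lab, ψ, pot, planar, tm, cell, chain⟩ := Δ
  dsimp only at hΔ
  have hm : w.length = o.length := by rw [← hw, List.length_map]
  choose θ hθ1 hθ2 using cell
  choose β hβ using fun d : Dart T w.length => vkι_surj hm (inv.act _ (vkι_act hm d))
  have hl : ∀ d : Dart T w.length, D.lab rev w (fun t : T => θ t.1 t.2) d = lab (vkι T o hm d) := by
    rintro (⟨t, i⟩ | k)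
    · exact (hθ1 t.1 t.2 i).symm
    · subst hw
      simp [HES.lab, vkι]
  refine ⟨⟨T, fun t => θ t.1 t.2, β, fun d => ?_, fun d => ?_,
    vkPlanar_transport hm nodup planar hβ, fun t i t' i' h e => ?_⟩,
    fun t => ψ (.inl (t.1, 0)), ?_⟩
  · apply vkι_inj hm nodup
    rw [hβ, hβ, inv.inv _ (vkι_act hm d)]
  · rw [hl, hl, hβ, α_lab _ (vkι_act hm d)]
  · have := hβ (.inl (t, i))
    rw [h] at this
    exact hΔ t.1 t.2 i t'.1 i' _ this.symm (hθ1 t.1 t.2) fun j => e ▸ hθ1 t'.1 t'.2 j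
  · rw [← chain, ← Finset.sum_coe_sort T tm]
    exact Finset.sum_congr rfl fun t _ => (hθ2 t.1 t.2).symm

end Crest.Agent.R196
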