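import Crest.Agent.R196.V0
import Crest.Agent.R184.EulerAux

/-! Local structure of diagrams and Euler's inequality. -/

set_option autoImplicit false

namespace Crest.Agent.R196

open Crest.Agent.R184 (TP flp Dart Planar HasCliqueMinor)

open Finset

namespace Diag

variable {V S H : Type} {D : HES V S H} {rev : H → H} {w : List ((V ⊕ S) × Bool)}
  (Δ : Diag D rev w)

lemma Euler_alpha_ne (d : Dart Δ.T w.length) : Δ.α d ≠ d := fun h => by
  have := Δ.α_lab d
  rw [h] at this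
  exact R184.Euler_flp_ne _ this.symm

lemma Euler_alpha_symm {d e : Dart Δ.T w.length} (h : Δ.α d = e) : Δ.α e = d := by
  rw [← h, Δ.α_α]

lemma Euler_side2 {t s : Δ.T} {i : Fin 3} (h : Δ.α (.inl (t, 2)) = .inl (s, i)) : i = 0 := by
  have := Δ.α_lab (.inl (t, 2))
  rw [h] at this
  fin_cases i <;> simp [HES.lab, HES.side, flp] at this ⊢

lemma Euler_side1 {t s : Δ.T} {i : Fin 3} (h : Δ.α (.inl (t, 1)) = .inl (s, i)) : i = 1 := by
  have := Δ.α_lab (.inl (t, 1))
  rw [h] at this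
  fin_cases i <;> simp [HES.lab, HES.side, flp] at this ⊢

lemma Euler_across_some {i : Fin 3} {t s : Δ.T} :
    Δ.across i t = some s ↔ ∃ j, Δ.α (.inl (t, i)) = .inl (s, j) := by
  unfold across
  rcases Δ.α (.inl (t, i)) with ⟨t', j⟩ | k <;> simp

lemma Euler_across_none {i : Fin 3} {t : Δ.T} :
    Δ.across i t = none ↔ ∃ k, Δ.α (.inl (t, i)) = .inr k := by
  unfold across
  rcases Δ.α (.inl (t, i)) with ⟨t', j⟩ | k <;> simp

theorem nx_eq_some {t s : Δ.T} : Δ.nx t = some s ↔ Δ.α (.inl (t, 2)) = .inl (s, 0) := by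
  unfold nx
  rw [Euler_across_some]
  exact ⟨fun ⟨j, hj⟩ => Δ.Euler_side2 hj ▸ hj, fun h => ⟨0, h⟩⟩

theorem mu_eq_some {t s : Δ.T} : Δ.mu t = some s ↔ Δ.α (.inl (t, 1)) = .inl (s, 1) := by
  unfold mu
  rw [Euler_across_some]
  exact ⟨fun ⟨j, hj⟩ => Δ.Euler_side1 hj ▸ hj, fun h => ⟨1, h⟩⟩

theorem nx_inj {t t' s : Δ.T} (h : Δ.nx t = some s) (h' : Δ.nx t' = some s) : t = t' := by
  have h1 := Δ.Euler_alpha_symm (Δ.nx_eq_some.1 h)
  have h2 := Δ.Euler_alpha_symm (Δ.nx_eq_some.1 h')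
  simpa using h1.symm.trans h2

theorem nx_spec {t s : Δ.T} (h : Δ.nx t = some s) :
    D.vert (Δ.θ s) = D.vert (rev (Δ.θ t)) ∧ Δ.θ s ≠ rev (Δ.θ t) := by
  have h1 := Δ.nx_eq_some.1 h
  refine ⟨?_, Δ.reduced _ _ _ _ h1⟩
  have := Δ.α_lab (.inl (t, 2))
  rw [h1] at this
  simpa [HES.lab, HES.side, flp] using this

theorem mu_symm {t s : Δ.T} (h : Δ.mu t = some s) : Δ.mu s = some t := by
  exact Δ.mu_eq_some.2 (Δ.Euler_alpha_symm (Δ.mu_eq_some.1 h))

theorem mu_spec {t s : Δ.T} (h : Δ.mu t = some s) :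
    D.lett (Δ.θ s) = flp (D.lett (Δ.θ t)) ∧ Δ.θ s ≠ rev (Δ.θ t) := by
  have h1 := Δ.mu_eq_some.1 h
  refine ⟨?_, Δ.reduced _ _ _ _ h1⟩
  have := Δ.α_lab (.inl (t, 1))
  rw [h1] at this
  simp only [HES.lab, HES.side, flp, Matrix.cons_val_one, Matrix.cons_val_zero, Prod.mk.injEq,
    Sum.inr.injEq] at this
  exact Prod.ext this.1 this.2

lemma Euler_card_none (i : Fin 3) (p : (V ⊕ S) × Bool → Bool)
    (hp : ∀ h, p (D.side rev h i) = true) : #{t | Δ.across i t = none} ≤ w.countP p := by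
  classical
  rw [← R184.Euler_card_countP,
    ← Finset.card_map (Function.Embedding.inr (α := Δ.T × Fin 3) (β := Fin w.length))]
  refine Finset.card_le_card_of_injOn (fun t => Δ.α (.inl (t, i))) (fun t ht => ?_)
    fun t _ t' _ h => ?_
  · obtain ⟨k, hk⟩ := Δ.Euler_across_none.1 (Finset.mem_filter.1 (Finset.mem_coe.1 ht)).2
    have := Δ.α_lab (.inl (t, i))
    rw [hk] at this
    have e : w.get k = D.side rev (Δ.θ t) i := R184.Euler_flp_inj this
    refine Finset.mem_coe.2 (Finset.mem_map.2 ⟨k, Finset.mem_filter.2 ⟨Finset.mem_univ _, ?_⟩,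
      hk.symm⟩)
    rw [e, hp]
  · have := congrArg Δ.α h
    simpa [Δ.α_α] using this

/-- triangles without successor come from boundary letters `c_v⁻¹` -/
theorem card_nx_none :
    #{t | Δ.nx t = none} ≤ w.countP fun x => x.1.isLeft && !x.2 := by
  exact Δ.Euler_card_none 2 _ fun h => by simp [HES.side]

/-- unmatched triangles come from boundary letters of the second kind -/
theorem card_mu_none : #{t | Δ.mu t = none} ≤ w.countP fun x => x.1.isRight := by
  exact Δ.Euler_card_none 1 _ fun h => by simp [HES.side]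

end Diag

end Crest.Agent.R196
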