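import Crest.Agent.R196.V6

/-! The van Kampen lemma: reduced planar diagrams with prescribed boundary and 2-chain. -/

set_option autoImplicit false

namespace Crest.Agent.R196

open Crest.Agent.R184 (TP flp Dart Planar HasCliqueMinor)

theorem vanKampen {V S H : Type} (D : HES V S H) {rev : H → H} (hc : D.IsConf rev)
    (hg : D.Girth rev 1) (l : List (FreeGroup (V ⊕ S) × H)) (w : List ((V ⊕ S) × Bool))
    (hw : (l.map fun x => x.1 * FreeGroup.mk (D.tri rev x.2) * x.1⁻¹).prod = FreeGroup.mk w) :
    ∃ (Δ : Diag D rev w) (base : Δ.T → (D.tp rev).Grp),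
      ∑ t, D.term rev (base t) (Δ.θ t) =
        (l.map fun x => D.term rev ((D.tp rev).pr x.1) x.2).sum := by
  by_cases hx : Nonempty ((V ⊕ S) × Bool)
  · obtain ⟨x0⟩ := hx
    obtain ⟨Δ⟩ := vk_exists hc x0 l w hw
    obtain ⟨Δ', h'⟩ := vk_reduce hc hg Δ
    exact vk_transport Δ' h'
  · obtain rfl : w = [] := by
      cases w with
      | nil => rfl
      | cons x _ => exact absurd ⟨x⟩ hx
    obtain rfl : l = [] := by
      cases l with
      | nil => rfl
      | cons x _ => exact absurd ⟨D.side rev x.2 0⟩ hx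
    have hd : ∀ d : Dart Empty ([] : List ((V ⊕ S) × Bool)).length, False := by
      rintro (⟨t, _⟩ | k)
      · exact t.elim
      · exact k.elim0
    exact ⟨⟨Empty, Empty.elim, id, fun _ => rfl, fun d => (hd d).elim,
      fun _ _ _ _ => ⟨fun _ => 0, fun d => (hd d).elim, fun d => (hd d).elim⟩,
      fun t => t.elim⟩, Empty.elim, by simp⟩

end Crest.Agent.R196
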